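import Vale.Agent.P018.H867Q.All
import Vale.Agent.P018.H867P.TailP

/-! # P018, H867Q: irreducible quartics, squares of prime numbers near `X`. -/

set_option linter.all false

namespace Vale.Agent.P018.Q.N

open Polynomial NumberField Finset Vale.Agent.P018.H867P

theorem pairs_le (f : ℤ[X]) (hirr : Irreducible (f.map (Int.castRingHom ℚ)))
    (hd : f.natDegree = 4) (a0 : ℤ) (ha0 : a0 ≠ 0) : ∃ X1 : ℕ, ∀ X P : ℕ, X1 ≤ X → X ≤ P ^ 2 →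
    (pairs f 2 X P).card ≤ 4 * ((pairs f 2 X P).image (fun w => a0 * (w.1 : ℤ))).card := by
  classical
  obtain ⟨X1, hX1⟩ := Vale.Agent.P018.H867P.loc_mult_p3 f hirr (by omega) 2 (by norm_num)
  refine ⟨X1, fun X P h1 h2 => ?_⟩
  refine card_le_mul_card_image _ 4 ?_
  intro b hb
  obtain ⟨w, hw, rfl⟩ := mem_image.1 hb
  refine le_trans (card_le_card ?_) ((hX1 X P h1 h2 w.1).trans hd.le)
  intro v hv
  rw [mem_filter] at hv ⊢
  refine ⟨hv.1, ?_⟩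
  have := mul_left_cancel₀ ha0 hv.2
  exact_mod_cast this

theorem exists_dat (f : ℤ[X]) (hirr : Irreducible (f.map (Int.castRingHom ℚ)))
    (hd : f.natDegree = 4) :
    ∃ (L : Type) (_ : Field L) (_ : NumberField L) (θ : Fin 4 → 𝓞 L) (G : ℤ[X]) (a0 : ℤ) (C1 : ℕ),
      a0 ≠ 0 ∧ G.Monic ∧ G.natDegree = 4 ∧ Irreducible (G.map (Int.castRingHom ℚ)) ∧
      Function.Injective θ ∧ G.map (algebraMap ℤ (𝓞 L)) = ∏ i, (X - C (θ i)) ∧
      ∀ X P : ℕ, C1 ≤ X → X ≤ P ^ 2 → ∀ w ∈ pairs f 2 X P, ∃ (c : ℤ) (y z : Fin 4 → ℤ),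
        Dat θ C1 X ((P : ℝ) ^ (1 / 4 : ℝ)) (a0 * w.1) w.2 c y z := by
  classical
  have h0 := K.exists_field f hirr (by omega)
  rw [hd] at h0
  obtain ⟨L, _, _, θ, G, a0, ha0, hGm, hGd, hGi, hθi, hθ, hGe⟩ := h0
  obtain ⟨Cs, hCs1, hsmall⟩ := K.exists_small L (by norm_num) G hGm hGd hGi θ hθ 2 (by norm_num)
  obtain ⟨D, hD⟩ := dval_prod hGd θ hθ
  obtain ⟨A, hA1, hA⟩ := data_sizes θ
  obtain ⟨σ⟩ : Nonempty (L →+* ℂ) := inferInstance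
  obtain ⟨ψ, hψ⟩ : ∃ ψ : 𝓞 L →+* ℂ, ∀ x : 𝓞 L, ψ x = σ x :=
    ⟨σ.comp (algebraMap (𝓞 L) L), fun _ => rfl⟩
  have hD0 : D ≠ 0 := by
    rintro rfl
    have h1 : ∏ k, dval θ k ≠ 0 := by
      refine prod_ne_zero_iff.2 fun k _ => prod_ne_zero_iff.2 fun j hj => ?_
      rw [sub_ne_zero]
      exact fun h => (mem_erase.1 hj).1 (hθi h).symm
    exact h1 (by rw [← hD]; simp)
  -- the constants
  obtain ⟨E, hE⟩ : ∃ E : ℝ, E = ∑ i, ∑ j : Fin 4, ‖ψ ((ipol θ i).coeff j)‖ := ⟨_, rfl⟩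
  obtain ⟨M, hM⟩ : ∃ M : ℝ, M = ∑ i, ‖ψ (θ i)‖ := ⟨_, rfl⟩
  have hE0 : 0 ≤ E := by
    rw [hE]
    exact sum_nonneg fun _ _ => sum_nonneg fun _ _ => norm_nonneg _
  have hM0 : 0 ≤ M := by
    rw [hM]
    exact sum_nonneg fun _ _ => norm_nonneg _
  have hMi : ∀ i, ‖ψ (θ i)‖ ≤ M := by
    intro i
    rw [hM]
    exact single_le_sum (f := fun i => ‖ψ (θ i)‖) (fun _ _ => norm_nonneg _) (mem_univ i)
  obtain ⟨KZ, hKZ⟩ : ∃ KZ : ℝ, KZ = (Cs : ℝ) ^ 2 * (|(a0 : ℝ)| + M) * (A * 2) ^ 6 * E :=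
    ⟨_, rfl⟩
  refine ⟨L, inferInstance, inferInstance, θ, G, a0,
    Cs ^ 2 * D.natAbs + Cs + 2 + a0.natAbs + ⌈KZ⌉₊, ha0, hGm, hGd, hGi, hθi, hθ, ?_⟩
  intro X P hX hXP w hw
  rw [pairs, mem_filter, mem_product, mem_Icc, mem_Ioc] at hw
  obtain ⟨⟨⟨hw1, hw2⟩, hw3, hw4⟩, hwp, hwd⟩ := hw
  obtain ⟨T, hT⟩ : ∃ T : ℝ, T = (P : ℝ) ^ (1 / 4 : ℝ) := ⟨_, rfl⟩
  rw [← hT]
  have hX2 : 2 ≤ X := by omega
  have hP0 : 1 ≤ P := by
    rcases Nat.eq_zero_or_pos P with h | h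
    · rw [h] at hXP
      omega
    · exact h
  have hP1 : (1 : ℝ) ≤ P := by exact_mod_cast hP0
  have hCsP : Cs ≤ P := by
    by_contra hlt
    push Not at hlt
    have e1 : P ^ 2 < Cs ^ 2 := Nat.pow_lt_pow_left hlt (by norm_num)
    have e2 : Cs ^ 2 ≤ Cs ^ 2 * D.natAbs := Nat.le_mul_of_pos_right _ (Int.natAbs_pos.2 hD0)
    omega
  have hT1 : 1 ≤ T := by
    rw [hT]
    exact Real.one_le_rpow hP1 (by norm_num)
  have hT4 : T ^ 4 = P := by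
    rw [hT, ← Real.rpow_natCast, ← Real.rpow_mul (by linarith only [hP1])]
    norm_num
  obtain ⟨y, c, γ, hy0, hyp, hc0, hcC, hprod, heq⟩ := hsmall w.2 (a0 * w.1) hwp (by omega) (by
    rw [hGe]
    exact hwd.mul_left _)
  obtain ⟨q, hq, hqγ⟩ := data_conj hGm hGd hGi θ hθ y hy0 c (a0 * w.1) γ heq
  obtain ⟨z, hz1, hz2⟩ := data_coord θ hθi D hD γ q hq hqγ
  have hXr : (1 : ℝ) ≤ X := by exact_mod_cast (by omega : 1 ≤ X)
  have hyT : ∀ j, |(y j : ℝ)| ≤ 2 * T := by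
    intro j
    have h10 : |(y j : ℝ)| ^ 4 ≤ (2 * T) ^ 4 := by
      have h11 : (|(y j : ℝ)|) ^ 4 ≤ (w.2 : ℝ) := by exact_mod_cast hyp j
      have h12 : (w.2 : ℝ) ≤ 2 * P := by exact_mod_cast hw4
      rw [mul_pow, hT4]
      linarith only [h12, h11, hP1]
    exact (pow_le_pow_iff_left₀ (abs_nonneg _) (by linarith only [hT1]) (by norm_num)).1 h10
  have hlo : T ^ 4 ≤ (w.2 : ℝ) := by
    rw [hT4]
    exact_mod_cast hw3.le
  have hW : T ^ 4 ≤ |(((w.2 : ℤ) * c : ℤ) : ℝ)| := by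
    push_cast
    rw [abs_mul, abs_of_nonneg (show (0 : ℝ) ≤ (w.2 : ℝ) by (clear * -; positivity))]
    have h1 : (1 : ℝ) ≤ |(c : ℝ)| := by exact_mod_cast Int.one_le_abs hc0
    have h3 : (0 : ℝ) ≤ w.2 := by (clear * -; positivity)
    linarith only [mul_nonneg (sub_nonneg.2 h1) (sub_nonneg.2 h3), hlo]
  have hsz : ∀ i, T ^ 4 / (A * (2 * T)) ^ 3 ≤ ‖ψ (K.ell (θ i) y)‖ := by
    intro i
    rw [hψ]
    exact (hA σ y (2 * T) (T ^ 4) _ (by (clear * - hT1; positivity)) hyT hprod hW i).2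
  have hcr : |(c : ℝ)| ≤ Cs := by exact_mod_cast hcC
  have hNr : ‖ψ (((a0 * w.1 : ℤ) : 𝓞 L))‖ ≤ |(a0 : ℝ)| * X := by
    rw [map_intCast, Complex.norm_intCast]
    push_cast
    rw [abs_mul, abs_of_nonneg (show (0 : ℝ) ≤ (w.1 : ℝ) by (clear * - hw1; positivity))]
    exact mul_le_mul_of_nonneg_left (by exact_mod_cast hw2) (abs_nonneg _)
  -- the size of `γ`
  have hγ : ∀ i, ‖ψ (γ i)‖ ≤ (Cs : ℝ) ^ 2 * (|(a0 : ℝ)| + M) * (A * 2) ^ 6 * (X / T ^ 2) := by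
    intro i
    have e1 := congrArg (fun x => ‖ψ x‖) (heq i)
    simp only [map_mul, map_pow, map_sub, norm_mul, norm_pow] at e1
    have e2 : ‖ψ ((a0 * w.1 : ℤ) : 𝓞 L) - ψ (θ i)‖ ≤ (|(a0 : ℝ)| + M) * X := by
      have e3 := hMi i
      refine (norm_sub_le _ _).trans ?_
      linarith only [mul_nonneg (sub_nonneg.2 hM0) (sub_nonneg.2 hXr), e3, hNr]
    have e4 : ‖ψ (c : 𝓞 L)‖ ≤ Cs := by
      rw [map_intCast, Complex.norm_intCast]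
      exact hcr
    have e5 : T / (A * 2) ^ 3 ≤ ‖ψ (K.ell (θ i) y)‖ := by
      refine le_trans (le_of_eq ?_) (hsz i)
      have : T ≠ 0 := by linarith only [hT1]
      have : A ≠ 0 := by linarith only [hA1]
      field_simp
      try ring
    have e6 : 0 < T / (A * 2) ^ 3 := by (clear * - hT1 hA1; positivity)
    have e7 : (T / (A * 2) ^ 3) ^ 2 * ‖ψ (γ i)‖ ≤ (Cs : ℝ) ^ 2 * ((|(a0 : ℝ)| + M) * X) := by
      calc (T / (A * 2) ^ 3) ^ 2 * ‖ψ (γ i)‖ ≤ ‖ψ (K.ell (θ i) y)‖ ^ 2 * ‖ψ (γ i)‖ :=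
            mul_le_mul_of_nonneg_right (pow_le_pow_left₀ e6.le e5 2) (norm_nonneg _)
        _ = ‖ψ (c : 𝓞 L)‖ ^ 2 * ‖ψ ((a0 * w.1 : ℤ) : 𝓞 L) - ψ (θ i)‖ := e1.symm
        _ ≤ _ := mul_le_mul (pow_le_pow_left₀ (norm_nonneg _) e4 2) e2 (norm_nonneg _)
            (by positivity)
    have e8 : ‖ψ (γ i)‖ = (T / (A * 2) ^ 3) ^ 2 * ‖ψ (γ i)‖ * ((A * 2) ^ 6 / T ^ 2) := by
      have : T ≠ 0 := by linarith only [hT1]
      have : A ≠ 0 := by linarith only [hA1]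
      field_simp
      try ring
    rw [e8]
    calc (T / (A * 2) ^ 3) ^ 2 * ‖ψ (γ i)‖ * ((A * 2) ^ 6 / T ^ 2)
        ≤ (Cs : ℝ) ^ 2 * ((|(a0 : ℝ)| + M) * X) * ((A * 2) ^ 6 / T ^ 2) :=
          mul_le_mul_of_nonneg_right e7 (by (clear * - hA1 hT1; positivity))
      _ = _ := by ring
  have hzT : ∀ j, |(z j : ℝ)| ≤ KZ * X / T ^ 2 := by
    intro j
    have e1 : |(z j : ℝ)| = ‖ψ ((hpol θ γ).coeff j)‖ := by
      rw [hz1 j, map_intCast, Complex.norm_intCast]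
    rw [e1]
    unfold hpol
    rw [finsetSum_coeff, map_sum]
    refine (norm_sum_le _ _).trans ?_
    have e2 : ∀ i ∈ (univ : Finset (Fin 4)), ‖ψ ((C (γ i) * ipol θ i).coeff j)‖ ≤
        (Cs : ℝ) ^ 2 * (|(a0 : ℝ)| + M) * (A * 2) ^ 6 * (X / T ^ 2) *
          ∑ j : Fin 4, ‖ψ ((ipol θ i).coeff j)‖ := by
      intro i _
      rw [coeff_C_mul, map_mul, norm_mul]
      exact mul_le_mul (hγ i) (single_le_sum (f := fun j : Fin 4 => ‖ψ ((ipol θ i).coeff j)‖)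
        (fun _ _ => norm_nonneg _) (mem_univ j)) (norm_nonneg _) (by (clear * - hCs1 ha0 hM0 hA1 hX2 hT1; positivity))
    refine (sum_le_sum e2).trans ?_
    rw [← mul_sum, ← hE, hKZ]
    apply le_of_eq
    ring
  refine ⟨c ^ 2 * D, y, z, ?_⟩
  have hKZc : KZ ≤ ((Cs ^ 2 * D.natAbs + Cs + 2 + a0.natAbs + ⌈KZ⌉₊ : ℕ) : ℝ) := by
    have e1 := Nat.le_ceil KZ
    have e2 : (⌈KZ⌉₊ : ℝ) ≤ ((Cs ^ 2 * D.natAbs + Cs + 2 + a0.natAbs + ⌈KZ⌉₊ : ℕ) : ℝ) := by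
      exact_mod_cast Nat.le_add_left _ _
    linarith only [e2, e1]
  constructor
  · exact hwp
  · exact hlo
  · rw [hT4]
    exact_mod_cast hw4
  · exact mul_ne_zero (pow_ne_zero 2 hc0) hD0
  · rw [abs_mul, abs_pow]
    have e1 : |c| ^ 2 ≤ (Cs : ℤ) ^ 2 := pow_le_pow_left₀ (abs_nonneg _) hcC 2
    push_cast
    have e3 : |c| ^ 2 * |D| ≤ (Cs : ℤ) ^ 2 * |D| := mul_le_mul_of_nonneg_right e1 (abs_nonneg _)
    have e4 : (0 : ℤ) ≤ ⌈KZ⌉₊ := Int.natCast_nonneg _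
    have e5 := abs_nonneg a0
    linarith only [e5, e4, e3, hCs1]
  · refine ⟨c, hc0, ?_, hprod⟩
    refine hcC.trans ?_
    have : Cs ≤ Cs ^ 2 * D.natAbs + Cs + 2 + a0.natAbs + ⌈KZ⌉₊ := by omega
    exact_mod_cast this
  · intro i
    have e1 := heq i
    have e2 := hz2 i
    rw [← e2]
    push_cast at e1 ⊢
    linear_combination (D : 𝓞 L) * e1
  · push_cast
    rw [abs_mul, abs_of_nonneg (show (0 : ℝ) ≤ (w.1 : ℝ) by positivity)]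
    have e1 : |(a0 : ℝ)| = (a0.natAbs : ℝ) := by
      rw [Nat.cast_natAbs]
      push_cast
      rfl
    have e2 : (w.1 : ℝ) ≤ X := by exact_mod_cast hw2
    refine mul_le_mul ?_ e2 (by positivity) (by (clear * - hCs1 hD0 ha0; positivity))
    rw [e1]
    have : a0.natAbs ≤ Cs ^ 2 * D.natAbs + Cs + 2 + a0.natAbs + ⌈KZ⌉₊ := by omega
    exact_mod_cast this
  · intro j
    refine (hyT j).trans (mul_le_mul_of_nonneg_right ?_ (by linarith only [hT1]))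
    have : 2 ≤ Cs ^ 2 * D.natAbs + Cs + 2 + a0.natAbs + ⌈KZ⌉₊ := by omega
    exact_mod_cast this
  · intro j
    refine (hzT j).trans ?_
    rw [mul_div_assoc, mul_div_assoc]
    exact mul_le_mul_of_nonneg_right hKZc (by (clear * - hX2 hT1; positivity))

/-- irreducible quartics, the prime numbers near `X`. -/
theorem nearOne_quartic (f : ℤ[X]) (hirr : Irreducible (f.map (Int.castRingHom ℚ)))
    (hd : f.natDegree = 4) : NearOne f 2 := by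
  classical
  obtain ⟨L, _, _, θ, G, a0, C1, ha0, hGm, hGd, hGi, hθi, hθ, hdat⟩ := N.exists_dat f hirr hd
  obtain ⟨C2, hC2, hrk⟩ := exists_rank2
  have hF : Fld G θ := ⟨hGm, hGd, hGi, hθi, hθ⟩
  obtain ⟨X1, hX1⟩ := N.pairs_le f hirr hd a0 ha0
  obtain ⟨ε, hε, K, hK, hall⟩ := N.all_pairs hF (C1 + ⌈C2 * (4 * (C1 : ℝ) ^ 2 + 1)⌉₊) (1 / 4)
    le_rfl (by norm_num)
  refine ⟨min (4 * ε) (1 / 4), ε, 4, lt_min (by positivity) (by norm_num), hε, by norm_num,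
    max (max X1 C1) (max 2 ⌈K⌉₊), ?_⟩
  intro X P hX hm1 hm2
  have hXX1 : X1 ≤ X := le_trans (le_max_left _ _) (le_trans (le_max_left _ _) hX)
  have hXC1 : C1 ≤ X := le_trans (le_max_right _ _) (le_trans (le_max_left _ _) hX)
  have hX2 : 2 ≤ X := le_trans (le_max_left _ _) (le_trans (le_max_right _ _) hX)
  have hXK : ⌈K⌉₊ ≤ X := le_trans (le_max_right _ _) (le_trans (le_max_right _ _) hX)
  have hXK' : K ≤ X := (Nat.le_ceil K).trans (by exact_mod_cast hXK)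
  have hXr : (1 : ℝ) < X := by exact_mod_cast (show 1 < X by omega)
  have hX0 : (0 : ℝ) < X := by linarith only [hXr]
  have hε1 : min (4 * ε) (1 / 4) ≤ 4 * ε := min_le_left _ _
  have hε2 : min (4 * ε) (1 / 4) ≤ 1 / 4 := min_le_right _ _
  have hPr : (0 : ℝ) < P := lt_of_lt_of_le (Real.rpow_pos_of_pos hX0 _) hm1
  have hP34 : (X : ℝ) ^ (3 / 4 : ℝ) ≤ P :=
    (Real.rpow_le_rpow_of_exponent_le hXr.le (by linarith only [hε2])).trans hm1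
  have hXP3 : (X : ℝ) ^ 3 ≤ (P : ℝ) ^ 4 := by
    calc (X : ℝ) ^ 3 = ((X : ℝ) ^ (3 / 4 : ℝ)) ^ 4 := by
          rw [← Real.rpow_natCast ((X : ℝ) ^ (3 / 4 : ℝ)), ← Real.rpow_mul hX0.le,
            ← Real.rpow_natCast]
          norm_num
      _ ≤ (P : ℝ) ^ 4 := pow_le_pow_left₀ (by positivity) hP34 4
  have hXP : X ≤ P ^ 2 := by
    have h1 : (X : ℝ) ≤ (P : ℝ) ^ 2 := by
      calc (X : ℝ) = ((X : ℝ) ^ (1 / 2 : ℝ)) ^ 2 := by
            rw [← Real.rpow_natCast, ← Real.rpow_mul hX0.le]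
            norm_num
        _ ≤ (P : ℝ) ^ 2 := pow_le_pow_left₀ (by positivity)
            ((Real.rpow_le_rpow_of_exponent_le hXr.le (by norm_num)).trans hP34) 2
    exact_mod_cast h1
  obtain ⟨T, hT⟩ : ∃ T : ℝ, T = (P : ℝ) ^ (1 / 4 : ℝ) := ⟨_, rfl⟩
  have hT0 : 0 < T := by rw [hT]; (clear * - hPr; positivity)
  have hT4 : T ^ 4 = P := by
    rw [hT, ← Real.rpow_natCast, ← Real.rpow_mul hPr.le]
    norm_num
  have key := hall X T ((pairs f 2 X P).image (fun w => a0 * (w.1 : ℤ))) hXK'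
    (by
      calc (X : ℝ) ^ 3 ≤ (P : ℝ) ^ 4 := hXP3
        _ = T ^ 16 := by rw [← hT4]; ring)
    (by
      rw [hT]
      calc (X : ℝ) ^ (1 / 4 - ε) ≤ (X : ℝ) ^ ((1 - min (4 * ε) (1 / 4)) * (1 / 4)) :=
            Real.rpow_le_rpow_of_exponent_le hXr.le (by linarith only [hε1])
        _ = ((X : ℝ) ^ (1 - min (4 * ε) (1 / 4))) ^ (1 / 4 : ℝ) := Real.rpow_mul hX0.le _ _
        _ ≤ (P : ℝ) ^ (1 / 4 : ℝ) :=
            Real.rpow_le_rpow (Real.rpow_nonneg hX0.le _) hm1 (by norm_num))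
    (by
      rw [hT]
      calc (P : ℝ) ^ (1 / 4 : ℝ) ≤ ((X : ℝ) ^ (1 + min (4 * ε) (1 / 4))) ^ (1 / 4 : ℝ) :=
            Real.rpow_le_rpow hPr.le hm2 (by norm_num)
        _ = (X : ℝ) ^ ((1 + min (4 * ε) (1 / 4)) * (1 / 4)) := (Real.rpow_mul hX0.le _ _).symm
        _ ≤ (X : ℝ) ^ (1 / 4 + ε) :=
            Real.rpow_le_rpow_of_exponent_le hXr.le (by linarith only [hε1]))
    (by
      intro N hN
      obtain ⟨w, hw, rfl⟩ := Finset.mem_image.1 hN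
      obtain ⟨c, y, z, hD⟩ := hdat X P hXC1 hXP w hw
      rw [← hT] at hD
      obtain ⟨l1, l2, s, t, r1, r2, r3, r4, r5⟩ := hrk y (dat_y_ne hD)
      have hdy := dot_le_sq y _ hD.hy
      have hdy0 : (0 : ℝ) ≤ dot y y := by exact_mod_cast dot_nonneg y
      refine ⟨l1, l2, w.2, c, z, s, t, r1, r3.trans (rank_size C1 C2 T _ hC2 hT0.le hdy0 hdy), ?_⟩
      have hD2 := dat_mono (Nat.le_add_right C1 ⌈C2 * (4 * (C1 : ℝ) ^ 2 + 1)⌉₊) hX0.le hT0.le hD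
      rw [r2] at hD2
      exact ⟨hD2, r4.trans (rank_size2 C1 C2 T _ hC2 hdy), r5.trans (rank_size2 C1 C2 T _ hC2 hdy)⟩)
  have h4 := hX1 X P hXX1 hXP
  have h5 : ((pairs f 2 X P).card : ℝ) ≤
      4 * (((pairs f 2 X P).image (fun w => a0 * (w.1 : ℤ))).card : ℝ) := by exact_mod_cast h4
  linarith only [h5, key]

end Vale.Agent.P018.Q.N
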