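import Vale.Agent.P018.H867Q.Pair

/-! # P018, H867Q: all reduced pairs, with the prime numbers slightly below `X`
(copies of theorems of `Bdl/B9.lean`, `Bdl/B18.lean`, `Bdl/B19.lean`, `Bdl/B10.lean` with weaker
hypotheses on the sizes). -/

set_option linter.all false

namespace Vale.Agent.P018.Q.N

open Polynomial NumberField Finset

variable {L : Type} [Field L] [NumberField L]

theorem rel_class {G : ℤ[X]} {θ : Fin 4 → 𝓞 L} (hF : Fld G θ) (C : ℕ) (w m1 m2 β : ℝ)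
    (hw : 0 < w) (hm1 : 0 ≤ m1) (hm2 : 0 ≤ m2) (hm : m2 < w) (hβ : 0 < β)
    (hrel : NumRel w m1 m2 β) :
    ∃ ε : ℝ, 0 < ε ∧ ∃ (Nd D C0 : ℕ) (K : ℝ), 0 < K ∧ ∀ (H : ℕ) (X T : ℝ) (l1 l2 : Fin 4 → ℤ)
      (q : ℕ) (σ0 : ℤ), K ≤ X → X ≤ H → X ^ 3 ≤ T ^ 16 → X ^ (w - ε) ≤ T → T ≤ X ^ (w + ε) →
      X ^ (2 * (m1 - ε)) ≤ dot l1 l1 → (dot l1 l1 : ℝ) ≤ X ^ (2 * (m1 + ε)) →
      X ^ (2 * (m2 - ε)) ≤ dot l2 l2 → (dot l2 l2 : ℝ) ≤ X ^ (2 * (m2 + ε)) →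
      X ^ (β - ε) ≤ q → (q : ℝ) ≤ X ^ (β + ε) → (∀ p : ℕ, p.Prime → T ^ 4 ≤ p → ¬ p ∣ q) →
      ∃ F : ℤ[X][X], F ≠ 0 ∧ BiDeg Nd D F ∧ (∀ a b, |(F.coeff a).coeff b| ≤ (H : ℤ) ^ C0) ∧
        ∀ (N : ℤ) (p : ℕ) (c : ℤ) (z : Fin 4 → ℤ) (s t : ℤ), Pt θ C X T l1 l2 N p c z s t →
          IsCoprime t (q : ℤ) → (q : ℤ) ∣ s - σ0 * t → val Nd D F N s t = 0 := by
  obtain ⟨M, D, Nd, ν, ω, δ, hM, hδ, hωm, hω1, hN2⟩ := hrel
  obtain ⟨K0, Δ, hK0, hΔ0, hstep⟩ := relation_step G hF.monic hF.deg hF.irr θ hF.inj hF.split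
  obtain ⟨Ka, hKa, hell⟩ := ell_bound θ
  obtain ⟨Kb, hKb, hnorm⟩ := norm_int hF
  obtain ⟨ε, η, hε, hη, hDε, hsmall, hsz, hεm, hεβ⟩ := rq_eps M D Nd ν w m2 β δ hm hβ hδ
  obtain ⟨Cst, hCst⟩ : ∃ Cst : ℝ,
    Cst = (((Nd : ℝ) + 1) * ((D : ℝ) + 1) * (2 ^ Nd * 2 ^ D * K0 ^ Nd * Ka ^ D)) := ⟨_, rfl⟩
  have hCst0 : 0 ≤ Cst := by
    rw [hCst]
    (clear * - hK0 hKa; positivity)
  obtain ⟨Kx, hK1, hK⟩ := rq_large (K0 * Cst + 1)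
    (((Nd : ℝ) + 1) * (D + 1) * ((C : ℝ) + 1) ^ (Nd + D)) Kb C |(Δ : ℝ)| (η / 2) (δ / 2)
    (2 * (w - m2)) (β / 2) (by positivity) (by positivity) (by linarith only [hε, hεm]) (by positivity)
  refine ⟨ε, hε, Nd, D, ⌈∑ a ∈ range (Nd + 1), |ω a| + D * (m1 + ε) + D * (m2 + ε)⌉₊,
    Kx + ((C : ℝ) ^ 2 + (Δ : ℝ) ^ 2 + 1),
    by linarith only [hK1, sq_nonneg (C : ℝ), sq_nonneg (Δ : ℝ)], ?_⟩
  have hceil := Nat.le_ceil (∑ a ∈ range (Nd + 1), |ω a| + D * (m1 + ε) + D * (m2 + ε))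
  generalize ⌈∑ a ∈ range (Nd + 1), |ω a| + D * (m1 + ε) + D * (m2 + ε)⌉₊ = C0 at hceil ⊢
  intro H X T l1 l2 q σ0 hKX' hXH hXT hT1 hT2 ha1 hb1 ha2 hb2 hq1 hq2 hpq
  have hKX : Kx ≤ X := by linarith only [hKX', sq_nonneg (C : ℝ), sq_nonneg (Δ : ℝ)]
  have hK2C : (C : ℝ) ^ 2 < X := by
    linarith only [hKX', hK1, sq_nonneg (C : ℝ), sq_nonneg (Δ : ℝ)]
  have hK2D : (Δ : ℝ) ^ 2 < X := by
    linarith only [hKX', hK1, sq_nonneg (C : ℝ), sq_nonneg (Δ : ℝ)]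
  obtain ⟨g1, g2, g3, g4, g5, g6⟩ := hK X hKX
  have hX1 : 1 < X := by linarith only [hKX, hK1]
  have hX0 : 0 < X := by linarith only [hX1]
  have hd1 : (0 : ℝ) ≤ dot l1 l1 := by exact_mod_cast dot_nonneg l1
  have hd2 : (0 : ℝ) ≤ dot l2 l2 := by exact_mod_cast dot_nonneg l2
  obtain ⟨L1, hL1⟩ : ∃ L1 : ℝ, L1 = Real.sqrt (dot l1 l1) := ⟨_, rfl⟩
  obtain ⟨L2, hL2⟩ : ∃ L2 : ℝ, L2 = Real.sqrt (dot l2 l2) := ⟨_, rfl⟩
  have hL10 : 0 ≤ L1 := hL1 ▸ Real.sqrt_nonneg _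
  have hL20 : 0 ≤ L2 := hL2 ▸ Real.sqrt_nonneg _
  have hL1sq : L1 ^ 2 = dot l1 l1 := hL1 ▸ Real.sq_sqrt hd1
  have hL2sq : L2 ^ 2 = dot l2 l2 := hL2 ▸ Real.sq_sqrt hd2
  have hL1u : L1 ≤ X ^ (m1 + ε) := hL1 ▸ rq_sqrt_le hX0 hb1
  have hL2u : L2 ≤ X ^ (m2 + ε) := hL2 ▸ rq_sqrt_le hX0 hb2
  have hL1l : X ^ (m1 - ε) ≤ L1 := hL1 ▸ rq_le_sqrt hX0 ha1
  have hL2l : X ^ (m2 - ε) ≤ L2 := hL2 ▸ rq_le_sqrt hX0 ha2
  -- the norm of `l2`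
  obtain ⟨N2, hN20, hN2p, hN2b⟩ := hnorm l2 (rq_ne hX0 ha2)
  have hN2T : |(N2 : ℝ)| < T ^ 4 :=
    rq_N2 w m2 ε X T Kb (dot l2 l2) _ hX1 hT1 (by linarith only [hKb]) hd2 hb2 hN2b g3 hεm
  -- the parameters
  have hK00 : 0 ≤ K0 := by linarith only [hK0]
  have hKa0 : 0 ≤ Ka := by linarith only [hKa]
  have hW0 : ∀ a b, 0 ≤ X ^ ω a * L1 ^ b * L2 ^ (D - b) := by
    intro a b
    have := Real.rpow_pos_of_pos hX0 (ω a)
    (clear * - hX1 hL10 hL20; positivity)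
  have hBd0 : ∀ α b' : ℕ, 0 ≤ ∑ a ∈ range (Nd + 1), ∑ b ∈ range (D + 1),
      (X ^ ω a * L1 ^ b * L2 ^ (D - b)) * (a.choose α : ℝ) * ((D - b).choose b' : ℝ) *
      K0 ^ (a - α) * (Ka * L2) ^ b * (Ka * L1) ^ (D - b - b') := by
    intro α b'
    refine Finset.sum_nonneg fun a _ => Finset.sum_nonneg fun b _ => ?_
    have := hW0 a b
    (clear * - hX1 hL10 hL20 hK0 hKa; positivity)
  have hBd : ∀ α ≤ Nd, ∀ b' ≤ D, K0 * (∑ a ∈ range (Nd + 1), ∑ b ∈ range (D + 1),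
      (X ^ ω a * L1 ^ b * L2 ^ (D - b)) * (a.choose α : ℝ) * ((D - b).choose b' : ℝ) *
      K0 ^ (a - α) * (Ka * L2) ^ b * (Ka * L1) ^ (D - b - b')) + 1 ≤
      X ^ (max 0 (ω α + D * (m1 + m2) - b' * m1) + η) := by
    intro α hα b' hb'
    refine rq_box _ D ε η X K0 Cst _ hX1 hK0 hCst0 hη hDε ?_ g1
    rw [hCst]
    exact rq_bd Nd D ω X K0 Ka L1 L2 m1 m2 ε hX1.le hK0 hKa hL10 hL20 hL1u hL2u hε.le hωm α b' hb'
  have hq2' : 2 ≤ q := by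
    have h1 : X ^ (β / 2) ≤ X ^ (β - ε) :=
      Real.rpow_le_rpow_of_exponent_le hX1.le (by linarith only [hεβ])
    have h2 : (2 : ℝ) ≤ q := g6.trans (h1.trans hq1)
    exact_mod_cast h2
  have hpig := rq_pig M D Nd ν q ω m1 m2 β ε η δ X K0
    (fun a b => X ^ ω a * L1 ^ b * L2 ^ (D - b))
    (fun α b' => ∑ a ∈ range (Nd + 1), ∑ b ∈ range (D + 1),
      (X ^ ω a * L1 ^ b * L2 ^ (D - b)) * (a.choose α : ℝ) * ((D - b).choose b' : ℝ) *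
      K0 ^ (a - α) * (Ka * L2) ^ b * (Ka * L1) ^ (D - b - b')) hX1 hη.le
    (fun α b => add_nonneg (mul_nonneg hK00 (hBd0 α b)) zero_le_one) hBd
    (fun a _ b hb => rq_Wl D a b (ω a) m1 m2 ε X L1 L2 hX0 hb hL1l hL2l) hq2 hN2 hsmall
  obtain ⟨F, hF0, hFd, hFc, hFv⟩ := hstep l1 l2 M D Nd ν q σ0 (Ka * L1) (Ka * L2)
    (fun a b => X ^ ω a * L1 ^ b * L2 ^ (D - b)) _ N2 hM
    hq2' (mul_nonneg hKa0 hL10) (mul_nonneg hKa0 hL20)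
    (rq_conj θ Ka hKa hell l1 L1 hL10 hL1sq) (rq_conj θ Ka hKa hell l2 L2 hL20 hL2sq)
    hN20 hN2p hW0 (fun α b _ _ _ => le_refl _) hpig
  refine ⟨F, hF0, hFd, ?_, ?_⟩
  · intro a b
    by_cases ha : a ≤ Nd
    · by_cases hb : b ≤ D
      · have h3 : |ω a| ≤ ∑ a ∈ range (Nd + 1), |ω a| :=
          Finset.single_le_sum (f := fun a => |ω a|) (fun _ _ => abs_nonneg _)
            (Finset.mem_range.2 (by omega))
        have h1 := (hFc a b).trans (rq_Wu D b C0 (ω a) _ m1 m2 ε X H L1 L2 hX1 hXH hb hL10 hL20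
          hL1u hL2u (by linarith only [hε, hm1]) (by linarith only [hε, hm2]) h3 hceil)
        exact_mod_cast h1
      · rw [coeff_eq_zero_of_natDegree_lt ((hFd.2 a).trans_lt (by omega))]
        simp
    · rw [coeff_eq_zero_of_natDegree_lt (hFd.1.trans_lt (by omega))]
      simp
  · intro N p c z s t hpt htq hst
    obtain ⟨hdat, hs, ht⟩ := hpt
    obtain ⟨c', hc'0, hc'C, hprod⟩ := hdat.nrm
    have hCp : (C : ℝ) < p := small_lt hX1.le hXT hdat.lo (Nat.cast_nonneg _) hK2C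
    have hCp' : (C : ℤ) < p := by exact_mod_cast hCp
    refine hFv N c c' s t p z hdat.prime (hpq p hdat.prime hdat.lo) hdat.c0
      (hdat.cC.trans_lt hCp') (hc'C.trans_lt hCp') hc'0 ?_ ?_ hdat.eqn hprod htq hst ?_
    · have h1 := hN2T.trans_le hdat.lo
      exact_mod_cast h1
    · have h1 : |(Δ : ℝ)| < p :=
        small_lt hX1.le hXT hdat.lo (abs_nonneg _) (by rw [sq_abs]; exact hK2D)
      exact_mod_cast h1
    · refine rq_size M D Nd ν q p C ω w β ε δ X T L1 L2 N s t hX1 hT1 hT2 hdat.lo hq1 hL10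
        hL20 hdat.hN ?_ ?_ hω1 hsz g2
      · rw [hL1sq]
        exact hs
      · rw [hL2sq]
        exact ht

theorem class_curves {G : ℤ[X]} {θ : Fin 4 → 𝓞 L} (hF : Fld G θ) (C C0 : ℕ) (w m1 m2 β : ℝ)
    (hw : 0 < w) (hm1 : 0 ≤ m1) (hm2 : 0 ≤ m2) (hm : m2 < w) (hβ : 0 < β)
    (hrel : NumRel w m1 m2 β) :
    ∃ ε : ℝ, 0 < ε ∧ ∃ (Dg C1 : ℕ) (K : ℝ), 0 < K ∧ ∀ (H : ℕ) (X T : ℝ) (l1 l2 : Fin 4 → ℤ)
      (d : Fin 2 → ℕ) (A B : Fin 2 → ℤ[X]) (Z : Fin 2 → Fin 4 → ℤ[X]) (Λ : ℤ[X]) (e : ℤ)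
      (q : ℕ) (σ0 : ℤ), K ≤ X → X ≤ H → X ^ 3 ≤ T ^ 16 → X ^ (w - ε) ≤ T → T ≤ X ^ (w + ε) →
      X ^ (2 * (m1 - ε)) ≤ dot l1 l1 → (dot l1 l1 : ℝ) ≤ X ^ (2 * (m1 + ε)) →
      X ^ (2 * (m2 - ε)) ≤ dot l2 l2 → (dot l2 l2 : ℝ) ≤ X ^ (2 * (m2 + ε)) →
      KData θ l1 l2 d A B Z Λ e →
      (∀ i k, |(A i).coeff k| ≤ (H : ℤ) ^ C0) → (∀ i k, |(B i).coeff k| ≤ (H : ℤ) ^ C0) →
      X ^ (β - ε) ≤ q → (q : ℝ) ≤ X ^ (β + ε) → (∀ p : ℕ, p.Prime → T ^ 4 ≤ p → ¬ p ∣ q) →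
      ∃ Cv : Finset (ℤ[X][X]), Cv.card ≤ C1 ∧
        (∀ g ∈ Cv, Irreducible (g.map (mapRingHom (Int.castRingHom ℚ))) ∧ BiDeg Dg Dg g ∧
          (∀ i j, |(g.coeff i).coeff j| ≤ (H : ℤ) ^ C1)) ∧
        ∀ (N : ℤ) (p : ℕ) (c : ℤ) (z : Fin 4 → ℤ) (s t kn kd : ℤ),
          Pt θ C X T l1 l2 N p c z s t → KP A B Z N c s t kn kd z →
          IsCoprime t (q : ℤ) → (q : ℤ) ∣ s - σ0 * t →
          ∃ g ∈ Cv, ev (g.map (mapRingHom (Int.castRingHom ℚ))) ((kn : ℚ) / kd) ((s : ℚ) / t) = 0 := by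
  obtain ⟨ε, hε, Nd, D, Cr, K, hK, hmain⟩ := N.rel_class hF C w m1 m2 β hw hm1 hm2 hm hβ hrel
  obtain ⟨Cs, hCs⟩ := subK_height Nd D (max Cr C0)
  obtain ⟨Cf, hCf⟩ := factor_set (Nd + (D + 5 * Nd))
  refine ⟨ε, hε, Nd + (D + 5 * Nd), Cf + (Cs + 1) * Cf, max K 2, lt_max_of_lt_left hK, ?_⟩
  intro H X T l1 l2 d A B Z Λ e q σ0 hKX hXH hXT h1 h2 h3 h4 h5 h6 hKD hA hB h7 h8 h9
  have hX2 : (2 : ℝ) ≤ X := (le_max_right _ _).trans hKX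
  have hH2 : 2 ≤ H := by exact_mod_cast hX2.trans hXH
  have hH1 : (1 : ℤ) ≤ H := by exact_mod_cast (by omega : 1 ≤ H)
  obtain ⟨F, hF0, hFD, hFH, hFv⟩ := hmain H X T l1 l2 q σ0 ((le_max_left _ _).trans hKX) hXH hXT
    h1 h2 h3 h4 h5 h6 h7 h8 h9
  -- degrees
  have hd5 : ∀ i, d i ≤ 5 := by
    intro i
    rcases hKD.dd with h | h
    · fin_cases i
      · exact h.1.le.trans (by norm_num)
      · exact h.2.le.trans (by norm_num)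
    · fin_cases i
      · exact h.1.le.trans (by norm_num)
      · exact h.2.le
  have hA5 : ∀ i, (A i).natDegree ≤ 5 := fun i => (hKD.dA i).trans (hd5 i)
  have hB5 : ∀ i, (B i).natDegree ≤ 5 := fun i => (hKD.dB i).trans (hd5 i)
  -- `l1 ≠ 0`
  have hl1 : l1 ≠ 0 := by
    rintro rfl
    have h10 : (0 : ℝ) < X ^ (2 * (m1 - ε)) := Real.rpow_pos_of_pos (by linarith only [hX2]) _
    have h11 : dot (0 : Fin 4 → ℤ) 0 = 0 := by simp [dot]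
    rw [h11] at h3
    push_cast at h3
    linarith only [h3, h10]
  have hdet := Lev.det_ne_zero (fun j => pc_ell hF hl1 j) hKD
  have hS0 : subK A B Nd F ≠ 0 := subK_ne_zero A B hdet Nd F hF0 hFD.1
  have hSD : BiDeg (Nd + (D + 5 * Nd)) (Nd + (D + 5 * Nd)) (subK A B Nd F) :=
    (subK_biDeg A B Nd D F hFD hA5 hB5).mono (by omega) (by omega)
  have hSH : ∀ i j, |((subK A B Nd F).coeff i).coeff j| ≤ (H : ℤ) ^ Cs :=
    hCs H A B F hH2 hFD hA5 hB5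
      (fun i k => (hA i k).trans (pow_le_pow_right₀ hH1 (le_max_right _ _)))
      (fun i k => (hB i k).trans (pow_le_pow_right₀ hH1 (le_max_right _ _)))
      (fun a b => (hFH a b).trans (pow_le_pow_right₀ hH1 (le_max_left _ _)))
  have hH3 : 2 ≤ H ^ (Cs + 1) := hH2.trans (Nat.le_self_pow (by omega) H)
  obtain ⟨Cv, hcard, hCv, hev⟩ := hCf (H ^ (Cs + 1)) (subK A B Nd F) hH3 hS0 hSD (by
    intro i j
    push_cast
    exact (hSH i j).trans (pow_le_pow_right₀ hH1 (by omega)))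
  refine ⟨Cv, hcard.trans (by omega), fun g hg => ?_, ?_⟩
  · obtain ⟨h20, h21, h22⟩ := hCv g hg
    refine ⟨h20, h21, fun i j => (h22 i j).trans ?_⟩
    push_cast
    rw [← pow_mul]
    exact pow_le_pow_right₀ hH1 (by omega)
  · intro N p c z s t kn kd hPt hKP hcop hdvd
    exact hev _ _ (subK_ev A B Z Nd D F hFD hKP (hFv N p c z s t hPt hcop hdvd))

def PairsOn (θ : Fin 4 → 𝓞 L) (C : ℕ) (w : ℝ) (s : Set (ℝ × ℝ)) : Prop :=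
  ∃ ε : ℝ, 0 < ε ∧ ∃ k K : ℝ, 0 < k ∧ 1 < K ∧ ∀ (X T : ℝ) (S : Finset ℤ),
    K ≤ X → X ^ 3 ≤ T ^ 16 → X ^ (w - ε) ≤ T → T ≤ X ^ (w + ε) →
    (∀ N ∈ S, ∃ (l1 l2 : Fin 4 → ℤ) (p : ℕ) (c : ℤ) (z : Fin 4 → ℤ) (u t : ℤ), Red l1 l2 ∧
      (dot l1 l1 : ℝ) * dot l2 l2 ≤ C * T ^ (4 / 3 : ℝ) ∧ Pt θ C X T l1 l2 N p c z u t ∧
      (Real.log (dot l1 l1) / (2 * Real.log X), Real.log (dot l2 l2) / (2 * Real.log X)) ∈ s) →
    (S.card : ℝ) ≤ k * X ^ (1 - ε)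

theorem pairsOn_empty (θ : Fin 4 → 𝓞 L) (C : ℕ) (w : ℝ) : PairsOn θ C w ∅ := by
  refine ⟨1, one_pos, 1, 2, one_pos, by norm_num, fun X T S h1 _ _ _ h => ?_⟩
  have h2 : S = ∅ := by
    rw [Finset.eq_empty_iff_forall_notMem]
    intro N hN
    obtain ⟨_, _, _, _, _, _, _, _, _, _, h'⟩ := h N hN
    exact absurd h' (Set.notMem_empty _)
  rw [h2, card_empty, Nat.cast_zero]
  have hX0 : 0 < X := by linarith
  positivity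

theorem pairsOn_mono (θ : Fin 4 → 𝓞 L) (C : ℕ) (w : ℝ) {s t : Set (ℝ × ℝ)} (hst : s ⊆ t)
    (ht : PairsOn θ C w t) : PairsOn θ C w s := by
  obtain ⟨ε, hε, k, K, hk, hK, h⟩ := ht
  refine ⟨ε, hε, k, K, hk, hK, fun X T S h1 h2 h3 h4 h5 => h X T S h1 h2 h3 h4 fun N hN => ?_⟩
  obtain ⟨l1, l2, p, c, z, u, t', a1, a2, a3, a4⟩ := h5 N hN
  exact ⟨l1, l2, p, c, z, u, t', a1, a2, a3, hst a4⟩

theorem pairsOn_union (θ : Fin 4 → 𝓞 L) (C : ℕ) (w : ℝ) {s t : Set (ℝ × ℝ)}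
    (hs : PairsOn θ C w s) (ht : PairsOn θ C w t) : PairsOn θ C w (s ∪ t) := by
  classical
  obtain ⟨ε1, hε1, k1, K1, hk1, hK1, h1⟩ := hs
  obtain ⟨ε2, hε2, k2, K2, hk2, hK2, h2⟩ := ht
  refine ⟨min ε1 ε2, lt_min hε1 hε2, k1 + k2, max K1 K2, by positivity, lt_max_of_lt_left hK1,
    fun X T S hX hXT hT1 hT2 hS => ?_⟩
  have hX1 : K1 ≤ X := (le_max_left _ _).trans hX
  have hX2 : K2 ≤ X := (le_max_right _ _).trans hX
  have hX0 : 1 ≤ X := by linarith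
  have m1 := min_le_left ε1 ε2
  have m2 := min_le_right ε1 ε2
  obtain ⟨P, hP⟩ : ∃ P : ℤ → Prop, P = fun N => ∃ (l1 l2 : Fin 4 → ℤ) (p : ℕ) (c : ℤ)
      (z : Fin 4 → ℤ) (u t : ℤ), Red l1 l2 ∧
      (dot l1 l1 : ℝ) * dot l2 l2 ≤ C * T ^ (4 / 3 : ℝ) ∧ Pt θ C X T l1 l2 N p c z u t ∧
      (Real.log (dot l1 l1) / (2 * Real.log X), Real.log (dot l2 l2) / (2 * Real.log X)) ∈ s :=
    ⟨_, rfl⟩
  have e1 := h1 X T (S.filter P) hX1 hXT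
    ((Real.rpow_le_rpow_of_exponent_le hX0 (by linarith only [m1])).trans hT1)
    (hT2.trans (Real.rpow_le_rpow_of_exponent_le hX0 (by linarith))) (by
      intro N hN
      have := (mem_filter.1 hN).2
      rw [hP] at this
      exact this)
  have e2 := h2 X T (S.filter fun N => ¬ P N) hX2 hXT
    ((Real.rpow_le_rpow_of_exponent_le hX0 (by linarith)).trans hT1)
    (hT2.trans (Real.rpow_le_rpow_of_exponent_le hX0 (by linarith))) (by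
      intro N hN
      obtain ⟨hN1, hN2⟩ := mem_filter.1 hN
      obtain ⟨l1, l2, p, c, z, u, t', a1, a2, a3, a4⟩ := hS N hN1
      refine ⟨l1, l2, p, c, z, u, t', a1, a2, a3, ?_⟩
      rcases a4 with a4 | a4
      · exfalso
        apply hN2
        rw [hP]
        exact ⟨l1, l2, p, c, z, u, t', a1, a2, a3, a4⟩
      · exact a4)
  have e3 : (S.card : ℝ) = ((S.filter P).card : ℝ) + ((S.filter fun N => ¬ P N).card : ℝ) := by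
    rw [← Nat.cast_add, card_filter_add_card_filter_not]
  rw [e3, add_mul]
  refine add_le_add (e1.trans ?_) (e2.trans ?_)
  · exact mul_le_mul_of_nonneg_left (Real.rpow_le_rpow_of_exponent_le hX0 (by linarith only [m1])) hk1.le
  · exact mul_le_mul_of_nonneg_left (Real.rpow_le_rpow_of_exponent_le hX0 (by linarith)) hk2.le

theorem all_of_local (θ : Fin 4 → 𝓞 L) (C : ℕ) (w : ℝ) (hw' : w ≤ 0.349)
    (hloc : ∀ m1 m2 : ℝ, 0 ≤ m1 → 0 ≤ m2 →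
    ∃ ε : ℝ, 0 < ε ∧ ∃ K : ℝ, 0 < K ∧ ∀ (X T : ℝ) (S : Finset ℤ),
      K ≤ X → X ^ 3 ≤ T ^ 16 → X ^ (w - ε) ≤ T → T ≤ X ^ (w + ε) →
      (∀ N ∈ S, ∃ (l1 l2 : Fin 4 → ℤ) (p : ℕ) (c : ℤ) (z : Fin 4 → ℤ) (s t : ℤ), Red l1 l2 ∧
        (dot l1 l1 : ℝ) * dot l2 l2 ≤ C * T ^ (4 / 3 : ℝ) ∧ Pt θ C X T l1 l2 N p c z s t ∧
        X ^ (2 * (m1 - ε)) ≤ dot l1 l1 ∧ (dot l1 l1 : ℝ) ≤ X ^ (2 * (m1 + ε)) ∧
        X ^ (2 * (m2 - ε)) ≤ dot l2 l2 ∧ (dot l2 l2 : ℝ) ≤ X ^ (2 * (m2 + ε))) →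
      (S.card : ℝ) ≤ X ^ (1 - ε)) :
    ∃ ε : ℝ, 0 < ε ∧ ∃ K : ℝ, 0 < K ∧ ∀ (X T : ℝ) (S : Finset ℤ),
      K ≤ X → X ^ 3 ≤ T ^ 16 → X ^ (w - ε) ≤ T → T ≤ X ^ (w + ε) →
      (∀ N ∈ S, ∃ (l1 l2 : Fin 4 → ℤ) (p : ℕ) (c : ℤ) (z : Fin 4 → ℤ) (s t : ℤ), Red l1 l2 ∧
        (dot l1 l1 : ℝ) * dot l2 l2 ≤ C * T ^ (4 / 3 : ℝ) ∧ Pt θ C X T l1 l2 N p c z s t) →
      (S.card : ℝ) ≤ X ^ (1 - ε) := by
  classical
  have hcomp : PairsOn θ C w (Set.Icc 0 1 ×ˢ Set.Icc 0 1) := by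
    refine (isCompact_Icc.prod isCompact_Icc).induction_on (pairsOn_empty θ C w)
      (fun s t hst ht => pairsOn_mono θ C w hst ht) (fun s t hs ht => pairsOn_union θ C w hs ht) ?_
    intro m hm
    obtain ⟨ε, hε, K, hK, h⟩ := hloc m.1 m.2 hm.1.1 hm.2.1
    refine ⟨Set.Ioo (m.1 - ε) (m.1 + ε) ×ˢ Set.Ioo (m.2 - ε) (m.2 + ε),
      mem_nhdsWithin_of_mem_nhds (prod_mem_nhds (Ioo_mem_nhds (by linarith only [hε]) (by linarith only [hε]))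
        (Ioo_mem_nhds (by linarith) (by linarith))), ε, hε, 1, max K 2, one_pos,
      lt_max_of_lt_right (by norm_num), fun X T S hX hXT hT1 hT2 hS => ?_⟩
    have hXK : K ≤ X := (le_max_left _ _).trans hX
    have hX2 : 2 ≤ X := (le_max_right _ _).trans hX
    rw [one_mul]
    refine h X T S hXK hXT hT1 hT2 fun N hN => ?_
    obtain ⟨l1, l2, p, c, z, u, t', a1, a2, a3, a4⟩ := hS N hN
    have p1 : (0 : ℝ) < dot l1 l1 := by exact_mod_cast dot_pos a1.1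
    have p2 : (0 : ℝ) < dot l2 l2 := by
      have : dot l1 l1 ≤ dot l2 l2 := a1.2.1
      have : (dot l1 l1 : ℝ) ≤ dot l2 l2 := by exact_mod_cast this
      linarith only [this, p1]
    obtain ⟨q1, q2⟩ := exp_of_log X (dot l1 l1) m.1 ε (by linarith only [hX2]) p1 a4.1
    obtain ⟨q3, q4⟩ := exp_of_log X (dot l2 l2) m.2 ε (by linarith only [hX2]) p2 a4.2
    exact ⟨l1, l2, p, c, z, u, t', a1, a2, a3, q1, q2, q3, q4⟩
  obtain ⟨ε, hε, k, K, hk, hK, h⟩ := hcomp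
  refine ⟨min (ε / 2) (1 / 4), by positivity, max (max K (C + 2)) (k ^ (2 / ε)),
    lt_max_of_lt_left (lt_max_of_lt_left (by linarith only [hK])), fun X T S hX hXT hT1 hT2 hS => ?_⟩
  have hXK : K ≤ X := (le_max_left _ _).trans ((le_max_left _ _).trans hX)
  have hXC : (C : ℝ) + 2 ≤ X := (le_max_right _ _).trans ((le_max_left _ _).trans hX)
  have hXk : k ^ (2 / ε) ≤ X := (le_max_right _ _).trans hX
  have hX1 : 1 < X := by linarith only [hXC]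
  have hX0 : 0 < X := by linarith only [hX1]
  have m1 := min_le_left (ε / 2) (1 / 4 : ℝ)
  have m2 := min_le_right (ε / 2) (1 / 4 : ℝ)
  have hT0 : 0 < T := lt_of_lt_of_le (by positivity) hT1
  have hl : 0 < Real.log X := Real.log_pos hX1
  have hTX : T ^ (4 / 3 : ℝ) ≤ X := by
    calc T ^ (4 / 3 : ℝ) ≤ (X ^ (w + min (ε / 2) (1 / 4))) ^ (4 / 3 : ℝ) :=
          Real.rpow_le_rpow hT0.le hT2 (by norm_num)
      _ = X ^ ((w + min (ε / 2) (1 / 4)) * (4 / 3)) := by rw [← Real.rpow_mul hX0.le]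
      _ ≤ X ^ (1 : ℝ) := by
          apply Real.rpow_le_rpow_of_exponent_le hX1.le
          norm_num at hw'
          linarith only [m2, hw']
      _ = X := Real.rpow_one X
  have e1 := h X T S hXK hXT
    ((Real.rpow_le_rpow_of_exponent_le hX1.le (by linarith only [hε, m1])).trans hT1)
    (hT2.trans (Real.rpow_le_rpow_of_exponent_le hX1.le (by linarith only [m1, hε]))) (by
      intro N hN
      obtain ⟨l1, l2, p, c, z, u, t', a1, a2, a3⟩ := hS N hN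
      refine ⟨l1, l2, p, c, z, u, t', a1, a2, a3, ?_⟩
      have p1 : (1 : ℝ) ≤ dot l1 l1 := by exact_mod_cast dot_pos a1.1
      have p3 : (dot l1 l1 : ℝ) ≤ dot l2 l2 := by exact_mod_cast a1.2.1
      have p4 : (dot l2 l2 : ℝ) ≤ X ^ 2 := by
        have p5 : (dot l2 l2 : ℝ) ≤ dot l1 l1 * dot l2 l2 := by linarith only [mul_nonneg (mul_self_nonneg (1 : ℝ)) (sub_nonneg.2 p1), mul_nonneg (sub_nonneg.2 p1) (sub_nonneg.2 p1), mul_nonneg (sub_nonneg.2 p1) (sub_nonneg.2 p3)]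
        have p6 : (C : ℝ) * T ^ (4 / 3 : ℝ) ≤ X * X :=
          mul_le_mul (by linarith only [hXC]) hTX (by positivity) hX0.le
        linarith only [p6, p5, a2]
      have p7 : Real.log (dot l2 l2) ≤ 2 * Real.log X := by
        have := Real.log_le_log (by linarith only [p3, p1]) p4
        rw [Real.log_pow] at this
        exact_mod_cast this
      have p8 : Real.log (dot l1 l1) ≤ Real.log (dot l2 l2) := Real.log_le_log (by linarith only [p1]) p3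
      have p9 : 0 ≤ Real.log (dot l1 l1) := Real.log_nonneg p1
      refine ⟨⟨?_, ?_⟩, ?_, ?_⟩
      · exact div_nonneg p9 (by positivity)
      · rw [div_le_one (by positivity)]
        linarith only [p8, p7]
      · exact div_nonneg (p9.trans p8) (by positivity)
      · rw [div_le_one (by positivity)]
        exact p7)
  refine e1.trans ?_
  have e2 : k ≤ X ^ (ε / 2) := by
    calc k = (k ^ (2 / ε)) ^ (ε / 2) := by
          rw [← Real.rpow_mul hk.le]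
          have : 2 / ε * (ε / 2) = 1 := by field_simp
          rw [this, Real.rpow_one]
      _ ≤ X ^ (ε / 2) := Real.rpow_le_rpow (by positivity) hXk (by positivity)
  calc k * X ^ (1 - ε) ≤ X ^ (ε / 2) * X ^ (1 - ε) :=
        mul_le_mul_of_nonneg_right e2 (by positivity)
    _ = X ^ (ε / 2 + (1 - ε)) := by rw [← Real.rpow_add hX0]
    _ ≤ X ^ (1 - min (ε / 2) (1 / 4)) := Real.rpow_le_rpow_of_exponent_le hX1.le (by linarith only [m1])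

theorem pair_local {G : ℤ[X]} {θ : Fin 4 → 𝓞 L} (hF : Fld G θ) (C : ℕ) (w m1 m2 β : ℝ)
    (hw : 1 / 4 ≤ w) (hw' : w ≤ 1 / 2) (hm1 : 0 ≤ m1) (hm12 : m1 ≤ m2) (hm : m2 < w)
    (hβ : 0 < β) (hrel : NumRel w m1 m2 β) (hcur : NumCurve w m1 β) (η : ℝ) (hη : 0 < η) :
    ∃ ε : ℝ, 0 < ε ∧ ∃ K : ℝ, 0 < K ∧ ∀ (X T : ℝ) (l1 l2 : Fin 4 → ℤ),
      K ≤ X → X ^ 3 ≤ T ^ 16 → X ^ (w - ε) ≤ T → T ≤ X ^ (w + ε) → Red l1 l2 →
      X ^ (2 * (m1 - ε)) ≤ dot l1 l1 → (dot l1 l1 : ℝ) ≤ X ^ (2 * (m1 + ε)) →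
      X ^ (2 * (m2 - ε)) ≤ dot l2 l2 → (dot l2 l2 : ℝ) ≤ X ^ (2 * (m2 + ε)) →
      ∀ S : Finset ℤ, (∀ N ∈ S, ∃ (p : ℕ) (c : ℤ) (z : Fin 4 → ℤ) (s t : ℤ),
        Pt θ C X T l1 l2 N p c z s t) → (S.card : ℝ) ≤ X ^ (β + η) := by
  exact N.pair_local_of hF C w m1 m2 β hw hw' hm1 hm12 hm hβ hcur (fun C0 => exists_kp hF C C0)
    (fun C0 => N.class_curves hF C C0 w m1 m2 β (by linarith only [hm, hm12, hm1]) hm1 (hm1.trans hm12) hm hβ hrel) η hη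

private theorem lp_fin (θ : Fin 4 → 𝓞 L) (C : ℕ) (w m1 m2 γ : ℝ)
    (hm1 : 0 ≤ m1) (hm2 : 0 ≤ m2) (hγ : 5 * m1 + 3 * m2 + γ < 1)
    (h : ∃ ε : ℝ, 0 < ε ∧ ∃ K : ℝ, 0 < K ∧ ∀ (X T : ℝ) (l1 l2 : Fin 4 → ℤ),
      K ≤ X → X ^ 3 ≤ T ^ 16 → X ^ (w - ε) ≤ T → T ≤ X ^ (w + ε) → Red l1 l2 →
      X ^ (2 * (m1 - ε)) ≤ dot l1 l1 → (dot l1 l1 : ℝ) ≤ X ^ (2 * (m1 + ε)) →
      X ^ (2 * (m2 - ε)) ≤ dot l2 l2 → (dot l2 l2 : ℝ) ≤ X ^ (2 * (m2 + ε)) →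
      ∀ S : Finset ℤ, (∀ N ∈ S, ∃ (p : ℕ) (c : ℤ) (z : Fin 4 → ℤ) (s t : ℤ),
        Pt θ C X T l1 l2 N p c z s t) → (S.card : ℝ) ≤ X ^ γ) :
    ∃ ε : ℝ, 0 < ε ∧ ∃ K : ℝ, 0 < K ∧ ∀ (X T : ℝ) (S : Finset ℤ),
      K ≤ X → X ^ 3 ≤ T ^ 16 → X ^ (w - ε) ≤ T → T ≤ X ^ (w + ε) →
      (∀ N ∈ S, ∃ (l1 l2 : Fin 4 → ℤ) (p : ℕ) (c : ℤ) (z : Fin 4 → ℤ) (s t : ℤ), Red l1 l2 ∧
        (dot l1 l1 : ℝ) * dot l2 l2 ≤ C * T ^ (4 / 3 : ℝ) ∧ Pt θ C X T l1 l2 N p c z s t ∧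
        X ^ (2 * (m1 - ε)) ≤ dot l1 l1 ∧ (dot l1 l1 : ℝ) ≤ X ^ (2 * (m1 + ε)) ∧
        X ^ (2 * (m2 - ε)) ≤ dot l2 l2 ∧ (dot l2 l2 : ℝ) ≤ X ^ (2 * (m2 + ε))) →
      (S.card : ℝ) ≤ X ^ (1 - ε) := by
  classical
  obtain ⟨ε0, hε0, K0, hK0, h⟩ := h
  set ε : ℝ := min ε0 ((1 - (5 * m1 + 3 * m2 + γ)) / 11) with hε
  have hεpos : 0 < ε := lt_min hε0 (by linarith only [hγ])
  have hε1 : ε ≤ ε0 := min_le_left _ _
  have hε2 : ε ≤ (1 - (5 * m1 + 3 * m2 + γ)) / 11 := min_le_right _ _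
  obtain ⟨K1, hK1, hsum⟩ := sum_pairs m1 m2 ε hm1 hm2 hεpos
  refine ⟨ε, hεpos, max (max K0 K1) 1, by positivity, ?_⟩
  intro X T S hKX hXT hT1 hT2 hS
  have hX0 : K0 ≤ X := le_trans (le_trans (le_max_left _ _) (le_max_left _ _)) hKX
  have hX1 : K1 ≤ X := le_trans (le_trans (le_max_right _ _) (le_max_left _ _)) hKX
  have hX : 1 ≤ X := le_trans (le_max_right _ _) hKX
  have mono : ∀ {a b : ℝ}, a ≤ b → X ^ a ≤ X ^ b := fun hab =>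
    Real.rpow_le_rpow_of_exponent_le hX hab
  let R : ℤ → (Fin 4 → ℤ) × (Fin 4 → ℤ) → Prop := fun N l =>
    X ^ (2 * (m2 - ε)) ≤ dot l.2 l.2 ∧ ∃ (p : ℕ) (c : ℤ) (z : Fin 4 → ℤ) (s t : ℤ),
      Pt θ C X T l.1 l.2 N p c z s t
  refine (hsum X γ S R hX1 ?_ ?_).trans (mono (by linarith only [hε2]))
  · intro N hN
    obtain ⟨l1, l2, p, c, z, s, t, hred, -, hpt, h1, h2, h3, h4⟩ := hS N hN
    exact ⟨(l1, l2), ⟨h3, p, c, z, s, t, hpt⟩, hred, h1, h2, h4⟩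
  · intro l hred h1 h2 h4 S' _ hR
    rcases S'.eq_empty_or_nonempty with rfl | ⟨N0, hN0⟩
    · rw [card_empty, Nat.cast_zero]
      positivity
    · have h3 := (hR N0 hN0).1
      exact h X T l.1 l.2 hX0 hXT ((mono (by linarith only [hε1])).trans hT1)
        (hT2.trans (mono (by linarith only [hε1]))) hred ((mono (by linarith only [hε1])).trans h1)
        (h2.trans (mono (by linarith only [hε1]))) ((mono (by linarith only [hε1])).trans h3)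
        (h4.trans (mono (by linarith only [hε1]))) S' (fun N hN => (hR N hN).2)

theorem local_pairs {G : ℤ[X]} {θ : Fin 4 → 𝓞 L} (hF : Fld G θ) (C : ℕ) (w m1 m2 : ℝ)
    (hw : 1 / 4 ≤ w) (hw' : w ≤ 0.349) (hm1 : 0 ≤ m1) (hm2 : 0 ≤ m2) :
    ∃ ε : ℝ, 0 < ε ∧ ∃ K : ℝ, 0 < K ∧ ∀ (X T : ℝ) (S : Finset ℤ),
      K ≤ X → X ^ 3 ≤ T ^ 16 → X ^ (w - ε) ≤ T → T ≤ X ^ (w + ε) →
      (∀ N ∈ S, ∃ (l1 l2 : Fin 4 → ℤ) (p : ℕ) (c : ℤ) (z : Fin 4 → ℤ) (s t : ℤ), Red l1 l2 ∧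
        (dot l1 l1 : ℝ) * dot l2 l2 ≤ C * T ^ (4 / 3 : ℝ) ∧ Pt θ C X T l1 l2 N p c z s t ∧
        X ^ (2 * (m1 - ε)) ≤ dot l1 l1 ∧ (dot l1 l1 : ℝ) ≤ X ^ (2 * (m1 + ε)) ∧
        X ^ (2 * (m2 - ε)) ≤ dot l2 l2 ∧ (dot l2 l2 : ℝ) ≤ X ^ (2 * (m2 + ε))) →
      (S.card : ℝ) ≤ X ^ (1 - ε) := by
  classical
  rcases lt_or_ge m2 m1 with hlt | hm12
  · -- the pair is not reduced
    refine ⟨(m1 - m2) / 4, by linarith only [hlt], 2, by norm_num, ?_⟩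
    intro X T S hKX _ _ _ hS
    rcases S.eq_empty_or_nonempty with rfl | ⟨N, hN⟩
    · rw [card_empty, Nat.cast_zero]
      positivity
    · exfalso
      obtain ⟨l1, l2, p, c, z, s, t, hred, -, -, h1, -, -, h4⟩ := hS N hN
      have h5 : (dot l1 l1 : ℝ) ≤ dot l2 l2 := by exact_mod_cast hred.2.1
      have h6 := (h1.trans h5).trans h4
      rw [Real.rpow_le_rpow_left_iff (by linarith only [hKX])] at h6
      linarith only [h6, hlt]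
  rcases lt_or_ge (2 / 3 * w) (m1 + m2) with hgt | hle
  · -- the pair is too long
    set δ : ℝ := 2 * (m1 + m2) - 4 / 3 * w with hδ
    have hδ0 : 0 < δ := by rw [hδ]; linarith only [hgt]
    refine ⟨δ / 16, by linarith only [hδ0], max 1 (((C : ℝ) + 1) ^ (3 / (2 * δ))), by positivity, ?_⟩
    intro X T S hKX _ hT1 hT2 hS
    have hX1 : 1 ≤ X := le_trans (le_max_left _ _) hKX
    have hXC : ((C : ℝ) + 1) ^ (3 / (2 * δ)) ≤ X := le_trans (le_max_right _ _) hKX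
    have hX0 : 0 < X := by linarith only [hX1]
    rcases S.eq_empty_or_nonempty with rfl | ⟨N, hN⟩
    · rw [card_empty, Nat.cast_zero]
      positivity
    · exfalso
      obtain ⟨l1, l2, p, c, z, s, t, -, hprod, -, h1, -, h3, -⟩ := hS N hN
      have hT0 : 0 ≤ T := le_trans (by positivity) hT1
      have e1 : X ^ (2 * (m1 - δ / 16)) * X ^ (2 * (m2 - δ / 16)) ≤
          C * (X ^ (w + δ / 16)) ^ (4 / 3 : ℝ) := by
        refine (mul_le_mul h1 h3 (by positivity) ((by positivity : (0:ℝ) ≤ _).trans h1)).trans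
          (hprod.trans ?_)
        gcongr
      rw [← Real.rpow_add hX0, ← Real.rpow_mul hX0.le] at e1
      have e2 : X ^ (2 * (m1 - δ / 16) + 2 * (m2 - δ / 16)) =
          X ^ ((w + δ / 16) * (4 / 3)) * X ^ (2 * δ / 3) := by
        rw [← Real.rpow_add hX0]
        congr 1
        rw [hδ]
        ring
      rw [e2, mul_comm] at e1
      have e3 : X ^ (2 * δ / 3) ≤ C := le_of_mul_le_mul_right e1 (by positivity)
      have e4 : (C : ℝ) + 1 ≤ X ^ (2 * δ / 3) := by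
        have := Real.rpow_le_rpow (by (clear * -; positivity)) hXC (show 0 ≤ 2 * δ / 3 by (clear * - hδ0; positivity))
        rwa [← Real.rpow_mul (by (clear * -; positivity)), show 3 / (2 * δ) * (2 * δ / 3) = 1 by field_simp,
          Real.rpow_one] at this
      linarith only [e4, e3]
  have hm2w : m2 < w := by linarith
  rcases lt_or_ge (4 * m1 + 2 * m2) (1 - 2 * w) with hsm | hbig
  · -- the trivial count
    obtain ⟨δ, hδ⟩ : ∃ δ : ℝ, δ = 1 - 2 * w - (4 * m1 + 2 * m2) := ⟨_, rfl⟩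
    exact lp_fin θ C w m1 m2 (2 * w - m1 - m2 + δ / 2) hm1 hm2 (by linarith only [hδ, hsm])
      (N.pair_trivial hF C w m1 m2 hw hm1 hm12 hm2w (δ / 2) (by linarith only [hδ, hsm]))
  · obtain ⟨β, hβ, hβ1, hrel, hcur⟩ := admA w m1 m2 hw hw' hm1 hm12 hle hbig
    obtain ⟨δ, hδ⟩ : ∃ δ : ℝ, δ = 1 - (5 * m1 + 3 * m2 + β) := ⟨_, rfl⟩
    norm_num at hw'
    exact lp_fin θ C w m1 m2 (β + δ / 2) hm1 hm2 (by linarith only [hδ, hβ1])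
      (N.pair_local hF C w m1 m2 β hw (by linarith only [hw', hβ1, hβ, hbig, hm12]) hm1 hm12 hm2w hβ hrel hcur (δ / 2)
        (by linarith only [hδ, hβ1]))

theorem all_pairs {G : ℤ[X]} {θ : Fin 4 → 𝓞 L} (hF : Fld G θ) (C : ℕ) (w : ℝ)
    (hw : 1 / 4 ≤ w) (hw' : w ≤ 0.349) :
    ∃ ε : ℝ, 0 < ε ∧ ∃ K : ℝ, 0 < K ∧ ∀ (X T : ℝ) (S : Finset ℤ),
      K ≤ X → X ^ 3 ≤ T ^ 16 → X ^ (w - ε) ≤ T → T ≤ X ^ (w + ε) →
      (∀ N ∈ S, ∃ (l1 l2 : Fin 4 → ℤ) (p : ℕ) (c : ℤ) (z : Fin 4 → ℤ) (s t : ℤ), Red l1 l2 ∧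
        (dot l1 l1 : ℝ) * dot l2 l2 ≤ C * T ^ (4 / 3 : ℝ) ∧ Pt θ C X T l1 l2 N p c z s t) →
      (S.card : ℝ) ≤ X ^ (1 - ε) := by
  exact N.all_of_local θ C w hw' fun m1 m2 h1 h2 => N.local_pairs hF C w m1 m2 hw hw' h1 h2

end Vale.Agent.P018.Q.N
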