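import Vale.Agent.P018.Bdl.B19

/-! # P018, H867Q: the gap lemma for quartics, with the prime numbers slightly below `X`
(copies of theorems of `Bdl/B11.lean` with weaker hypotheses on the sizes). -/

set_option linter.all false

namespace Vale.Agent.P018.Q.N.GapBad

open Polynomial Finset

theorem uniq_N (G : ℤ[X]) (hGi : Irreducible (G.map (Int.castRingHom ℚ))) (C : ℕ) :
    ∃ K : ℝ, 0 < K ∧ ∀ (H : ℕ) (p : ℕ) (N N' : ℤ), p.Prime → K ≤ p → (H : ℝ) ^ 3 ≤ (p : ℝ) ^ 4 →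
      |(N : ℝ)| ≤ C * H → |(N' : ℝ)| ≤ C * H → (p : ℤ) ^ 2 ∣ G.eval N → (p : ℤ) ^ 2 ∣ G.eval N' →
      (p : ℤ) ∣ N' - N → N = N' := by
  obtain ⟨m, hm0, hm⟩ := Vale.Agent.P018.Q.GapBad.exists_disc G hGi
  refine ⟨|(m : ℝ)| + 8 * C ^ 3 + 1, by (clear * - hm0; positivity), ?_⟩
  intro H p N N' hp hK hH hN hN' h1 h2 h
  have hpm : ¬ (p : ℤ) ∣ m := by
    intro h3
    have h4 := Int.le_of_dvd (abs_pos.2 hm0) ((dvd_abs _ _).2 h3)
    have h5 : (p : ℝ) ≤ |(m : ℝ)| := by exact_mod_cast h4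
    have : (0 : ℝ) ≤ 8 * (C : ℝ) ^ 3 := by (clear * -; positivity)
    linarith only [this, h5, hK]
  have hpp : Prime (p : ℤ) := Nat.prime_iff_prime_int.1 hp
  have hd : ¬ (p : ℤ) ∣ (derivative G).eval N := by
    intro h3
    exact hpm (hm _ N ((dvd_pow_self _ (by norm_num)).trans h1) h3)
  have h6 := Vale.Agent.P018.Q.GapBad.hensel_uniq G hpp h h1 h2 hd
  by_contra hne
  have hne' : N' - N ≠ 0 := fun h => hne (by omega)
  have h7 := Int.le_of_dvd (abs_pos.2 hne') ((dvd_abs _ _).2 h6)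
  have h8 : (p : ℝ) ^ 2 ≤ |(N' : ℝ) - N| := by exact_mod_cast h7
  have h9 : |(N' : ℝ) - N| ≤ |(N' : ℝ)| + |(N : ℝ)| := by
    have := abs_sub (N' : ℝ) (N : ℝ)
    exact this
  have hp1 : (1 : ℝ) ≤ p := by exact_mod_cast hp.one_lt.le
  have hp0 : (0 : ℝ) < p := by linarith only [hp1]
  have h10 : (0 : ℝ) ≤ |(m : ℝ)| := abs_nonneg _
  have hC0 : (0 : ℝ) ≤ C := Nat.cast_nonneg _
  have h11 : (p : ℝ) ^ 2 ≤ 2 * C * H := by linarith only [h8, h9, hN, hN']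
  have h12 : ((p : ℝ) ^ 2) ^ 3 ≤ (2 * C * H) ^ 3 := pow_le_pow_left₀ (by positivity) h11 3
  have h13 : (p : ℝ) ^ 4 * (p : ℝ) ^ 2 ≤ (p : ℝ) ^ 4 * (8 * C ^ 3) := by
    calc (p : ℝ) ^ 4 * (p : ℝ) ^ 2 = ((p : ℝ) ^ 2) ^ 3 := by ring
      _ ≤ (2 * (C : ℝ) * H) ^ 3 := h12
      _ = (H : ℝ) ^ 3 * (8 * (C : ℝ) ^ 3) := by ring
      _ ≤ (p : ℝ) ^ 4 * (8 * (C : ℝ) ^ 3) := mul_le_mul_of_nonneg_right hH (by positivity)
  have h14 : (p : ℝ) ^ 2 ≤ 8 * C ^ 3 := le_of_mul_le_mul_left h13 (by positivity)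
  have h15 : (p : ℝ) ≤ (p : ℝ) ^ 2 := by
    rw [sq]
    exact le_mul_of_one_le_right hp0.le hp1
  linarith only [h14, h15, hK, h10]

theorem few_N (G : ℤ[X]) (hG : G.Monic) (hGi : Irreducible (G.map (Int.castRingHom ℚ))) (C : ℕ) :
    ∃ K : ℝ, 0 < K ∧ ∀ (H p : ℕ) (S : Finset ℤ), p.Prime → K ≤ p → (H : ℝ) ^ 3 ≤ (p : ℝ) ^ 4 →
      (∀ N ∈ S, |(N : ℝ)| ≤ C * H ∧ (p : ℤ) ^ 2 ∣ G.eval N) → S.card ≤ G.natDegree := by
  obtain ⟨K, hK, hu⟩ := uniq_N G hGi C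
  refine ⟨K, hK, ?_⟩
  intro H p S hp hKp hH hS
  classical
  have := Fact.mk hp
  set g : (ZMod p)[X] := G.map (Int.castRingHom (ZMod p)) with hg
  have hg0 : g ≠ 0 := (hG.map _).ne_zero
  have h1 : S.card ≤ g.roots.toFinset.card := by
    refine Finset.card_le_card_of_injOn (fun N : ℤ => (N : ZMod p)) ?_ ?_
    · intro N hN
      simp only [Finset.mem_coe, Multiset.mem_toFinset]
      rw [mem_roots hg0, IsRoot.def, hg, eval_intCast_map]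
      rw [eq_intCast, ZMod.intCast_zmod_eq_zero_iff_dvd]
      exact (dvd_pow_self _ (by norm_num)).trans (hS N hN).2
    · intro N hN N' hN' h
      simp only at h
      rw [ZMod.intCast_eq_intCast_iff_dvd_sub] at h
      exact hu H p N N' hp hKp hH (hS N hN).1 (hS N' hN').1 (hS N hN).2 (hS N' hN').2 h
  calc S.card ≤ g.roots.toFinset.card := h1
    _ ≤ g.roots.card := Multiset.toFinset_card_le _
    _ ≤ g.natDegree := card_roots' _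
    _ ≤ G.natDegree := natDegree_map_le

theorem card_primes (H : ℕ) (hH : 2 ≤ H) (C' : ℕ) (E : ℤ) (hE : E ≠ 0) (hEH : |E| ≤ (H : ℤ) ^ C')
    (Q : Finset ℕ) (hQ : ∀ p ∈ Q, p.Prime ∧ H ^ 3 ≤ p ^ 4 ∧ (p : ℤ) ∣ E) : Q.card ≤ 2 * C' := by
  have h1 : ∏ p ∈ Q, p ∣ E.natAbs := by
    refine Finset.prod_primes_dvd _ (fun p hp => ((hQ p hp).1).prime) fun p hp => ?_
    exact Int.natCast_dvd.1 (hQ p hp).2.2
  have h2 : ∏ p ∈ Q, p ≤ E.natAbs := Nat.le_of_dvd (Int.natAbs_pos.2 hE) h1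
  have h3 : (H ^ 3) ^ Q.card ≤ (∏ p ∈ Q, p) ^ 4 := by
    rw [← Finset.prod_const, ← Finset.prod_pow]
    exact Finset.prod_le_prod' fun p hp => (hQ p hp).2.1
  have h4 : E.natAbs ≤ H ^ C' := by
    have : (E.natAbs : ℤ) ≤ (H : ℤ) ^ C' := by rw [Int.natCast_natAbs]; exact hEH
    exact_mod_cast this
  have h5 : H ^ (3 * Q.card) ≤ H ^ (C' * 4) := by
    rw [pow_mul, pow_mul]
    exact h3.trans (Nat.pow_le_pow_left (h2.trans h4) 4)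
  have h6 := (Nat.pow_le_pow_iff_right (by omega)).1 h5
  omega

theorem card_bad (G : ℤ[X]) (hG : G.Monic) (hGi : Irreducible (G.map (Int.castRingHom ℚ)))
    (C C' : ℕ) : ∃ K : ℕ, ∀ (H : ℕ) (P : ℝ) (E : ℤ) (S : Finset ℤ) (p : ℤ → ℕ), 2 ≤ H →
      1 ≤ P → (H : ℝ) ^ 3 ≤ P ^ 4 → E ≠ 0 → |E| ≤ (H : ℤ) ^ C' →
      (∀ N ∈ S, |(N : ℝ)| ≤ C * H ∧ (p N).Prime ∧ P ≤ p N ∧ (p N : ℤ) ^ 2 ∣ G.eval N ∧
        (p N : ℤ) ∣ E) → S.card ≤ K := by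
  classical
  obtain ⟨K, hK, hu⟩ := few_N G hG hGi C
  refine ⟨(2 * ⌈C * K ^ 4⌉₊ + 1) + G.natDegree * (2 * C'), ?_⟩
  intro H P E S p hH hP1 hHP hE hEH hS
  have hH1 : (1 : ℝ) ≤ H := by exact_mod_cast (by omega : 1 ≤ H)
  have hP0 : 0 ≤ P := by linarith only [hP1]
  rcases lt_or_ge P K with hPK | hPK
  · have h1 : S.card ≤ 2 * ⌈C * K ^ 4⌉₊ + 1 := by
      refine Vale.Agent.P018.Q.GapBad.card_interval S _ fun N hN => ?_
      have h2 := (hS N hN).1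
      have h4 : (H : ℝ) ≤ K ^ 4 := by
        have h5 : (H : ℝ) ≤ (H : ℝ) ^ 3 := le_self_pow₀ hH1 (by norm_num)
        have h6 : P ^ 4 ≤ K ^ 4 := pow_le_pow_left₀ hP0 hPK.le 4
        linarith only [h5, h6, hHP]
      have h3 : (C : ℝ) * H ≤ C * K ^ 4 := mul_le_mul_of_nonneg_left h4 (Nat.cast_nonneg _)
      exact h2.trans (h3.trans (Nat.le_ceil _))
    omega
  · have hHp : ∀ N ∈ S, (H : ℝ) ^ 3 ≤ ((p N : ℕ) : ℝ) ^ 4 := fun N hN =>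
      hHP.trans (pow_le_pow_left₀ hP0 (hS N hN).2.2.1 4)
    have h1 : (S.image p).card ≤ 2 * C' := by
      refine card_primes H hH C' E hE hEH _ fun q hq => ?_
      obtain ⟨N, hN, rfl⟩ := Finset.mem_image.1 hq
      obtain ⟨-, h2, h3, -, h4⟩ := hS N hN
      exact ⟨h2, by exact_mod_cast hHp N hN, h4⟩
    have h2 : S.card ≤ G.natDegree * (S.image p).card := by
      refine Finset.card_le_mul_card_image S _ fun q hq => ?_
      obtain ⟨N, hN, rfl⟩ := Finset.mem_image.1 hq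
      obtain ⟨-, h2, h3, -, h4⟩ := hS N hN
      refine hu H (p N) _ h2 (hPK.trans h3) (hHp N hN) fun M hM => ?_
      rw [Finset.mem_filter] at hM
      obtain ⟨h5, -, h6, h7, -⟩ := hS M hM.1
      rw [hM.2] at h7
      exact ⟨h5, h7⟩
    have h3 : G.natDegree * (S.image p).card ≤ G.natDegree * (2 * C') := Nat.mul_le_mul_left _ h1
    omega

end Vale.Agent.P018.Q.N.GapBad

namespace Vale.Agent.P018.Q.N.GapP

open Polynomial Vale.Agent.P018.Q.Gap Vale.Agent.P018.Q.GapP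

theorem gap_param_of
    (hfh : ∀ D : ℕ, ∃ C : ℕ, ∀ (H : ℕ) (A h : ℤ[X]), 2 ≤ H → A ≠ 0 →
      A.natDegree ≤ D → (∀ i, |A.coeff i| ≤ H) → h ∣ A → ∀ i, |h.coeff i| ≤ (H : ℤ) ^ C)
    (hdr : ∀ D C : ℕ, ∃ C' : ℕ, ∀ (H : ℕ) (F Λ : ℤ[X]), 2 ≤ H → F.natDegree ≤ D →
      Λ.natDegree ≤ D → Λ ≠ 0 → (∀ i, |F.coeff i| ≤ (H : ℤ) ^ C) →
      (∀ i, |Λ.coeff i| ≤ (H : ℤ) ^ C) →
      ∃ E : ℤ, E ≠ 0 ∧ |E| ≤ (H : ℤ) ^ C' ∧ ∀ (s t : ℤ) (p : ℕ), p.Prime → IsCoprime s t →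
        ¬ (p : ℤ) ∣ E → (p : ℤ) ∣ hom Λ.natDegree Λ s t → ¬ (p : ℤ) ^ 2 ∣ hom Λ.natDegree Λ s t →
        (p : ℤ) ^ 2 ∣ hom D F s t → ¬ (p : ℤ) ∣ t ∧ (p : ℤ) ∣ hom (D - 1) (derivative F) s t)
    (G : ℤ[X]) (hG : G.Monic) (hGi : Irreducible (G.map (Int.castRingHom ℚ)))
    (hGd : 2 ≤ G.natDegree) (D C : ℕ) (ε : ℝ) (hε : 0 < ε) :
    ∃ K : ℝ, 0 < K ∧ ∀ (H : ℕ) (X P : ℝ) (A B Λ : ℤ[X]) (S : Finset ℤ) (s t : ℤ → ℤ)
      (p : ℤ → ℕ), 2 ≤ H → 1 ≤ X → X ≤ H → 1 ≤ P → (H : ℝ) ^ 3 ≤ P ^ 4 →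
      (H : ℝ) ≤ P * (H : ℝ) ^ (ε / 2) →
      A.natDegree ≤ D → B.natDegree ≤ D → Λ.natDegree ≤ D → Λ ≠ 0 →
      (∀ i, |A.coeff i| ≤ (H : ℤ) ^ C) → (∀ i, |B.coeff i| ≤ (H : ℤ) ^ C) →
      (∀ i, |Λ.coeff i| ≤ (H : ℤ) ^ C) →
      (∀ N ∈ S, |(N : ℝ)| ≤ C * X ∧ IsCoprime (s N) (t N) ∧ t N ≠ 0 ∧
        |s N| ≤ (H : ℤ) ^ C ∧ |t N| ≤ (H : ℤ) ^ C ∧
        hom D A (s N) (t N) ≠ 0 ∧ hom D A (s N) (t N) * N = hom D B (s N) (t N) ∧
        (p N).Prime ∧ P ≤ p N ∧ (p N : ℤ) ^ 2 ∣ G.eval N ∧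
        (p N : ℤ) ∣ hom Λ.natDegree Λ (s N) (t N) ∧
        ¬ (p N : ℤ) ^ 2 ∣ hom Λ.natDegree Λ (s N) (t N)) →
      (S.card : ℝ) ≤ K * (H : ℝ) ^ ε := by
  classical
  obtain ⟨C1, hC1⟩ := hfh D
  obtain ⟨C3, hC3⟩ : ∃ C3, C3 = C + (C + 1) * C1 := ⟨_, rfl⟩
  obtain ⟨C2, hC2⟩ := cmp_height G D C3
  obtain ⟨C4, hC4⟩ := hdr (G.natDegree * D) (C2 + C)
  obtain ⟨C5, hC5⟩ := exists_res D C3
  obtain ⟨K1, hK1⟩ := N.GapBad.card_bad G hG hGi C C4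
  obtain ⟨K2, hK2⟩ := N.GapBad.card_bad G hG hGi C C5
  obtain ⟨R0, hR0, hR0'⟩ := exists_disc G hGi
  obtain ⟨K3, hK3p, hK3⟩ := gap_lemma D C3 (ε / 2) (half_pos hε)
  refine ⟨(2 * (C * |(R0 : ℝ)| ^ 4) + 1) + 1 + (K1 + K2 + 2 * D + K3 * (C + 2)), by (clear * - hR0 hK3p; positivity), ?_⟩
  intro H X P A B Λ S s t p hH hX hXH hP1 hHP hHP2 hA hB hΛ hΛ0 hAH hBH hΛH hS
  have hH1 : (1 : ℤ) ≤ H := by exact_mod_cast (by omega : 1 ≤ H)
  have hHε : (1 : ℝ) ≤ (H : ℝ) ^ ε :=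
    Real.one_le_rpow (by exact_mod_cast (by omega : 1 ≤ H)) hε.le
  have hHR1 : (1 : ℝ) ≤ H := by exact_mod_cast (by omega : 1 ≤ H)
  -- it suffices to bound by a sum of constants
  set c1 : ℝ := 2 * (C * |(R0 : ℝ)| ^ 4) + 1 with hc1
  have hc1p : 0 ≤ c1 := by (clear * - hR0; positivity)
  set c2 : ℝ := K1 + K2 + 2 * D with hc2
  have hc2p : 0 ≤ c2 := by (clear * -; positivity)
  have hc3p : 0 ≤ K3 * (C + 2) := by (clear * - hK3p; positivity)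
  have fin1 : ∀ x : ℝ, x ≤ c1 + 1 → x ≤ (c1 + 1 + (c2 + K3 * (C + 2))) * (H : ℝ) ^ ε := by
    intro x hx
    have h1 : c1 + 1 + (c2 + K3 * (C + 2)) ≤ (c1 + 1 + (c2 + K3 * (C + 2))) * (H : ℝ) ^ ε :=
      le_mul_of_one_le_right (by (clear * - hR0 hK3p; positivity)) hHε
    linarith only [h1, hx, hc3p, hc2p]
  -- the empty case
  rcases S.eq_empty_or_nonempty with hSe | ⟨N0, hN0⟩
  · apply fin1
    rw [hSe]
    simp
    (clear * - hR0; positivity)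
  have hA0 : A ≠ 0 := by
    rintro rfl
    exact (hS N0 hN0).2.2.2.2.2.1 (hom_zero _ _ _)
  obtain ⟨D', A', B', hD'D, hAA, hBB, hA'0, hB0, hA', hB', hAB, hcop, hred⟩ :=
    reduce (B := B) hA0 hA hB
  -- heights
  have hHC : 2 ≤ H ^ (C + 1) := by
    calc 2 ≤ H := hH
      _ = H ^ 1 := (pow_one _).symm
      _ ≤ H ^ (C + 1) := Nat.pow_le_pow_right (by omega) (by omega)
  have hup : ∀ f g : ℤ[X], f ≠ 0 → f.natDegree ≤ D → (∀ i, |f.coeff i| ≤ (H : ℤ) ^ C) → g ∣ f →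
      ∀ i, |g.coeff i| ≤ (H : ℤ) ^ C3 := by
    intro f g hf0 hf hfH hgf i
    have h1 := hC1 (H ^ (C + 1)) f g hHC hf0 hf (fun i => (hfH i).trans (by
      push_cast
      exact pow_le_pow_right₀ hH1 (by omega))) hgf i
    refine h1.trans ?_
    push_cast
    rw [← pow_mul]
    exact pow_le_pow_right₀ hH1 (by omega)
  have hA'H : ∀ i, |A'.coeff i| ≤ (H : ℤ) ^ C3 := hup A A' hA0 hA hAH hAA
  have hB'H : ∀ i, |B'.coeff i| ≤ (H : ℤ) ^ C3 := by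
    rcases eq_or_ne B 0 with h0 | h0
    · intro i
      rw [hB0 h0, coeff_zero, abs_zero]
      positivity
    · exact hup B B' h0 hB hBH hBB
  have hred' : ∀ N ∈ S, hom D' A' (s N) (t N) ≠ 0 ∧
      hom D' A' (s N) (t N) * N = hom D' B' (s N) (t N) := fun N hN =>
    hred _ _ _ (hS N hN).2.2.2.2.2.1 (hS N hN).2.2.2.2.2.2.1
  -- constant curves
  rcases Nat.eq_zero_or_pos D' with hd0 | hd0
  · apply fin1
    have h1 : S.card ≤ 1 := by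
      rw [Finset.card_le_one]
      have one : ∀ N ∈ S, A'.coeff 0 ≠ 0 ∧ A'.coeff 0 * N = B'.coeff 0 := by
        intro N hN
        have h2 := hred' N hN
        rw [hd0] at h2
        simpa [hom] using h2
      intro N hN M hM
      exact mul_left_cancel₀ (one N hN).1 ((one N hN).2.trans (one M hM).2.symm)
    have h2 : (S.card : ℝ) ≤ 1 := by exact_mod_cast h1
    linarith only [h2, hc1p]
  obtain ⟨d, rfl⟩ : ∃ d, D' = d + 1 := ⟨D' - 1, by omega⟩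
  -- small prime numbers
  rcases le_or_gt P |(R0 : ℝ)| with hPR | hPR
  · apply fin1
    have h1 := Vale.Agent.P018.Q.GapP.card_small S (C * |(R0 : ℝ)| ^ 4) (by (clear * - hR0; positivity)) (fun N hN => (hS N hN).1.trans (by
      have h5 : (H : ℝ) ≤ (H : ℝ) ^ 3 := le_self_pow₀ hHR1 (by norm_num)
      have h6 : P ^ 4 ≤ |(R0 : ℝ)| ^ 4 := pow_le_pow_left₀ (by linarith only [hP1]) hPR 4
      have : X ≤ |(R0 : ℝ)| ^ 4 := by linarith only [h5, h6, hHP, hXH]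
      exact mul_le_mul_of_nonneg_left this (Nat.cast_nonneg _)))
    linarith only [h1]
  -- the exceptional divisors
  have hnD : D ≤ G.natDegree * D := Nat.le_mul_of_pos_left _ (by omega)
  have hA'D : A'.natDegree ≤ D := hA'.trans hD'D
  have hB'D : B'.natDegree ≤ D := hB'.trans hD'D
  obtain ⟨E, hE0, hEH, hE⟩ := hC4 H (cmp G A' B') Λ hH (natDegree_cmp G A' B' D hA'D hB'D)
    (hΛ.trans hnD) hΛ0
    (fun i => (hC2 H A' B' hH hA'D hB'D hA'H hB'H i).trans (pow_le_pow_right₀ hH1 (by omega)))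
    (fun i => (hΛH i).trans (pow_le_pow_right₀ hH1 (by omega)))
  obtain ⟨R, hRne, hRH, hR⟩ := hC5 H (d + 1) A' B' hH (by omega) hD'D hA' hB' hAB hcop hA'H hB'H
  set SE := S.filter fun N => (p N : ℤ) ∣ E with hSE
  set SR := S.filter fun N => (p N : ℤ) ∣ R with hSR
  set SW := S.filter fun N => hom (2 * d) (wr A' B') (s N) (t N) = 0 with hSW
  set SG := S.filter fun N => ¬ (p N : ℤ) ∣ E ∧ ¬ (p N : ℤ) ∣ R ∧
    hom (2 * d) (wr A' B') (s N) (t N) ≠ 0 with hSG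
  have hcover : S ⊆ ((SE ∪ SR) ∪ SW) ∪ SG := by
    intro N hN
    simp only [hSE, hSR, hSW, hSG, Finset.mem_union, Finset.mem_filter, hN, true_and]
    tauto
  have hcard : S.card ≤ SE.card + SR.card + SW.card + SG.card :=
    (Finset.card_le_card hcover).trans ((Finset.card_union_le _ _).trans (Nat.add_le_add_right
      ((Finset.card_union_le _ _).trans (Nat.add_le_add_right (Finset.card_union_le _ _) _)) _))
  have hNP : ∀ N ∈ S, |(N : ℝ)| ≤ C * H := fun N hN => (hS N hN).1.trans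
    (mul_le_mul_of_nonneg_left hXH (Nat.cast_nonneg _))
  have h1 : SE.card ≤ K1 := by
    refine hK1 H P E SE p hH hP1 hHP hE0 hEH fun N hN => ?_
    obtain ⟨hNS, hNE⟩ := Finset.mem_filter.1 hN
    obtain ⟨-, -, -, -, -, -, -, a8, a9, a10, -⟩ := hS N hNS
    exact ⟨hNP N hNS, a8, a9, a10, hNE⟩
  have h2 : SR.card ≤ K2 := by
    refine hK2 H P R SR p hH hP1 hHP hRne hRH fun N hN => ?_
    obtain ⟨hNS, hNE⟩ := Finset.mem_filter.1 hN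
    obtain ⟨-, -, -, -, -, -, -, a8, a9, a10, -⟩ := hS N hNS
    exact ⟨hNP N hNS, a8, a9, a10, hNE⟩
  have h3 : SW.card ≤ 2 * D := by
    refine (card_wr d A' B' hA' hB' (wr_ne_zero hcop (by omega)) SW s t fun N hN => ?_).trans
      (by omega)
    obtain ⟨hNS, hNE⟩ := Finset.mem_filter.1 hN
    exact ⟨(hS N hNS).2.2.1, (hred' N hNS).1, (hred' N hNS).2, hNE⟩
  have h4 : (SG.card : ℝ) ≤ K3 * (H : ℝ) ^ (ε / 2) * (1 + (C * X + 1) / P) := by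
    refine hK3 H (C * X + 1) P (d + 1) A' B' SG s t p hH ?_ hP1 (by omega) hD'D hA' hB' hAB hcop
      hA'H hB'H fun N hN => ?_
    · have : (0 : ℝ) ≤ C * X := by (clear * - hX; positivity)
      linarith only [this]
    obtain ⟨hNS, hNE, hNR, hNW⟩ := Finset.mem_filter.1 hN
    obtain ⟨a1, a2, a3, a4, a5, -, -, a8, a9, a10, a11, a12⟩ := hS N hNS
    obtain ⟨b1, b2⟩ := hred' N hNS
    have hCC : (H : ℤ) ^ C ≤ (H : ℤ) ^ C3 := pow_le_pow_right₀ hH1 (by omega)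
    have hnR : ¬ (p N : ℤ) ∣ hom (d + 1) A' (s N) (t N) := fun h5 =>
      hNR (h5.trans (hR _ _ a2 ⟨N, b2.symm⟩))
    have hb3 : hom D A' (s N) (t N) * N = hom D B' (s N) (t N) := by
      rw [hom_raise D _ A' hA' hD'D, hom_raise D _ B' hB' hD'D, mul_assoc, b2]
    have hF2 : (p N : ℤ) ^ 2 ∣ hom (G.natDegree * D) (cmp G A' B') (s N) (t N) := by
      rw [hom_cmp G A' B' D hA'D hB'D _ _ N hb3]
      exact Dvd.dvd.mul_left a10 _
    obtain ⟨hpt, hpF⟩ := hE _ _ _ a8 a2 hNE a11 a12 hF2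
    have hpG : (p N : ℤ) ∣ G.eval N := (dvd_pow_self _ two_ne_zero).trans a10
    have hpG' : ¬ (p N : ℤ) ∣ (derivative G).eval N := by
      intro h5
      have h6 := Int.le_of_dvd (abs_pos.2 hR0) ((dvd_abs _ _).2 (hR0' N _ hpG h5))
      have h7 : ((p N : ℕ) : ℝ) ≤ |(R0 : ℝ)| := by exact_mod_cast h6
      linarith only [h7, a9, hPR]
    refine ⟨a1.trans (by linarith only []), a2, a4.trans hCC, a5.trans hCC, b2, b1, a8, a9, hnR, ?_, ?_⟩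
    · rw [show 2 * (d + 1) - 2 = 2 * d by omega]
      exact good_wr G (by omega) d D A' B' hA' hB' hD'D (p N) a8 _ _ N hpt hnR b2 hpG hpG' hpF
    · rw [show 2 * (d + 1) - 2 = 2 * d by omega]
      exact hNW
  have hHe2 : (1 : ℝ) ≤ (H : ℝ) ^ (ε / 2) := Real.one_le_rpow hHR1 (half_pos hε).le
  have hHe0 : (0 : ℝ) < (H : ℝ) ^ (ε / 2) := by linarith only [hHe2]
  have h5 : (1 + (C * X + 1) / P) ≤ ((C : ℝ) + 2) * (H : ℝ) ^ (ε / 2) := by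
    have h6 : (C * X + 1) / P ≤ (C + 1) * (H : ℝ) ^ (ε / 2) := by
      rw [div_le_iff₀ (by linarith only [hP1])]
      have h7 : (C : ℝ) * X ≤ C * H := mul_le_mul_of_nonneg_left hXH (Nat.cast_nonneg _)
      have h8 : ((C : ℝ) + 1) * H ≤ (C + 1) * (P * (H : ℝ) ^ (ε / 2)) :=
        mul_le_mul_of_nonneg_left hHP2 (by positivity)
      calc (C : ℝ) * X + 1 ≤ (C + 1) * H := by linarith only [h7, hHR1]
        _ ≤ (C + 1) * (P * (H : ℝ) ^ (ε / 2)) := h8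
        _ = (C + 1) * (H : ℝ) ^ (ε / 2) * P := by ring
    linarith only [h6, hHe2]
  have h6 : (SG.card : ℝ) ≤ K3 * (C + 2) * (H : ℝ) ^ ε := by
    refine h4.trans ?_
    calc K3 * (H : ℝ) ^ (ε / 2) * (1 + (C * X + 1) / P) ≤
          K3 * (H : ℝ) ^ (ε / 2) * ((C + 2) * (H : ℝ) ^ (ε / 2)) :=
          mul_le_mul_of_nonneg_left h5 (by (clear * - hK3p hH; positivity))
      _ = K3 * (C + 2) * ((H : ℝ) ^ (ε / 2) * (H : ℝ) ^ (ε / 2)) := by ring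
      _ = _ := by rw [← Real.rpow_add (by linarith only [hHR1]), add_halves]
  have h7 : (S.card : ℝ) ≤ SE.card + SR.card + SW.card + SG.card := by exact_mod_cast hcard
  have h8 : (SE.card : ℝ) ≤ K1 := by exact_mod_cast h1
  have h9 : (SR.card : ℝ) ≤ K2 := by exact_mod_cast h2
  have h10 : (SW.card : ℝ) ≤ 2 * D := by exact_mod_cast h3
  have h11 : (S.card : ℝ) ≤ c2 + K3 * (C + 2) * (H : ℝ) ^ ε := by
    rw [hc2]; linarith only [h10, h9, h8, h7, h6]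
  have h12 : c2 ≤ c2 * (H : ℝ) ^ ε := le_mul_of_one_le_right hc2p hHε
  have h13 : 0 ≤ (c1 + 1) * (H : ℝ) ^ ε := by (clear * - hR0 hH; positivity)
  calc (S.card : ℝ) ≤ c2 * (H : ℝ) ^ ε + K3 * (C + 2) * (H : ℝ) ^ ε := by linarith only [h12, h11]
    _ ≤ (c1 + 1 + (c2 + K3 * (C + 2))) * (H : ℝ) ^ ε := by linarith only [h13]

end Vale.Agent.P018.Q.N.GapP

namespace Vale.Agent.P018.Q.N

open Polynomial NumberField Finset

theorem gap_param (G : ℤ[X]) (hG : G.Monic) (hGi : Irreducible (G.map (Int.castRingHom ℚ)))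
    (hGd : 2 ≤ G.natDegree) (D C : ℕ) (ε : ℝ) (hε : 0 < ε) :
    ∃ K : ℝ, 0 < K ∧ ∀ (H : ℕ) (X P : ℝ) (A B Λ : ℤ[X]) (S : Finset ℤ) (s t : ℤ → ℤ)
      (p : ℤ → ℕ), 2 ≤ H → 1 ≤ X → X ≤ H → 1 ≤ P → (H : ℝ) ^ 3 ≤ P ^ 4 →
      (H : ℝ) ≤ P * (H : ℝ) ^ (ε / 2) →
      A.natDegree ≤ D → B.natDegree ≤ D → Λ.natDegree ≤ D → Λ ≠ 0 →
      (∀ i, |A.coeff i| ≤ (H : ℤ) ^ C) → (∀ i, |B.coeff i| ≤ (H : ℤ) ^ C) →
      (∀ i, |Λ.coeff i| ≤ (H : ℤ) ^ C) →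
      (∀ N ∈ S, |(N : ℝ)| ≤ C * X ∧ IsCoprime (s N) (t N) ∧ t N ≠ 0 ∧
        |s N| ≤ (H : ℤ) ^ C ∧ |t N| ≤ (H : ℤ) ^ C ∧
        hom D A (s N) (t N) ≠ 0 ∧ hom D A (s N) (t N) * N = hom D B (s N) (t N) ∧
        (p N).Prime ∧ P ≤ p N ∧ (p N : ℤ) ^ 2 ∣ G.eval N ∧
        (p N : ℤ) ∣ hom Λ.natDegree Λ (s N) (t N) ∧
        ¬ (p N : ℤ) ^ 2 ∣ hom Λ.natDegree Λ (s N) (t N)) →
      (S.card : ℝ) ≤ K * (H : ℝ) ^ ε :=
  N.GapP.gap_param_of factor_height1 double_root G hG hGi hGd D C ε hε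

variable {L : Type} [Field L] [NumberField L]

theorem pt_unique' {G : ℤ[X]} {θ : Fin 4 → 𝓞 L} (hF : Fld G θ) (C : ℕ) :
    ∃ K : ℝ, ∀ (X T : ℝ) (l1 l2 : Fin 4 → ℤ) (N N' : ℤ) (p p' : ℕ) (c c' : ℤ) (z z' : Fin 4 → ℤ)
      (s t s' t' : ℤ), K ≤ X → X ^ 3 ≤ T ^ 16 → Pt θ C X T l1 l2 N p c z s t →
      Pt θ C X T l1 l2 N' p' c' z' s' t' → s * t' = s' * t → N = N' := by
  obtain ⟨u, v, R, hR0, hR⟩ := sv_bezout G hF.irr
  refine ⟨(2 * C + 1 + |(R : ℝ)|) ^ 2 + 8 * C ^ 3 + 1, ?_⟩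
  intro X T l1 l2 N N' p p' c c' z z' s t s' t' hK hXT hP hP' hst
  have hRn : (0 : ℝ) ≤ |(R : ℝ)| := abs_nonneg _
  have hC0 : (0 : ℝ) ≤ C := Nat.cast_nonneg C
  have hT0 : 0 ≤ T := hP.dat.T_nonneg
  have hC3 : (0 : ℝ) ≤ 8 * (C : ℝ) ^ 3 := by (clear * -; positivity)
  have hK0 : (0 : ℝ) ≤ (2 * C + 1 + |(R : ℝ)|) ^ 2 := by positivity
  have hX1 : 1 ≤ X := by linarith only [hK, hC3, hK0]
  -- the fourth power of `T` is large
  have hTK : 2 * C + 1 + |(R : ℝ)| ≤ T ^ 4 := by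
    by_contra hlt
    push Not at hlt
    have e1 : (T ^ 4) ^ 4 ≤ (2 * C + 1 + |(R : ℝ)|) ^ 4 := pow_le_pow_left₀ (by positivity) hlt.le 4
    have e2 : (2 * C + 1 + |(R : ℝ)|) ^ 4 ≤ X ^ 2 := by
      have : ((2 * C + 1 + |(R : ℝ)|) ^ 2) ^ 2 ≤ X ^ 2 :=
        pow_le_pow_left₀ hK0 (by linarith only [hK, hC3]) 2
      calc (2 * C + 1 + |(R : ℝ)|) ^ 4 = ((2 * C + 1 + |(R : ℝ)|) ^ 2) ^ 2 := by ring
        _ ≤ X ^ 2 := this
    have e3 : X ^ 3 ≤ X ^ 2 := by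
      calc X ^ 3 ≤ T ^ 16 := hXT
        _ = (T ^ 4) ^ 4 := by ring
        _ ≤ X ^ 2 := e1.trans e2
    have e4 : X ^ 2 * X ≤ X ^ 2 * 1 := by
      calc X ^ 2 * X = X ^ 3 := by ring
        _ ≤ X ^ 2 * 1 := by rw [mul_one]; exact e3
    have e5 : X ≤ 1 := le_of_mul_le_mul_left e4 (by positivity)
    have e6 : (1 : ℝ) ≤ (2 * C + 1 + |(R : ℝ)|) ^ 2 :=
      one_le_pow₀ (by linarith only [hC0, hRn])
    linarith only [e5, e6, hK, hC3]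
  have hCp : C < p := hP.dat.C_lt (by linarith only [hC0, hRn, hTK])
  have hCp' : C < p' := hP'.dat.C_lt (by linarith only [hC0, hRn, hTK])
  have hpP := hP.dat.prime
  have hpP' := hP'.dat.prime
  have hpp := Nat.prime_iff_prime_int.1 hpP
  obtain ⟨c1, hc10, hc1C, hc1⟩ := hP.dat.nrm
  obtain ⟨c1', hc10', hc1C', hc1'⟩ := hP'.dat.nrm
  -- proportionality
  set g : ℤ := (Int.gcd s t : ℤ) with hg
  obtain ⟨s0, hs0⟩ : g ∣ s := Int.gcd_dvd_left s t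
  obtain ⟨t0, ht0⟩ : g ∣ t := Int.gcd_dvd_right s t
  have hpg : ¬ (p : ℤ) ∣ g := by
    refine hP.dat.not_dvd hCp (y0 := s0 • l1 + t0 • l2) ?_
    rw [smul_add, smul_smul, smul_smul, ← hs0, ← ht0]
  obtain ⟨m, hm1, hm2⟩ : ∃ m : ℤ, g * s' = m * s ∧ g * t' = m * t := by
    have hb : g = s * Int.gcdA s t + t * Int.gcdB s t := Int.gcd_eq_gcd_ab s t
    refine ⟨s' * Int.gcdA s t + t' * Int.gcdB s t, ?_, ?_⟩
    · rw [hb]
      linear_combination (-Int.gcdB s t) * hst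
    · rw [hb]
      linear_combination (Int.gcdA s t) * hst
  have hell : ∀ i, (g : 𝓞 L) * K.ell (θ i) (s' • l1 + t' • l2) =
      (m : 𝓞 L) * K.ell (θ i) (s • l1 + t • l2) := by
    intro i
    rw [ell_lin, ell_lin]
    have e1 : (g : 𝓞 L) * s' = m * s := by exact_mod_cast congrArg (Int.cast : ℤ → 𝓞 L) hm1
    have e2 : (g : 𝓞 L) * t' = m * t := by exact_mod_cast congrArg (Int.cast : ℤ → 𝓞 L) hm2
    linear_combination K.ell (θ i) l1 * e1 + K.ell (θ i) l2 * e2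
  -- the primes are equal
  have hpeq : p = p' := by
    have h1 : (g : 𝓞 L) ^ 4 * (((p' : ℤ) * c1' : ℤ) : 𝓞 L) =
        (m : 𝓞 L) ^ 4 * (((p : ℤ) * c1 : ℤ) : 𝓞 L) := by
      rw [← hc1, ← hc1']
      have h4 : ∏ i : Fin 4, ((g : 𝓞 L) * K.ell (θ i) (s' • l1 + t' • l2)) =
          ∏ i : Fin 4, ((m : 𝓞 L) * K.ell (θ i) (s • l1 + t • l2)) :=
        Finset.prod_congr rfl fun i _ => hell i
      rw [Finset.prod_mul_distrib, Finset.prod_mul_distrib, Finset.prod_const, Finset.prod_const,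
        Finset.card_univ, Fintype.card_fin] at h4
      exact h4
    have h2 : g ^ 4 * (p' * c1') = m ^ 4 * (p * c1) := by exact_mod_cast h1
    have h3 : (p : ℤ) ∣ g ^ 4 * (p' * c1') := by
      rw [h2]
      exact ⟨m ^ 4 * c1, by ring⟩
    rcases hpp.dvd_or_dvd h3 with h | h
    · exact absurd (hpp.dvd_of_dvd_pow h) hpg
    · rcases hpp.dvd_or_dvd h with h | h
      · have h5 : p ∣ p' := by exact_mod_cast h
        exact (Nat.prime_dvd_prime_iff_eq hpP hpP').1 h5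
      · exact absurd h (not_dvd_small hCp hc10' hc1C')
  subst hpeq
  -- a prime ideal
  obtain ⟨P, hPp, hpmem, hPint⟩ := exists_prime_above (L := L) hpP
  obtain ⟨j, hj⟩ : ∃ j, K.ell (θ j) (s • l1 + t • l2) ∈ P := by
    have h1 : ∏ i, K.ell (θ i) (s • l1 + t • l2) ∈ P := by
      rw [hc1, Int.cast_mul]
      exact P.mul_mem_right _ hpmem
    obtain ⟨j, -, hj⟩ := (Ideal.IsPrime.prod_mem_iff (hp := hPp)).1 h1
    exact ⟨j, hj⟩
  have hj' : K.ell (θ j) (s' • l1 + t' • l2) ∈ P := by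
    have h1 : (g : 𝓞 L) * K.ell (θ j) (s' • l1 + t' • l2) ∈ P := by
      rw [hell]
      exact P.mul_mem_left _ hj
    rcases hPp.mem_or_mem h1 with h | h
    · exact absurd (hPint g h) hpg
    · exact h
  have hNj : (N : 𝓞 L) - θ j ∈ P := by
    have h1 : (c : 𝓞 L) * ((N : 𝓞 L) - θ j) ∈ P := by
      rw [hP.dat.eqn j, sq, mul_assoc]
      exact P.mul_mem_right _ hj
    rcases hPp.mem_or_mem h1 with h | h
    · exact absurd (hPint c h) (not_dvd_small hCp hP.dat.c0 hP.dat.cC)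
    · exact h
  have hNj' : (N' : 𝓞 L) - θ j ∈ P := by
    have h1 : (c' : 𝓞 L) * ((N' : 𝓞 L) - θ j) ∈ P := by
      rw [hP'.dat.eqn j, sq, mul_assoc]
      exact P.mul_mem_right _ hj'
    rcases hPp.mem_or_mem h1 with h | h
    · exact absurd (hPint c' h) (not_dvd_small hCp hP'.dat.c0 hP'.dat.cC)
    · exact h
  have hpN : (p : ℤ) ∣ N' - N := by
    refine hPint _ ?_
    have h1 := P.sub_mem hNj' hNj
    have h2 : ((N' - N : ℤ) : 𝓞 L) = (N' : 𝓞 L) - θ j - ((N : 𝓞 L) - θ j) := by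
      push_cast
      ring
    rw [h2]
    exact h1
  -- Hensel
  have hsq := hP.dat.sq_dvd hF hCp
  have hsq' := hP'.dat.sq_dvd hF hCp
  have hder : ¬ (p : ℤ) ∣ (derivative G).eval N := by
    intro h
    have h1 := congrArg (Polynomial.eval N) hR
    rw [eval_add, eval_mul, eval_mul, eval_C] at h1
    have h2 : (p : ℤ) ∣ G.eval N := (dvd_pow_self (p : ℤ) (by norm_num : 2 ≠ 0)).trans hsq
    have h3 : (p : ℤ) ∣ R := by
      rw [← h1]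
      exact dvd_add (Dvd.dvd.mul_left h2 _) (Dvd.dvd.mul_left h _)
    have h4 := Int.le_of_dvd (abs_pos.2 hR0) ((dvd_abs _ _).2 h3)
    have h5 : (p : ℝ) ≤ |(R : ℝ)| := by exact_mod_cast h4
    have h6 := hP.dat.lo
    linarith only [hTK, hC0, h5, h6]
  have hp2 : (p : ℤ) ^ 2 ∣ N' - N := by
    obtain ⟨q, hq⟩ := Polynomial.binomExpansion G N (N' - N)
    rw [add_sub_cancel] at hq
    obtain ⟨w, hw⟩ := hpN
    have h1 : (p : ℤ) ^ 2 ∣ (derivative G).eval N * (N' - N) := by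
      have h2 : (derivative G).eval N * (N' - N) = G.eval N' - G.eval N - q * (N' - N) ^ 2 := by
        rw [hq]; ring
      rw [h2]
      refine dvd_sub (dvd_sub hsq' hsq) ?_
      rw [hw]
      exact ⟨q * w ^ 2, by ring⟩
    refine IsCoprime.dvd_of_dvd_mul_left ?_ h1
    exact (hpp.irreducible.coprime_iff_not_dvd.2 hder).pow_left
  -- size
  by_contra hne
  have h1 : N' - N ≠ 0 := fun h => hne (by omega)
  have h2 := Int.le_of_dvd (abs_pos.2 h1) ((dvd_abs _ _).2 hp2)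
  have h3 : (p : ℝ) ^ 2 ≤ |(N' : ℝ) - N| := by exact_mod_cast h2
  have h4 : |(N' : ℝ) - N| ≤ 2 * (C * X) := by
    refine (abs_sub _ _).trans ?_
    have := hP.dat.hN
    have := hP'.dat.hN
    linarith
  have h5 := hP.dat.lo
  have hp1 : (1 : ℝ) ≤ p := by exact_mod_cast hpP.one_lt.le
  have hX0 : 0 < X := by linarith only [hX1]
  have h6 : X ^ 3 ≤ (p : ℝ) ^ 4 := by
    calc X ^ 3 ≤ T ^ 16 := hXT
      _ = (T ^ 4) ^ 4 := by ring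
      _ ≤ (p : ℝ) ^ 4 := pow_le_pow_left₀ (by positivity) h5 4
  have h11 : (p : ℝ) ^ 2 ≤ 2 * C * X := by linarith only [h3, h4]
  have h12 : ((p : ℝ) ^ 2) ^ 3 ≤ (2 * C * X) ^ 3 := pow_le_pow_left₀ (by positivity) h11 3
  have h13 : (p : ℝ) ^ 4 * (p : ℝ) ^ 2 ≤ (p : ℝ) ^ 4 * (8 * C ^ 3) := by
    calc (p : ℝ) ^ 4 * (p : ℝ) ^ 2 = ((p : ℝ) ^ 2) ^ 3 := by ring
      _ ≤ (2 * C * X) ^ 3 := h12
      _ = X ^ 3 * (8 * C ^ 3) := by ring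
      _ ≤ (p : ℝ) ^ 4 * (8 * C ^ 3) := mul_le_mul_of_nonneg_right h6 (by positivity)
  have h14 : (p : ℝ) ^ 2 ≤ 8 * C ^ 3 := le_of_mul_le_mul_left h13 (by positivity)
  -- the cube of `X` is at most the fourth power of `p`
  have h15 : X ^ 3 ≤ (8 * (C : ℝ) ^ 3) ^ 2 := by
    calc X ^ 3 ≤ (p : ℝ) ^ 4 := h6
      _ = ((p : ℝ) ^ 2) ^ 2 := by ring
      _ ≤ (8 * (C : ℝ) ^ 3) ^ 2 := pow_le_pow_left₀ (by positivity) h14 2
  have h16 : (8 * (C : ℝ) ^ 3) ^ 2 < X ^ 2 :=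
    pow_lt_pow_left₀ (by linarith only [hK, hK0]) hC3 (by norm_num)
  have h17 : X ^ 2 ≤ X ^ 3 := pow_le_pow_right₀ hX1 (by norm_num)
  linarith only [h15, h16, h17]

end Vale.Agent.P018.Q.N
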