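import Vale.Agent.P018.H867Q.Gap

/-! # P018, H867Q: points on a curve, with the prime numbers slightly below `X`
(copies of theorems of `Bdl/B11.lean` with weaker hypotheses on the sizes). -/

set_option linter.all false

namespace Vale.Agent.P018.Q.N

open Polynomial NumberField Finset

variable {L : Type} [Field L] [NumberField L]

theorem T4_ge_one {H : ℕ} {T : ℝ} (hH : 2 ≤ H) (h : (H : ℝ) ^ 3 ≤ T ^ 16) : 1 ≤ T ^ 4 := by
  by_contra hlt
  push Not at hlt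
  have h1 : (T ^ 4) ^ 4 ≤ 1 := pow_le_one₀ (by positivity) hlt.le
  have h2 : (2 : ℝ) ≤ H := by exact_mod_cast hH
  have h3 : (2 : ℝ) ^ 3 ≤ (H : ℝ) ^ 3 := pow_le_pow_left₀ (by norm_num) h2 3
  have h4 : T ^ 16 = (T ^ 4) ^ 4 := by ring
  rw [h4] at h
  linarith only [h, h1, h3]

theorem C_lt_T4 {H C : ℕ} {T : ℝ} (hHC : (C + 1) ^ 2 < H) (h : (H : ℝ) ^ 3 ≤ T ^ 16) :
    (C : ℝ) < T ^ 4 := by
  by_contra hlt
  push Not at hlt
  have h1 : (T ^ 4) ^ 4 ≤ (C : ℝ) ^ 4 := pow_le_pow_left₀ (by positivity) hlt 4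
  have h4 : T ^ 16 = (T ^ 4) ^ 4 := by ring
  rw [h4] at h
  have h2 : (H : ℝ) ^ 3 ≤ (C : ℝ) ^ 4 := h.trans h1
  have h3 : H ^ 3 ≤ C ^ 4 := by exact_mod_cast h2
  have h5 : ((C + 1) ^ 2) ^ 3 < H ^ 3 := Nat.pow_lt_pow_left hHC (by norm_num)
  have h6 : C ^ 4 ≤ (C + 1) ^ 4 := Nat.pow_le_pow_left (Nat.le_succ C) 4
  have h7 : (C + 1) ^ 4 ≤ ((C + 1) ^ 2) ^ 3 := by
    rw [← pow_mul]
    exact Nat.pow_le_pow_right (Nat.succ_pos C) (by norm_num)
  omega

theorem gap_sigma' {G : ℤ[X]} {θ : Fin 4 → 𝓞 L} (hF : Fld G θ) (D C : ℕ) (ε : ℝ) (hε : 0 < ε) :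
    ∃ K : ℝ, 0 < K ∧ ∀ (H : ℕ) (X T : ℝ) (l1 l2 : Fin 4 → ℤ) (A B Λ : ℤ[X]) (S : Finset ℤ),
      2 ≤ H → 1 ≤ X → (H : ℝ) ^ 3 ≤ T ^ 16 → (H : ℝ) ≤ T ^ 4 * (H : ℝ) ^ (ε / 2) → T ≤ H → X ≤ H →
      (∀ a b : ℤ, a • l1 + b • l2 = 0 → a = 0 ∧ b = 0) →
      Λ.map (algebraMap ℤ (𝓞 L)) = ∏ j, piPoly θ l1 l2 j →
      A.natDegree ≤ D → B.natDegree ≤ D →
      (∀ i, |A.coeff i| ≤ (H : ℤ) ^ C) → (∀ i, |B.coeff i| ≤ (H : ℤ) ^ C) →
      (∀ i, |Λ.coeff i| ≤ (H : ℤ) ^ C) →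
      (∀ N ∈ S, ∃ (p : ℕ) (c : ℤ) (z : Fin 4 → ℤ) (s t : ℤ), Pt θ C X T l1 l2 N p c z s t ∧
        t ≠ 0 ∧ aeval ((s : ℚ) / t) A ≠ 0 ∧
        aeval ((s : ℚ) / t) A * (N : ℚ) = aeval ((s : ℚ) / t) B) →
      (S.card : ℝ) ≤ K * (H : ℝ) ^ ε := by
  obtain ⟨K1, hK1, hgap⟩ := gap_param G hF.monic hF.irr (by rw [hF.deg]; norm_num) (max D 4) (C + 1)
    ε hε
  refine ⟨K1 + (2 * (C * (C + 1) ^ 2 : ℕ) + 1), by (clear * - hK1; positivity), ?_⟩
  intro H X T l1 l2 A B Λ S hH hX hXT hHT hTH hXH hl hΛ hA hB hAC hBC hΛC hS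
  have hHR : (1 : ℝ) ≤ H := by exact_mod_cast (by omega : 1 ≤ H)
  have hHε : (1 : ℝ) ≤ (H : ℝ) ^ ε := Real.one_le_rpow hHR hε.le
  have hH0 : (0 : ℝ) ≤ (H : ℝ) ^ ε := by positivity
  rcases le_or_gt H ((C + 1) ^ 2) with hHC | hHC
  · -- small `H`
    have h1 : (S.card : ℝ) ≤ 2 * (C * (C + 1) ^ 2 : ℕ) + 1 := by
      refine card_small (C := C) (X := X) (fun N hN => ?_) ?_
      · obtain ⟨p, c, z, s, t, hP, -⟩ := hS N hN
        exact hP.dat.hN
      · have h2 : (H : ℝ) ≤ (C + 1) ^ 2 := by exact_mod_cast hHC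
        push_cast
        exact mul_le_mul_of_nonneg_left (hXH.trans h2) (Nat.cast_nonneg _)
    refine h1.trans ?_
    have h3 : (0 : ℝ) ≤ 2 * (C * (C + 1) ^ 2 : ℕ) + 1 := by (clear * -; positivity)
    linarith only [mul_nonneg (sub_nonneg.2 hHε) (sub_nonneg.2 h3), mul_nonneg (le_of_lt (sub_pos.2 hK1)) (sub_nonneg.2 hHε), hK1]
  have hl1 : l1 ≠ 0 := by
    rintro rfl
    have := (hl 1 0 (by simp)).1
    omega
  have hl2 : l2 ≠ 0 := by
    rintro rfl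
    have := (hl 0 1 (by simp)).2
    omega
  have hCT : (C : ℝ) < T ^ 4 := C_lt_T4 hHC hXT
  have hpow : (H : ℤ) ^ C ≤ (H : ℤ) ^ (C + 1) := pow_le_pow_right₀ (by exact_mod_cast (by omega : 1 ≤ H))
    (by omega)
  have key : ∀ N : ℤ, ∃ (s t : ℤ) (p : ℕ), N ∈ S → |(N : ℝ)| ≤ ((C + 1 : ℕ) : ℝ) * X ∧
      IsCoprime s t ∧ t ≠ 0 ∧ |s| ≤ (H : ℤ) ^ (C + 1) ∧ |t| ≤ (H : ℤ) ^ (C + 1) ∧
      hom (max D 4) A s t ≠ 0 ∧ hom (max D 4) A s t * N = hom (max D 4) B s t ∧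
      p.Prime ∧ T ^ 4 ≤ p ∧ (p : ℤ) ^ 2 ∣ G.eval N ∧ (p : ℤ) ∣ hom Λ.natDegree Λ s t ∧
      ¬ (p : ℤ) ^ 2 ∣ hom Λ.natDegree Λ s t := by
    intro N
    by_cases hN : N ∈ S
    swap
    · exact ⟨0, 0, 0, fun h => absurd h hN⟩
    obtain ⟨p, c, z, s, t, hP, ht, hA0, hE⟩ := hS N hN
    have hCp : C < p := hP.dat.C_lt hCT
    obtain ⟨s0, t0, h1, h2, h3, h4, h5, h6, h7⟩ := pt_prim hF hl1 hΛ hP hCp ht
    have hT0 := hP.dat.T_nonneg
    refine ⟨s0, t0, p, fun _ => ⟨?_, h1, h2, ?_, ?_, ?_, ?_, hP.dat.prime, hP.dat.lo,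
      hP.dat.sq_dvd hF hCp, h6, h7⟩⟩
    · refine hP.dat.hN.trans ?_
      push_cast
      linarith only [hX]
    · exact h3.trans (abs_le_pow hH hT0 hTH (dot_self_pos hl1) (by exact_mod_cast hP.hs))
    · exact h4.trans (abs_le_pow hH hT0 hTH (dot_self_pos hl2) (by exact_mod_cast hP.ht))
    · intro h
      have h8 := hom_of_aeval (hA.trans (le_max_left D 4)) (s := s0) h2
      rw [h, h5, Int.cast_zero] at h8
      have h9 : (t0 : ℚ) ≠ 0 := by exact_mod_cast h2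
      rcases mul_eq_zero.1 h8.symm with h10 | h10
      · exact h9 (pow_eq_zero_iff (by (clear * -; positivity)) |>.1 h10)
      · exact hA0 h10
    · have h8 := hom_of_aeval (hA.trans (le_max_left D 4)) (s := s0) h2
      have h9 := hom_of_aeval (hB.trans (le_max_left D 4)) (s := s0) h2
      rw [h5] at h8 h9
      have h10 : ((hom (max D 4) A s0 t0 * N : ℤ) : ℚ) = ((hom (max D 4) B s0 t0 : ℤ) : ℚ) := by
        push_cast
        rw [h8, h9, mul_assoc, hE]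
      exact_mod_cast h10
  choose fs ft fp hfs using key
  have hΛ4 := hF.natDegree_Lam hl1 hΛ
  have h1 := hgap H X (T ^ 4) A B Λ S fs ft fp hH hX hXH (T4_ge_one hH hXT)
    (hXT.trans (by rw [← pow_mul])) hHT (hA.trans (le_max_left _ _))
    (hB.trans (le_max_left _ _)) (by rw [hΛ4]; exact le_max_right _ _)
    (fun h => by rw [h, natDegree_zero] at hΛ4; omega)
    (fun i => (hAC i).trans hpow) (fun i => (hBC i).trans hpow) (fun i => (hΛC i).trans hpow)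
    (fun N hN => hfs N hN)
  refine h1.trans ?_
  refine mul_le_mul_of_nonneg_right ?_ hH0
  have : (0 : ℝ) ≤ 2 * (C * (C + 1) ^ 2 : ℕ) + 1 := by (clear * -; positivity)
  linarith only [this]

theorem gap_one' {G : ℤ[X]} {θ : Fin 4 → 𝓞 L} (hF : Fld G θ) (D C : ℕ) (ε : ℝ) (hε : 0 < ε) :
    ∃ K : ℝ, 0 < K ∧ ∀ (H : ℕ) (X T : ℝ) (l1 l2 : Fin 4 → ℤ) (d : Fin 2 → ℕ)
      (A B : Fin 2 → ℤ[X]) (Z : Fin 2 → Fin 4 → ℤ[X]) (Λ : ℤ[X]) (e : ℤ) (g : ℤ[X][X])
      (S : Finset ℤ),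
      2 ≤ H → 1 ≤ X → (H : ℝ) ^ 3 ≤ T ^ 16 → (H : ℝ) ≤ T ^ 4 * (H : ℝ) ^ (ε / 2) → T ≤ H → X ≤ H →
      (∀ a b : ℤ, a • l1 + b • l2 = 0 → a = 0 ∧ b = 0) → KData θ l1 l2 d A B Z Λ e →
      (∀ i k, |(A i).coeff k| ≤ (H : ℤ) ^ C) → (∀ i k, |(B i).coeff k| ≤ (H : ℤ) ^ C) →
      (∀ k, |Λ.coeff k| ≤ (H : ℤ) ^ C) →
      Irreducible (g.map (mapRingHom (Int.castRingHom ℚ))) → BiDeg D D g → g.natDegree ≤ 1 →
      (∀ i j, |(g.coeff i).coeff j| ≤ (H : ℤ) ^ C) →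
      (∀ N ∈ S, ∃ (p : ℕ) (c : ℤ) (z : Fin 4 → ℤ) (s t kn kd : ℤ),
        Pt θ C X T l1 l2 N p c z s t ∧ KP A B Z N c s t kn kd z ∧
        ev (g.map (mapRingHom (Int.castRingHom ℚ))) ((kn : ℚ) / kd) ((s : ℚ) / t) = 0) →
      (S.card : ℝ) ≤ K * (H : ℝ) ^ ε := by
  obtain ⟨K1, hu⟩ := pt_unique' hF C
  obtain ⟨K2, hK2, hsig⟩ := gap_sigma' hF (D + 5) (2 * C + (D + 1)) ε hε
  set M : ℕ := ⌈(C : ℝ) * |K1|⌉₊ with hM
  refine ⟨K2 + D + (2 * M + 1), by positivity, ?_⟩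
  intro H X T l1 l2 d A B Z Λ e g S hH hX hXT hHT hTH hXH hl hK hA hB hΛ hirr hBi hg1 hgC hS
  have hHN : 1 ≤ H := by omega
  have hHR : (1 : ℝ) ≤ H := by exact_mod_cast hHN
  have hHε : (1 : ℝ) ≤ (H : ℝ) ^ ε := Real.one_le_rpow hHR hε.le
  have hX0 : 0 ≤ X := by linarith only [hX]
  have hX3T : X ^ 3 ≤ T ^ 16 := (pow_le_pow_left₀ hX0 hXH 3).trans hXT
  choose! fp fc fz fs ft fn fd hf using hS
  have hinj : Function.Injective (Int.castRingHom ℚ) := RingHom.injective_int _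
  rcases Nat.eq_zero_or_pos g.natDegree with h0 | h0
  · -- degree zero in `κ`
    rcases lt_or_ge X K1 with hXK | hXK
    · have h1 : (S.card : ℝ) ≤ 2 * M + 1 := by
        refine card_small (C := C) (X := X) (fun N hN => (hf N hN).1.dat.hN) ?_
        refine le_trans ?_ (Nat.le_ceil _)
        have h2 : X ≤ |K1| := hXK.le.trans (le_abs_self _)
        gcongr
      refine h1.trans ?_
      have h3 : (0 : ℝ) ≤ 2 * M + 1 := by (clear * -; positivity)
      have h4 : (0 : ℝ) ≤ K2 + D := by (clear * - hK2; positivity)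
      linarith only [mul_nonneg h4 (zero_le_one.trans hHε), mul_le_mul_of_nonneg_left hHε h3]
    · have hg0 : g = Polynomial.C (g.coeff 0) := eq_C_of_natDegree_eq_zero h0
      have hr0 : (g.coeff 0).map (Int.castRingHom ℚ) ≠ 0 := by
        intro h
        apply hirr.ne_zero
        rw [hg0, map_C, coe_mapRingHom, h, C_0]
      have h1 : S.card ≤ ((g.coeff 0).map (Int.castRingHom ℚ)).roots.toFinset.card := by
        refine Finset.card_le_card_of_injOn (fun N => (fs N : ℚ) / ft N) ?_ ?_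
        · intro N hN
          have hN' : N ∈ S := hN
          have h2 := (hf N hN').2.2
          rw [ev_deg_one hg1, coeff_eq_zero_of_natDegree_lt (by omega : g.natDegree < 1),
            map_zero, zero_mul, add_zero] at h2
          have h3 : (fs N : ℚ) / ft N ∈ ((g.coeff 0).map (Int.castRingHom ℚ)).roots.toFinset := by
            rw [Multiset.mem_toFinset, mem_roots hr0, IsRoot.def, eval_map]
            exact h2
          exact h3
        · intro N hN N' hN' hNN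
          have hN1 : N ∈ S := hN
          have hN2 : N' ∈ S := hN'
          have h2 : (fs N : ℚ) / ft N = (fs N' : ℚ) / ft N' := hNN
          have ht : (ft N : ℚ) ≠ 0 := by exact_mod_cast (hf N hN1).2.1.t0
          have ht' : (ft N' : ℚ) ≠ 0 := by exact_mod_cast (hf N' hN2).2.1.t0
          rw [div_eq_div_iff ht ht'] at h2
          exact hu X T l1 l2 N N' _ _ _ _ _ _ _ _ _ _ hXK hX3T (hf N hN1).1 (hf N' hN2).1
            (by exact_mod_cast h2)
      have h2 : S.card ≤ D :=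
        h1.trans ((Multiset.toFinset_card_le _).trans ((card_roots' _).trans
          ((natDegree_map_le).trans (hBi.2 0))))
      have h3 : (S.card : ℝ) ≤ D := by exact_mod_cast h2
      refine h3.trans ?_
      have h4 : (0 : ℝ) ≤ 2 * M + 1 := by (clear * -; positivity)
      have h5 : (0 : ℝ) ≤ D := by (clear * -; positivity)
      linarith only [mul_nonneg h4 (zero_le_one.trans hHε), mul_le_mul_of_nonneg_left hHε h5, mul_nonneg hK2.le (zero_le_one.trans hHε)]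
  · -- degree one in `κ`
    have hd : ∀ i, d i ≤ 5 := by
      intro i
      fin_cases i
      · rcases hK.dd with h | h
        · simp [h.1]
        · simp [h.1]
      · rcases hK.dd with h | h
        · simp [h.2]
        · simp [h.2]
    have hdeg : ∀ (A : Fin 2 → ℤ[X]), (∀ i, (A i).natDegree ≤ d i) →
        (g.coeff 1 * A 0 - g.coeff 0 * A 1).natDegree ≤ D + 5 := by
      intro A hA
      refine (natDegree_sub_le _ _).trans (max_le ?_ ?_)
      · exact natDegree_mul_le.trans (add_le_add (hBi.2 1) ((hA 0).trans (hd 0)))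
      · exact natDegree_mul_le.trans (add_le_add (hBi.2 0) ((hA 1).trans (hd 1)))
    have hpow : (H : ℤ) ^ C ≤ (H : ℤ) ^ (2 * C + (D + 1)) :=
      pow_le_pow_right₀ (by exact_mod_cast hHN) (by omega)
    have h1 := hsig H X T l1 l2 (g.coeff 1 * A 0 - g.coeff 0 * A 1)
      (g.coeff 1 * B 0 - g.coeff 0 * B 1) Λ S hH hX hXT hHT hTH hXH hl hK.hΛ (hdeg A hK.dA)
      (hdeg B hK.dB)
      (coeff_bound_one hH (hBi.2 0) (hBi.2 1) (hgC 0) (hgC 1) (hA 0) (hA 1))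
      (coeff_bound_one hH (hBi.2 0) (hBi.2 1) (hgC 0) (hgC 1) (hB 0) (hB 1))
      (fun i => (hΛ i).trans hpow) ?_
    · refine h1.trans ?_
      have h4 : (0 : ℝ) ≤ D + (2 * M + 1) := by (clear * -; positivity)
      linarith only [mul_nonneg h4 (zero_le_one.trans hHε)]
    · intro N hN
      obtain ⟨hP, hKP, hev⟩ := hf N hN
      refine ⟨fp N, fc N, fz N, fs N, ft N, hP.mono (by omega) hX0, hKP.t0, ?_⟩
      rw [ev_deg_one hg1] at hev
      have hkd : (fd N : ℚ) ≠ 0 := by exact_mod_cast hKP.k0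
      have hg10 : aeval ((fs N : ℚ) / ft N) (g.coeff 1) ≠ 0 := by
        intro h
        rw [h, zero_mul, add_zero] at hev
        have hz : (g.map (mapRingHom (Int.castRingHom ℚ))).map
            (evalRingHom ((fs N : ℚ) / ft N)) = 0 := by
          ext i
          rw [coeff_map, coeff_map, coe_evalRingHom, coe_mapRingHom, eval_map, coeff_zero]
          rcases lt_or_ge 1 i with hi | hi
          · rw [coeff_eq_zero_of_natDegree_lt (by omega : g.natDegree < i), eval₂_zero]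
          · interval_cases i
            · exact hev
            · exact h
        have hgd : (g.map (mapRingHom (Int.castRingHom ℚ))).natDegree = g.natDegree :=
          natDegree_map_eq_of_injective (map_injective _ hinj) g
        have hp := hirr.isPrimitive (by rw [hgd]; omega)
        exact not_isUnit_X_sub_C _ (isPrimitive_iff_isUnit_of_C_dvd.1 hp _
          (C_dvd_of_map_eq_zero hz))
      have hkn : (fn N : ℚ) * aeval ((fs N : ℚ) / ft N) (g.coeff 1) =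
          - (fd N : ℚ) * aeval ((fs N : ℚ) / ft N) (g.coeff 0) := by
        field_simp at hev
        linear_combination hev
      have key : ∀ a0 a1 : ℚ, aeval ((fs N : ℚ) / ft N) (g.coeff 1) *
          (fd N * a0 + fn N * a1) = fd N * (aeval ((fs N : ℚ) / ft N) (g.coeff 1) * a0 -
            aeval ((fs N : ℚ) / ft N) (g.coeff 0) * a1) := by
        intro a0 a1
        linear_combination a1 * hkn
      have hden := hKP.den
      have heq := hKP.eqN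
      rw [map_sub, map_mul, map_mul, map_sub, map_mul, map_mul]
      constructor
      · intro h
        have h2 := key (aeval ((fs N : ℚ) / ft N) (A 0)) (aeval ((fs N : ℚ) / ft N) (A 1))
        rw [h, mul_zero] at h2
        rcases mul_eq_zero.1 h2 with h3 | h3
        · exact hg10 h3
        · exact hden h3
      · have h2 := key (aeval ((fs N : ℚ) / ft N) (A 0)) (aeval ((fs N : ℚ) / ft N) (A 1))
        have h3 := key (aeval ((fs N : ℚ) / ft N) (B 0)) (aeval ((fs N : ℚ) / ft N) (B 1))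
        refine mul_left_cancel₀ hkd ?_
        rw [← mul_assoc, ← h2, ← h3, mul_assoc, heq]

end Vale.Agent.P018.Q.N

namespace Vale.Agent.P018.Q.GapKappa.N

open Polynomial NumberField Finset Gap

variable {L : Type} [Field L] [NumberField L]

theorem gap_kappa' {G : ℤ[X]} {θ : Fin 4 → 𝓞 L} (hF : Fld G θ) (D C : ℕ) (ε : ℝ) (hε : 0 < ε) :
    ∃ K : ℝ, 0 < K ∧ ∀ (H : ℕ) (X T : ℝ) (l1 l2 : Fin 4 → ℤ) (d : Fin 2 → ℕ)
      (A B : Fin 2 → ℤ[X]) (Z : Fin 2 → Fin 4 → ℤ[X]) (Λ : ℤ[X]) (e : ℤ) (g : ℤ[X][X])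
      (S : Finset ℤ),
      2 ≤ H → 1 ≤ X → (H : ℝ) ^ 3 ≤ T ^ 16 → (H : ℝ) ≤ T ^ 4 * (H : ℝ) ^ (ε / 2) → T ≤ H → X ≤ H →
      (∀ a b : ℤ, a • l1 + b • l2 = 0 → a = 0 ∧ b = 0) → KData θ l1 l2 d A B Z Λ e → d 0 = 4 →
      (∀ i k, |(A i).coeff k| ≤ (H : ℤ) ^ C) → (∀ i k, |(B i).coeff k| ≤ (H : ℤ) ^ C) →
      (∀ k, |Λ.coeff k| ≤ (H : ℤ) ^ C) →
      Irreducible (g.map (mapRingHom (Int.castRingHom ℚ))) → BiDeg D 1 g → 2 ≤ g.natDegree →
      (∀ i j, |(g.coeff i).coeff j| ≤ (H : ℤ) ^ C) →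
      (∀ N ∈ S, ∃ (p : ℕ) (c : ℤ) (z : Fin 4 → ℤ) (s t kn kd : ℤ),
        Pt θ C X T l1 l2 N p c z s t ∧ KP A B Z N c s t kn kd z ∧
        |kn| ≤ (H : ℤ) ^ C ∧ |kd| ≤ (H : ℤ) ^ C ∧
        ev (g.map (mapRingHom (Int.castRingHom ℚ))) ((kn : ℚ) / kd) ((s : ℚ) / t) = 0) →
      (S.card : ℝ) ≤ K * (H : ℝ) ^ ε := by
  classical
  set C2 : ℕ := 4 + C + 4 * (D + 1 + C) with hC2
  obtain ⟨K1, hK1, hgap⟩ := Vale.Agent.P018.Q.N.gap_param G hF.monic hF.irr (by rw [hF.deg]; norm_num) (4 * D + 1) C2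
    ε hε
  obtain ⟨C3, hres⟩ := res_hom D C
  obtain ⟨K2, hbad⟩ := Vale.Agent.P018.Q.N.GapBad.card_bad G hF.monic hF.irr C C3
  refine ⟨K1 + K2 + (2 * (C * (C + 1) ^ 2 : ℕ) + 1), by positivity, ?_⟩
  intro H X T l1 l2 d A B Z Λ e g S hH hX hXT hHT hTH hXH hl hKD hd0 hAC hBC hΛC hgi hbd hg2 hgC hS
  have hHR : (1 : ℝ) ≤ H := by exact_mod_cast (by omega : 1 ≤ H)
  have hHε : (1 : ℝ) ≤ (H : ℝ) ^ ε := Real.one_le_rpow hHR hε.le
  have hH0 : (0 : ℝ) ≤ (H : ℝ) ^ ε := by positivity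
  have hK2 : (0 : ℝ) ≤ K2 := Nat.cast_nonneg _
  rcases le_or_gt H ((C + 1) ^ 2) with hHC | hHC
  · -- small `H`
    have h1 : (S.card : ℝ) ≤ 2 * (C * (C + 1) ^ 2 : ℕ) + 1 := by
      refine card_small (C := C) (X := X) (fun N hN => ?_) ?_
      · obtain ⟨p, c, z, s, t, kn, kd, hP, -⟩ := hS N hN
        exact hP.dat.hN
      · have h2 : (H : ℝ) ≤ (C + 1) ^ 2 := by exact_mod_cast hHC
        push_cast
        exact mul_le_mul_of_nonneg_left (hXH.trans h2) (Nat.cast_nonneg _)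
    refine h1.trans ?_
    have h3 : (0 : ℝ) ≤ 2 * (C * (C + 1) ^ 2 : ℕ) + 1 := by (clear * -; positivity)
    nlinarith [mul_nonneg hK1.le hH0, mul_nonneg hK2 hH0]
  have hl1 : l1 ≠ 0 := by
    rintro rfl
    have := (hl 1 0 (by simp)).1
    omega
  have hCT : (C : ℝ) < T ^ 4 := Vale.Agent.P018.Q.N.C_lt_T4 hHC hXT
  have hpow : (H : ℤ) ^ C ≤ (H : ℤ) ^ C2 := pow_le_pow_right₀ (by exact_mod_cast (by omega : 1 ≤ H))
    (by omega)
  have hd : ∀ i, d i = 4 := by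
    rcases hKD.dd with h | h
    · intro i; fin_cases i
      · exact h.1
      · exact h.2
    · omega
  have hA4 : ∀ i, (A i).natDegree ≤ 4 := fun i => (hKD.dA i).trans (hd i).le
  have hB4 : ∀ i, (B i).natDegree ≤ 4 := fun i => (hKD.dB i).trans (hd i).le
  -- the two polynomials
  set a : ℤ[X] := ∑ i ∈ range (D + 1), monomial i ((g.coeff i).coeff 1) with ha
  set b : ℤ[X] := ∑ i ∈ range (D + 1), monomial i ((g.coeff i).coeff 0) with hb
  have hcoef : ∀ (m i : ℕ), (∑ k ∈ range (D + 1), monomial k ((g.coeff k).coeff m) : ℤ[X]).coeff i =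
      (g.coeff i).coeff m := by
    intro m i
    rw [finsetSum_coeff]
    simp only [coeff_monomial]
    rw [Finset.sum_ite_eq']
    split_ifs with h
    · rfl
    · have h1 : g.coeff i = 0 := by
        refine coeff_eq_zero_of_natDegree_lt ?_
        rw [Finset.mem_range] at h
        have := hbd.1
        omega
      rw [h1, coeff_zero]
  have hac : ∀ i, a.coeff i = (g.coeff i).coeff 1 := hcoef 1
  have hbc : ∀ i, b.coeff i = (g.coeff i).coeff 0 := hcoef 0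
  have hg : ∀ i, g.coeff i = Polynomial.C (a.coeff i) * Polynomial.X +
      Polynomial.C (b.coeff i) := by
    intro i
    rw [hac, hbc]
    exact eq_X_add_C_of_natDegree_le_one (hbd.2 i)
  clear_value a b
  have haC : ∀ i, |a.coeff i| ≤ (H : ℤ) ^ C := fun i => by rw [hac]; exact hgC _ _
  have hbC : ∀ i, |b.coeff i| ≤ (H : ℤ) ^ C := fun i => by rw [hbc]; exact hgC _ _
  have hgz : ∀ i, D < i → g.coeff i = 0 := fun i hi =>
    coeff_eq_zero_of_natDegree_lt (lt_of_le_of_lt hbd.1 hi)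
  have haD : a.natDegree ≤ D := by
    rw [natDegree_le_iff_coeff_eq_zero]
    intro i hi
    rw [hac, hgz i hi, coeff_zero]
  have hbD : b.natDegree ≤ D := by
    rw [natDegree_le_iff_coeff_eq_zero]
    intro i hi
    rw [hbc, hgz i hi, coeff_zero]
  set e' : ℕ := max a.natDegree b.natDegree with he'
  have hae : a.natDegree ≤ e' := le_max_left _ _
  have hbe : b.natDegree ≤ e' := le_max_right _ _
  have heD : e' ≤ D := max_le haD hbD
  have he2 : 2 ≤ e' := by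
    refine hg2.trans ?_
    rw [natDegree_le_iff_coeff_eq_zero]
    intro i hi
    rw [hg, coeff_eq_zero_of_natDegree_lt (lt_of_le_of_lt hae hi),
      coeff_eq_zero_of_natDegree_lt (lt_of_le_of_lt hbe hi)]
    simp
  have hS0 : a = 0 → S = ∅ := by
    intro ha0
    rw [Finset.eq_empty_iff_forall_notMem]
    intro N hN
    obtain ⟨p, c, z, s, t, kn, kd, -, -, -, -, hev⟩ := hS N hN
    refine no_root hgi hg ha0 ?_ _ _ hev
    rw [he', ha0, natDegree_zero, Nat.zero_max] at he2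
    exact he2
  rcases eq_or_ne a 0 with ha0 | ha0
  · rw [hS0 ha0, Finset.card_empty]
    push_cast
    (clear * - hK1 hH; positivity)
  have hcop := coprime_ab hgi hg ha0
  have hb0 : b ≠ 0 := by
    intro hb0
    rw [hb0, Polynomial.map_zero, isCoprime_zero_right] at hcop
    have h1 := natDegree_eq_zero_of_isUnit hcop
    rw [natDegree_map_eq_of_injective Int.cast_injective] at h1
    rw [he', h1, hb0, natDegree_zero] at he2
    simp at he2
  have hee : a.natDegree = e' ∨ b.natDegree = e' := by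
    rcases max_choice a.natDegree b.natDegree with h | h
    · exact Or.inl h.symm
    · exact Or.inr h.symm
  have hab : a.coeff e' ≠ 0 ∨ b.coeff e' ≠ 0 := by
    rcases hee with h | h
    · left; rw [← h, coeff_natDegree, leadingCoeff_ne_zero]; exact ha0
    · right; rw [← h, coeff_natDegree, leadingCoeff_ne_zero]; exact hb0
  obtain ⟨R0, hR0, hR0C, hR⟩ := hres H a b e' e' hH ha0 hb0 heD heD hae hbe hee hcop haC hbC
  have key : ∀ N : ℤ, ∃ (kn kd : ℤ) (p : ℕ), N ∈ S → (|(N : ℝ)| ≤ C * X ∧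
      IsCoprime kn kd ∧ kd ≠ 0 ∧ |kn| ≤ (H : ℤ) ^ C2 ∧ |kd| ≤ (H : ℤ) ^ C2 ∧
      p.Prime ∧ T ^ 4 ≤ p ∧ (p : ℤ) ^ 2 ∣ G.eval N) ∧ (¬ (p : ℤ) ∣ R0 →
      hom (4 * D + 1) (tw a b A) kn kd ≠ 0 ∧
      hom (4 * D + 1) (tw a b A) kn kd * N = hom (4 * D + 1) (tw a b B) kn kd ∧
      (p : ℤ) ∣ hom (hom 4 Λ (-b) a).natDegree (hom 4 Λ (-b) a) kn kd ∧
      ¬ (p : ℤ) ^ 2 ∣ hom (hom 4 Λ (-b) a).natDegree (hom 4 Λ (-b) a) kn kd) := by
    intro N
    by_cases hN : N ∈ S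
    swap
    · exact ⟨0, 0, 0, fun h => absurd h hN⟩
    obtain ⟨p, c, z, s, t, kn, kd, hP, hK, hkn, hkd, hev⟩ := hS N hN
    have hCp : C < p := hP.dat.C_lt hCT
    rw [ev_eq hg] at hev
    refine ⟨kn, kd, p, fun _ => ⟨⟨hP.dat.hN, hK.cop, hK.k0, hkn.trans hpow, hkd.trans hpow,
      hP.dat.prime, hP.dat.lo, hP.dat.sq_dvd hF hCp⟩, fun hpR => ?_⟩⟩
    exact point hF hl hl1 hKD.hΛ hA4 hB4 hae hbe heD hab hR0 hR hP hK hev hCp hpR
  choose fk fl fp hfs using key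
  have hΛd : (hom 4 Λ (-b) a).natDegree = 4 * e' :=
    natDegree_sub_lam hae hbe hab (fun s t hst => GapPt.hom_lam_ne hF hl hKD.hΛ s t hst)
  have hb'D : (-b).natDegree ≤ D := by rwa [natDegree_neg]
  have hb'C : ∀ i, |(-b).coeff i| ≤ (H : ℤ) ^ C := fun i => by rw [coeff_neg, abs_neg]; exact hbC i
  have hH1 : (1 : ℤ) ≤ H := by exact_mod_cast (by omega : 1 ≤ H)
  have h1 := hgap H X (T ^ 4) (tw a b A) (tw a b B) (hom 4 Λ (-b) a)
    (S.filter fun N => ¬ (fp N : ℤ) ∣ R0) fk fl fp hH hX hXH (Vale.Agent.P018.Q.N.T4_ge_one hH hXT)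
    (hXT.trans (by rw [← pow_mul])) hHT
    ((natDegree_tw hae hbe A).trans (by omega)) ((natDegree_tw hae hbe B).trans (by omega))
    (by rw [hΛd]; omega) (fun h => by rw [h, natDegree_zero] at hΛd; omega)
    (ht_tw hH haD hbD haC hbC hAC) (ht_tw hH haD hbD haC hbC hBC)
    (fun i => (ht_comp hH hb'D haD hb'C haC hΛC i).trans
      (pow_le_pow_right₀ hH1 (by omega)))
    (fun N hN => by
      obtain ⟨hNS, hpR⟩ := Finset.mem_filter.1 hN
      obtain ⟨⟨e1, e2, e3, e4, e5, e6, e7, e8⟩, e9⟩ := hfs N hNS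
      obtain ⟨e10, e11, e12, e13⟩ := e9 hpR
      refine ⟨e1.trans ?_, e2, e3, e4, e5, e10, e11, e6, e7, e8, e12, e13⟩
      refine mul_le_mul_of_nonneg_right ?_ (by linarith only [hX])
      exact_mod_cast (by omega : C ≤ C2))
  have h2 := hbad H (T ^ 4) R0 (S.filter fun N => (fp N : ℤ) ∣ R0) fp hH (Vale.Agent.P018.Q.N.T4_ge_one hH hXT)
    (hXT.trans (by rw [← pow_mul])) hR0 hR0C
    (fun N hN => by
      obtain ⟨hNS, hpR⟩ := Finset.mem_filter.1 hN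
      obtain ⟨⟨e1, e2, e3, e4, e5, e6, e7, e8⟩, -⟩ := hfs N hNS
      exact ⟨e1.trans (mul_le_mul_of_nonneg_left hXH (Nat.cast_nonneg _)), e6, e7, e8, hpR⟩)
  have h3 : (S.card : ℝ) = ((S.filter fun N => (fp N : ℤ) ∣ R0).card : ℝ) +
      ((S.filter fun N => ¬ (fp N : ℤ) ∣ R0).card : ℝ) := by
    exact_mod_cast (Finset.card_filter_add_card_filter_not _).symm
  have h4 : ((S.filter fun N => (fp N : ℤ) ∣ R0).card : ℝ) ≤ K2 := by exact_mod_cast h2
  have h5 : (0 : ℝ) ≤ 2 * (C * (C + 1) ^ 2 : ℕ) + 1 := by (clear * -; positivity)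
  rw [h3]
  linarith only [h1, h4, mul_nonneg h5 hH0, mul_le_mul_of_nonneg_left hHε hK2]

end Vale.Agent.P018.Q.GapKappa.N
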