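import Vale.Agent.P018.H867Q.GapS

/-! # P018, H867Q: count over one reduced pair, with the prime numbers slightly below `X`
(copies of theorems of `Bdl/B13.lean`, `Bdl/B17.lean` with weaker hypotheses on the sizes). -/

set_option linter.all false

namespace Vale.Agent.P018.Q.N

open Polynomial NumberField Finset

/-- the size of the parameters. -/
theorem size_F {w ε η X T F : ℝ} (hw : 1 / 4 ≤ w) (hε0 : 0 < ε) (hε4 : ε ≤ 1 / 4)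
    (hεη : ε ≤ η / 8) (hF1 : 1 ≤ F) (hFX : F ≤ X) (hT : X ^ (w - ε) ≤ T) :
    F ≤ T ^ 4 * F ^ (η / 2) := by
  have hX1 : 1 ≤ X := hF1.trans hFX
  have hX0 : 0 < X := by linarith only [hX1]
  have hF0 : 0 < F := by linarith only [hF1]
  have h1 : X ^ (1 - 4 * ε) ≤ T ^ 4 := by
    calc X ^ (1 - 4 * ε) ≤ X ^ (4 * (w - ε)) :=
          Real.rpow_le_rpow_of_exponent_le hX1 (by linarith only [hw])
      _ = (X ^ (w - ε)) ^ 4 := by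
          rw [← Real.rpow_natCast, ← Real.rpow_mul hX0.le]
          congr 1; push_cast; ring
      _ ≤ T ^ 4 := pow_le_pow_left₀ (Real.rpow_nonneg hX0.le _) hT 4
  have h2 : F ^ (1 - η / 2) ≤ T ^ 4 := by
    calc F ^ (1 - η / 2) ≤ F ^ (1 - 4 * ε) :=
          Real.rpow_le_rpow_of_exponent_le hF1 (by linarith only [hεη])
      _ ≤ X ^ (1 - 4 * ε) := Real.rpow_le_rpow hF0.le hFX (by linarith only [hε4])
      _ ≤ T ^ 4 := h1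
  calc F = F ^ (1 - η / 2) * F ^ (η / 2) := by
        rw [← Real.rpow_add hF0, sub_add_cancel, Real.rpow_one]
    _ ≤ T ^ 4 * F ^ (η / 2) := mul_le_mul_of_nonneg_right h2 (Real.rpow_nonneg hF0.le _)

/-- a number is small. -/
theorem small_lt {X T : ℝ} {p : ℕ} {u : ℝ} (hX1 : 1 ≤ X) (hXT : X ^ 3 ≤ T ^ 16) (hp : T ^ 4 ≤ p)
    (hu0 : 0 ≤ u) (hu : u ^ 2 < X) : u < p := by
  by_contra h
  push Not at h
  have h1 : (T ^ 4) ^ 4 ≤ u ^ 4 := pow_le_pow_left₀ (by positivity) (hp.trans h) 4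
  have h2 : u ^ 4 ≤ X ^ 2 := by
    calc u ^ 4 = (u ^ 2) ^ 2 := by ring
      _ ≤ X ^ 2 := pow_le_pow_left₀ (by positivity) hu.le 2
  have h3 : X ^ 3 ≤ X ^ 2 := by
    calc X ^ 3 ≤ T ^ 16 := hXT
      _ = (T ^ 4) ^ 4 := by ring
      _ ≤ X ^ 2 := h1.trans h2
  have h4 : X ^ 2 * X ≤ X ^ 2 * 1 := by
    calc X ^ 2 * X = X ^ 3 := by ring
      _ ≤ X ^ 2 * 1 := by rw [mul_one]; exact h3
  have h5 : X ≤ 1 := le_of_mul_le_mul_left h4 (by positivity)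
  -- then `u < 1 ≤ p`
  have h6 : u ^ 2 < 1 := lt_of_lt_of_le hu h5
  have h7 : X = 1 := le_antisymm h5 hX1
  have h8 : u < 1 := by
    by_contra h9
    push Not at h9
    have := one_le_pow₀ (n := 2) h9
    linarith only [this, h6]
  have h10 : (T ^ 4) ^ 4 < 1 := by
    refine lt_of_le_of_lt h1 ?_
    exact pow_lt_one₀ hu0 h8 (by norm_num)
  rw [h7] at hXT
  have h11 : (1 : ℝ) ≤ (T ^ 4) ^ 4 := by
    calc (1 : ℝ) = 1 ^ 3 := by norm_num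
      _ ≤ T ^ 16 := hXT
      _ = (T ^ 4) ^ 4 := by ring
  linarith only [h10, h11]

variable {L : Type} [Field L] [NumberField L]

theorem curve_class {G : ℤ[X]} {θ : Fin 4 → 𝓞 L} (hF : Fld G θ) (C Dg : ℕ) (w m1 β : ℝ)
    (hw : 0 < w) (hw' : w ≤ 1 / 2) (hm1 : 0 ≤ m1) (hm : m1 < w) (hβ : 0 < β)
    (hcur : NumCurve w m1 β) :
    ∃ ε : ℝ, 0 < ε ∧ ∃ K : ℝ, 0 < K ∧ ∀ (X T : ℝ) (l1 l2 : Fin 4 → ℤ) (d : Fin 2 → ℕ)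
      (A B : Fin 2 → ℤ[X]) (Z : Fin 2 → Fin 4 → ℤ[X]) (Λ : ℤ[X]) (e : ℤ) (g : ℤ[X][X]) (q : ℕ)
      (x0 y0 v : ℤ) (S : Finset ℤ),
      K ≤ X → X ^ 3 ≤ T ^ 16 → X ^ (w - ε) ≤ T → T ≤ X ^ (w + ε) →
      X ^ (2 * (m1 - ε)) ≤ dot l1 l1 → dot l1 l1 ≤ dot l2 l2 → l1 ≠ 0 → NonDeg θ l1 l2 →
      KData θ l1 l2 d A B Z Λ e →
      Irreducible (g.map (mapRingHom (Int.castRingHom ℚ))) → BiDeg Dg Dg g → 2 ≤ g.natDegree →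
      (d 0 = 4 → ∃ i, 2 ≤ (g.coeff i).natDegree) →
      X ^ (β - ε) ≤ q → (q : ℝ) ≤ X ^ (β + ε) → (q : ℤ) ∣ 1 - v * ev2 (derivative g) x0 y0 →
      (∀ N ∈ S, ∃ (p : ℕ) (c : ℤ) (z : Fin 4 → ℤ) (s t kn kd : ℤ),
        Pt θ C X T l1 l2 N p c z s t ∧ KP A B Z N c s t kn kd z ∧
        ev (g.map (mapRingHom (Int.castRingHom ℚ))) ((kn : ℚ) / kd) ((s : ℚ) / t) = 0 ∧
        IsCoprime t (q : ℤ) ∧ IsCoprime kd (q : ℤ) ∧ (q : ℤ) ∣ s - x0 * t ∧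
        (q : ℤ) ∣ kn - y0 * kd ∧
        IsCoprime (kd * hom 5 (A 0) s t + kn * hom 5 (A 1) s t) (q : ℤ)) →
      (S.card : ℝ) ≤ K := by
  obtain ⟨j, ε, hj, hε, hεβ, hnum⟩ := pc_choose w m1 β hw hw' hm1 hm hβ hcur
  obtain ⟨C1, hC1⟩ := curve_step (L := L) (10 * j) (11 * j) Dg (by omega)
  set n : ℕ := 6 * (10 * j) + 10 * (11 * j) + 2 with hn
  set E1 : ℕ := 2305 * j ^ 2 + 75 * j with hE1
  set E2 : ℕ := 1210 * j ^ 2 + 280 * j + 2 with hE2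
  set E3 : ℕ := 14450 * j ^ 2 + 255 * j + 1 with hE3
  have hs1 : ∑ k ∈ range n, (10 * j + lev (10 * j) k) = E1 := by
    rw [Finset.sum_add_distrib, Finset.sum_const, card_range, hn, pc_sum_lev, hE1]
    simp only [smul_eq_mul]
    ring
  have hs2 : ∑ k ∈ range n, (1 + 2 * lev (10 * j) k) = E2 := by
    rw [Finset.sum_add_distrib, Finset.sum_const, card_range, ← Finset.mul_sum, hn, pc_sum_lev,
      hE2]
    simp only [smul_eq_mul]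
    ring
  have hs3 : n * (n - 1) / 2 = E3 := by
    have h1 : n - 1 = 170 * j + 1 := by omega
    have h2 : n * (n - 1) = 2 * E3 := by
      rw [h1, hn, hE3]
      ring
    rw [h2]
    omega
  set c0 : ℝ := (2 * n : ℝ) ^ n * ((C : ℝ) + 1) ^ (E1 + E2) with hc0
  have hc0' : 0 ≤ c0 := by (clear * - hj; positivity)
  have h2β : (0 : ℝ) ≤ 2 ^ (2 / β) := by positivity
  have hCC : (0 : ℝ) ≤ (2 * C + 1) * C1 := by (clear * -; positivity)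
  refine ⟨ε, hε, 1 + 2 ^ (2 / β) + c0 + (2 * C + 1) * C1, by (clear * - hj; positivity), ?_⟩
  intro X T l1 l2 d A B Z Λ e g q x0 y0 v S hKX hXT hT1 hT2 hl hl12 hl10 hnd hKD hg hgd hg2 hg4
    hq1 hq2 hv hS
  have hX1 : 1 ≤ X := by linarith only [hKX, hCC, h2β, hc0']
  have hX0 : 0 < X := by linarith only [hX1, hm, hm1, hw']
  have hcX : c0 < X := by linarith only [hKX, hCC, h2β, hm, hm1, hw']
  have h2X : (2 : ℝ) ^ (2 / β) ≤ X := by linarith only [hKX, hCC, hc0', hm, hm1, hw']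
  have hT0 : 0 < T := lt_of_lt_of_le (by positivity) hT1
  -- `q` is large
  have hq : 2 ≤ q := by
    have h1 : (2 : ℝ) ≤ X ^ (β / 2) := by
      have h2 : ((2 : ℝ) ^ (2 / β)) ^ (β / 2) ≤ X ^ (β / 2) :=
        Real.rpow_le_rpow h2β h2X (by positivity)
      rw [← Real.rpow_mul (by norm_num)] at h2
      have h3 : 2 / β * (β / 2) = 1 := by field_simp
      rw [h3, Real.rpow_one] at h2
      exact h2
    have h2 : X ^ (β / 2) ≤ X ^ (β - ε) := Real.rpow_le_rpow_of_exponent_le hX1 (by linarith only [hεβ])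
    have h3 : (2 : ℝ) ≤ q := by linarith only [h2, h1, hq1]
    exact_mod_cast h3
  set Gz : ℝ := ((C : ℝ) + 1) * X ^ (1 - 2 * w + 2 * ε) with hGz
  set Sg : ℝ := ((C : ℝ) + 1) * X ^ (w - m1 + 2 * ε) with hSg
  have hGz0 : 0 < Gz := by (clear * - hX1; positivity)
  have hSg0 : 0 < Sg := by (clear * - hX1; positivity)
  have hmain : (2 * n : ℝ) ^ n * (Gz ^ (∑ k ∈ range n, (10 * j + lev (10 * j) k)) *
      Sg ^ (∑ k ∈ range n, (1 + 2 * lev (10 * j) k))) < (q : ℝ) ^ (n * (n - 1) / 2) := by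
    rw [hs1, hs2, hs3]
    have h1 : (2 * n : ℝ) ^ n * (Gz ^ E1 * Sg ^ E2) =
        c0 * X ^ ((1 - 2 * w + 2 * ε) * (E1 : ℝ) + (w - m1 + 2 * ε) * (E2 : ℝ)) := by
      have key : ∀ a b : ℝ, (2 * n : ℝ) ^ n * ((((C : ℝ) + 1) * X ^ a) ^ E1 *
          (((C : ℝ) + 1) * X ^ b) ^ E2) = c0 * X ^ (a * (E1 : ℝ) + b * (E2 : ℝ)) := by
        intro a b
        have k1 : X ^ (a * (E1 : ℝ) + b * (E2 : ℝ)) = (X ^ a) ^ E1 * (X ^ b) ^ E2 := by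
          rw [Real.rpow_add hX0, Real.rpow_mul hX0.le, Real.rpow_mul hX0.le, Real.rpow_natCast,
            Real.rpow_natCast]
        rw [k1, hc0, pow_add, mul_pow ((C : ℝ) + 1), mul_pow ((C : ℝ) + 1)]
        ring
      exact key _ _
    rw [h1]
    have h2 : c0 * X ^ ((1 - 2 * w + 2 * ε) * (E1 : ℝ) + (w - m1 + 2 * ε) * (E2 : ℝ)) <
        X * X ^ ((1 - 2 * w + 2 * ε) * (E1 : ℝ) + (w - m1 + 2 * ε) * (E2 : ℝ)) := by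
      gcongr
    have h3 : X * X ^ ((1 - 2 * w + 2 * ε) * (E1 : ℝ) + (w - m1 + 2 * ε) * (E2 : ℝ)) =
        X ^ ((1 - 2 * w + 2 * ε) * (E1 : ℝ) + (w - m1 + 2 * ε) * (E2 : ℝ) + 1) := by
      rw [Real.rpow_add hX0 _ 1, Real.rpow_one]
      ring
    have h4 : X ^ ((1 - 2 * w + 2 * ε) * (E1 : ℝ) + (w - m1 + 2 * ε) * (E2 : ℝ) + 1) ≤
        X ^ ((β - ε) * (E3 : ℝ)) := Real.rpow_le_rpow_of_exponent_le hX1 hnum
    have h5 : X ^ ((β - ε) * (E3 : ℝ)) ≤ (q : ℝ) ^ E3 := by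
      rw [Real.rpow_mul hX0.le, Real.rpow_natCast]
      exact pow_le_pow_left₀ (by (clear * - hX1; positivity)) hq1 _
    linarith only [h2, h3, h4, h5]
  obtain ⟨W, hW0, hW1, hW2⟩ := pc_num (n := n) (by omega) (fun k => 10 * j + lev (10 * j) k)
    (fun k => 1 + 2 * lev (10 * j) k) Gz Sg hGz0 hSg0 q (by omega) hmain
  -- the functions of the point
  choose! p c z s t kn kd hpt using hS
  have hdot : 0 < (dot l1 l1 : ℝ) := lt_of_lt_of_le (by positivity) hl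
  have hsq : ∀ a : ℤ, (a : ℝ) ^ 2 * dot l1 l1 ≤ C * T ^ 2 → |(a : ℝ)| ≤ Sg := by
    intro a ha
    refine abs_le_of_sq_le_sq ?_ hSg0.le
    have h1 : (a : ℝ) ^ 2 * X ^ (2 * (m1 - ε)) ≤ C * (X ^ (w + ε)) ^ 2 := by
      calc (a : ℝ) ^ 2 * X ^ (2 * (m1 - ε)) ≤ (a : ℝ) ^ 2 * dot l1 l1 := by gcongr
        _ ≤ C * T ^ 2 := ha
        _ ≤ C * (X ^ (w + ε)) ^ 2 := by gcongr
    have h2 : (X ^ (w + ε)) ^ 2 = X ^ (2 * (m1 - ε)) * (X ^ (w - m1 + 2 * ε)) ^ 2 := by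
      rw [← Real.rpow_natCast (X ^ (w + ε)), ← Real.rpow_natCast (X ^ (w - m1 + 2 * ε)),
        ← Real.rpow_mul hX0.le, ← Real.rpow_mul hX0.le, ← Real.rpow_add hX0]
      congr 1
      push_cast
      ring
    have h3 : 0 < X ^ (2 * (m1 - ε)) := by positivity
    have h4 : (a : ℝ) ^ 2 ≤ C * (X ^ (w - m1 + 2 * ε)) ^ 2 := by
      rw [h2] at h1
      have h5 : (a : ℝ) ^ 2 * X ^ (2 * (m1 - ε)) ≤
          C * (X ^ (w - m1 + 2 * ε)) ^ 2 * X ^ (2 * (m1 - ε)) := by linarith only [h1]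
      exact le_of_mul_le_mul_right h5 h3
    rw [hSg, mul_pow]
    refine h4.trans ?_
    have h6 : (C : ℝ) ≤ ((C : ℝ) + 1) ^ 2 := by (by_contra nlg; linarith only [mul_nonneg (le_of_lt (sub_pos.2 (not_le.1 nlg))) (sub_nonneg.2 hw'), mul_nonneg (le_of_lt (sub_pos.2 (not_le.1 nlg))) (sub_nonneg.2 hm1), mul_pos (sub_pos.2 (not_le.1 nlg)) (sub_pos.2 hm), mul_nonneg (sub_nonneg.2 (Nat.cast_nonneg (α := ℝ) C)) (sub_nonneg.2 (Nat.cast_nonneg (α := ℝ) C))])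
    gcongr
  have hclass : ∀ b ∈ (Finset.Icc (-(C : ℤ)) C), (S.filter fun N => c N = b).card ≤ C1 := by
    intro b _
    rcases eq_or_ne b 0 with rfl | hb
    · have : (S.filter fun N => c N = 0) = ∅ := by
        rw [Finset.filter_eq_empty_iff]
        intro N hN
        exact (hpt N hN).1.dat.c0
      rw [this]
      simp
    · refine hC1 hF.inj (pc_ell hF hl10) hnd hKD g hg hgd hg2 hg4 q hq n (by omega) b hb Gz Sg W hW0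
        (S.filter fun N => c N = b) s t kn kd z x0 y0 v ?_ hv hW1 hW2
      intro N hN
      rw [Finset.mem_filter] at hN
      obtain ⟨hN, hcN⟩ := hN
      obtain ⟨h1, h2, h3, h4, h5, h6, h7, h8⟩ := hpt N hN
      refine ⟨h4, h5, h2.t0, h6, h7, h3, h8, h2.eqN, ?_, ?_, ?_, ?_⟩
      · intro m
        rw [h2.eqz m, hcN]
      · intro m
        refine (h1.dat.hz m).trans ?_
        have e1 : (X ^ (w - ε)) ^ 2 ≤ T ^ 2 := pow_le_pow_left₀ (by positivity) hT1 2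
        have e2 : (C : ℝ) * X / T ^ 2 ≤ C * X / (X ^ (w - ε)) ^ 2 := by
          gcongr
        have e3 : (C : ℝ) * X / (X ^ (w - ε)) ^ 2 = C * X ^ (1 - 2 * w + 2 * ε) := by
          rw [← Real.rpow_natCast (X ^ (w - ε)), ← Real.rpow_mul hX0.le, mul_div_assoc]
          congr 1
          have e4 : X ^ (1 - 2 * w + 2 * ε) = X ^ (1 - (w - ε) * ((2 : ℕ) : ℝ)) := by
            congr 1
            push_cast
            ring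
          rw [e4, Real.rpow_sub hX0, Real.rpow_one]
        rw [e3] at e2
        refine e2.trans ?_
        rw [hGz]
        gcongr
        linarith only [hm, hm1, hw']
      · exact hsq _ h1.hs
      · refine hsq _ (le_trans ?_ h1.ht)
        have : (dot l1 l1 : ℝ) ≤ dot l2 l2 := by exact_mod_cast hl12
        gcongr
  have hcard : S.card ≤ C1 * (Finset.Icc (-(C : ℤ)) C).card :=
    Finset.card_le_mul_card_image_of_maps_to (f := c) (fun N hN => by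
      rw [Finset.mem_Icc, ← abs_le]
      exact (hpt N hN).1.dat.cC) C1 hclass
  have hcard2 : (Finset.Icc (-(C : ℤ)) C).card = 2 * C + 1 := by
    rw [Int.card_Icc]
    omega
  rw [hcard2] at hcard
  have h1 : (S.card : ℝ) ≤ C1 * (2 * C + 1) := by exact_mod_cast hcard
  linarith only [h1, h2β, hc0', hm, hm1, hw']

theorem pc816_class {G : ℤ[X]} {θ : Fin 4 → 𝓞 L} (hF : Fld G θ) (C Dg : ℕ) (w m1 β : ℝ)
    (hw : 0 < w) (hw' : w ≤ 1 / 2) (hm1 : 0 ≤ m1) (hm : m1 < w) (hβ : 0 < β)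
    (hcur : NumCurve w m1 β) :
    ∃ ε : ℝ, 0 < ε ∧ ∃ K : ℝ, 0 < K ∧ ∀ (X T : ℝ) (l1 l2 : Fin 4 → ℤ) (d : Fin 2 → ℕ)
      (A B : Fin 2 → ℤ[X]) (Z : Fin 2 → Fin 4 → ℤ[X]) (Λ : ℤ[X]) (e : ℤ) (g : ℤ[X][X])
      (I : Finset ℕ) (x0 : ℤ) (S : Finset ℤ),
      K ≤ X → X ^ 3 ≤ T ^ 16 → X ^ (w - ε) ≤ T → T ≤ X ^ (w + ε) →
      X ^ (2 * (m1 - ε)) ≤ dot l1 l1 → dot l1 l1 ≤ dot l2 l2 → l1 ≠ 0 → NonDeg θ l1 l2 →
      KData θ l1 l2 d A B Z Λ e →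
      Irreducible (g.map (mapRingHom (Int.castRingHom ℚ))) → BiDeg Dg Dg g → 2 ≤ g.natDegree →
      (d 0 = 4 → ∃ i, 2 ≤ (g.coeff i).natDegree) → (∀ ℓ ∈ I, ℓ.Prime) →
      X ^ (β - ε) ≤ ((∏ ℓ ∈ I, ℓ : ℕ) : ℝ) → ((∏ ℓ ∈ I, ℓ : ℕ) : ℝ) ≤ X ^ (β + ε) →
      ∀ (p : ℤ → ℕ) (c : ℤ → ℤ) (z : ℤ → Fin 4 → ℤ) (s t kn kd : ℤ → ℤ),
      (∀ N ∈ S, Pt θ C X T l1 l2 N (p N) (c N) (z N) (s N) (t N) ∧
        KP A B Z N (c N) (s N) (t N) (kn N) (kd N) (z N) ∧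
        ev (g.map (mapRingHom (Int.castRingHom ℚ))) ((kn N : ℚ) / kd N) ((s N : ℚ) / t N) = 0 ∧
        (((∏ ℓ ∈ I, ℓ : ℕ) : ℤ)) ∣ s N - x0 * t N ∧
        (∀ ℓ ∈ I, ¬ (ℓ : ℤ) ∣ t N ∧ ¬ (ℓ : ℤ) ∣ kd N ∧
          ¬ (ℓ : ℤ) ∣ kd N * hom 5 (A 0) (s N) (t N) + kn N * hom 5 (A 1) (s N) (t N)) ∧
        ∀ ℓ ∈ I, ¬ (ℓ : ℤ) ∣ hom2 Dg (derivative g) (kn N) (kd N) (s N) (t N)) →
      (∀ N ∈ S, ∀ N' ∈ S, ∀ ℓ ∈ I, pc816_col (kn N) (kd N) ℓ = pc816_col (kn N') (kd N') ℓ) →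
      (S.card : ℝ) ≤ K := by
  obtain ⟨ε, hε, K, hK, h3⟩ := curve_class hF C Dg w m1 β hw hw' hm1 hm hβ hcur
  refine ⟨ε, hε, K, hK, ?_⟩
  intro X T l1 l2 d A B Z Λ e g I x0 S hX hXT hT1 hT2 hl1 hl12 hl0 hND hKD hg hgd hg2 hg4 hI
    hq1 hq2 p c z s t kn kd hS hcol
  by_cases hS0 : S = ∅
  · rw [hS0, Finset.card_empty, Nat.cast_zero]; exact hK.le
  obtain ⟨N0, hN0⟩ := Finset.nonempty_iff_ne_empty.2 hS0
  obtain ⟨q, hq⟩ : ∃ q : ℕ, q = ∏ ℓ ∈ I, ℓ := ⟨_, rfl⟩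
  rw [← hq] at hq1 hq2
  obtain ⟨-, -, f3, f4, f5, f6⟩ := hS N0 hN0
  have hcop : ∀ a : ℤ, (∀ ℓ ∈ I, ¬ (ℓ : ℤ) ∣ a) → IsCoprime a (q : ℤ) := fun a ha => by
    rw [hq]; exact pc816_cop I hI a ha
  have hdvd : ∀ a : ℤ, (∀ ℓ ∈ I, (ℓ : ℤ) ∣ a) → (q : ℤ) ∣ a := fun a ha => by
    rw [hq]; exact pc816_dvd I hI a ha
  have hdq : ∀ ℓ ∈ I, (ℓ : ℤ) ∣ (q : ℤ) := fun ℓ hℓ => by
    rw [hq]; exact_mod_cast Finset.dvd_prod_of_mem (fun ℓ : ℕ => ℓ) hℓ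
  have hkd0 : IsCoprime (kd N0) (q : ℤ) := hcop _ fun ℓ hℓ => (f5 ℓ hℓ).2.1
  obtain ⟨y0, hy0⟩ := exists_quot (ν := 1) (kn N0) hkd0
  rw [pow_one] at hy0
  -- the derivative at the class
  have hv : IsCoprime (ev2 (derivative g) x0 y0) (q : ℤ) := by
    refine hcop _ fun ℓ hℓ hd => f6 ℓ hℓ ?_
    have hd' := (ZMod.intCast_zmod_eq_zero_iff_dvd _ _).2 hd
    rw [← evr_int] at hd'
    have hd2 := evr_map (Int.castRingHom (ZMod ℓ)) (derivative g) x0 y0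
    simp only [eq_intCast] at hd2
    rw [hd'] at hd2
    have us : (s N0 : ZMod ℓ) = x0 * t N0 := by
      have := (ZMod.intCast_zmod_eq_zero_iff_dvd _ _).2 ((hdq ℓ hℓ).trans (hq ▸ f4))
      push_cast at this
      linear_combination this
    have uk : (kn N0 : ZMod ℓ) = (y0 : ZMod ℓ) * kd N0 := by
      have := (ZMod.intCast_zmod_eq_zero_iff_dvd _ _).2 ((hdq ℓ hℓ).trans hy0)
      push_cast at this
      linear_combination this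
    have h5 := pc816_mod (pc816_deriv hgd) us uk
    rw [← hd2, mul_zero] at h5
    exact (ZMod.intCast_zmod_eq_zero_iff_dvd _ _).1 h5
  obtain ⟨v, b, hvb⟩ := hv
  refine h3 X T l1 l2 d A B Z Λ e g q x0 y0 v S hX hXT hT1 hT2 hl1 hl12 hl0 hND hKD hg hgd hg2
    hg4 hq1 hq2 ⟨b, by linear_combination -hvb⟩ fun N hN => ?_
  obtain ⟨k1, k2, k3, k4, k5, k6⟩ := hS N hN
  refine ⟨p N, c N, z N, s N, t N, kn N, kd N, k1, k2, k3, hcop _ fun ℓ hℓ => (k5 ℓ hℓ).1,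
    hcop _ fun ℓ hℓ => (k5 ℓ hℓ).2.1, hq ▸ k4, ?_, hcop _ fun ℓ hℓ => (k5 ℓ hℓ).2.2⟩
  have e1 : (q : ℤ) ∣ kn N * kd N0 - kn N0 * kd N := hdvd _ fun ℓ hℓ =>
    pc816_same (hI ℓ hℓ) (k5 ℓ hℓ).2.1 (f5 ℓ hℓ).2.1 (hcol N hN N0 hN0 ℓ hℓ)
  have e2 : (q : ℤ) ∣ kd N0 * (kn N - y0 * kd N) := by
    have : kd N0 * (kn N - y0 * kd N) = (kn N * kd N0 - kn N0 * kd N) +
        (kn N0 - y0 * kd N0) * kd N := by ring
    rw [this]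
    exact dvd_add e1 (hy0.mul_right _)
  exact hkd0.symm.dvd_of_dvd_mul_left e2

theorem curve_count {G : ℤ[X]} {θ : Fin 4 → 𝓞 L} (hF : Fld G θ) (C Dg m C0 : ℕ) (w m1 β : ℝ)
    (hw : 0 < w) (hw4 : 1 / 4 ≤ w) (hw' : w ≤ 1 / 2) (hm1 : 0 ≤ m1) (hm : m1 < w) (hβ : 0 < β)
    (hcur : NumCurve w m1 β) (η : ℝ) (hη : 0 < η) :
    ∃ ε : ℝ, 0 < ε ∧ ∃ K : ℝ, 0 < K ∧ ∀ (H : ℕ) (X T : ℝ) (l1 l2 : Fin 4 → ℤ) (d : Fin 2 → ℕ)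
      (A B : Fin 2 → ℤ[X]) (Z : Fin 2 → Fin 4 → ℤ[X]) (Λ : ℤ[X]) (e : ℤ) (g : ℤ[X][X])
      (I : Finset ℕ) (x0 : ℤ) (S : Finset ℤ),
      K ≤ X → X ^ 3 ≤ T ^ 16 → X ^ (w - ε) ≤ T → T ≤ X ^ (w + ε) → X ≤ H → (H : ℝ) ≤ 2 * X →
      X ^ (2 * (m1 - ε)) ≤ dot l1 l1 → dot l1 l1 ≤ dot l2 l2 →
      (∀ a b : ℤ, a • l1 + b • l2 = 0 → a = 0 ∧ b = 0) → NonDeg θ l1 l2 →
      KData θ l1 l2 d A B Z Λ e →
      (∀ i k, |(A i).coeff k| ≤ (H : ℤ) ^ C0) → (∀ i k, |(B i).coeff k| ≤ (H : ℤ) ^ C0) →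
      (∀ k, |Λ.coeff k| ≤ (H : ℤ) ^ C0) →
      Irreducible (g.map (mapRingHom (Int.castRingHom ℚ))) → BiDeg Dg Dg g →
      (∀ i j, |(g.coeff i).coeff j| ≤ (H : ℤ) ^ C0) →
      (∀ ℓ ∈ I, ℓ.Prime) → I.card = m →
      X ^ (β - ε) ≤ ((∏ ℓ ∈ I, ℓ : ℕ) : ℝ) → ((∏ ℓ ∈ I, ℓ : ℕ) : ℝ) ≤ X ^ (β + ε) →
      (∀ N ∈ S, ∃ (p : ℕ) (c : ℤ) (z : Fin 4 → ℤ) (s t kn kd : ℤ),
        Pt θ C X T l1 l2 N p c z s t ∧ KP A B Z N c s t kn kd z ∧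
        |kn| ≤ (H : ℤ) ^ C0 ∧ |kd| ≤ (H : ℤ) ^ C0 ∧
        ev (g.map (mapRingHom (Int.castRingHom ℚ))) ((kn : ℚ) / kd) ((s : ℚ) / t) = 0 ∧
        (((∏ ℓ ∈ I, ℓ : ℕ) : ℤ)) ∣ s - x0 * t ∧
        (∀ ℓ ∈ I, ¬ (ℓ : ℤ) ∣ t ∧ ¬ (ℓ : ℤ) ∣ kd ∧
          ¬ (ℓ : ℤ) ∣ kd * hom 5 (A 0) s t + kn * hom 5 (A 1) s t) ∧
        (dnum Dg g kn kd s t = 0 ∨ ∀ ℓ ∈ I, ¬ (ℓ : ℤ) ∣ dnum Dg g kn kd s t)) →
      (S.card : ℝ) ≤ K * X ^ η := by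
  classical
  obtain ⟨K1, hK1, h1⟩ := N.gap_one' hF Dg (2 * C + 2 * C0) η hη
  obtain ⟨K2, hK2, h2⟩ := Vale.Agent.P018.Q.GapKappa.N.gap_kappa' hF Dg (2 * C + 2 * C0) η hη
  obtain ⟨ε3, hε3, K3, hK3, h3⟩ := pc816_class hF C Dg w m1 β hw hw' hm1 hm hβ hcur
  obtain ⟨Cb, hCb⟩ := pc816_sing Dg
  obtain ⟨M, hM⟩ : ∃ M : ℕ, M = ⌈K3⌉₊ := ⟨_, rfl⟩
  have hM' : K3 ≤ M := hM ▸ Nat.le_ceil K3
  refine ⟨min ε3 (min (1 / 4) (η / 8)), lt_min hε3 (lt_min (by norm_num) (by linarith only [hη])), K1 + K2 + Cb + (M * Dg ^ m : ℕ) + K3 + 16,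
    by (clear * - hK1 hK2 hK3; positivity), ?_⟩
  intro H X T l1 l2 d A B Z Λ e g I x0 S hX hXT hT1 hT2 hXH hHX hl1 hl12 hind hND hKD hAH hBH hΛH
    hg hgd hgH hI hIm hq1 hq2 hS
  have hCb0 : (0 : ℝ) ≤ Cb := Nat.cast_nonneg _
  have hM0 : (0 : ℝ) ≤ ((M * Dg ^ m : ℕ) : ℝ) := Nat.cast_nonneg _
  have hX16 : (16 : ℝ) ≤ X := by linarith only [hM0, hCb0, hX, hK3, hK2, hK1]
  have hX3 : K3 ≤ X := by linarith only [hM0, hCb0, hX, hK2, hK1, hm, hm1, hw']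
  have hX1 : (1 : ℝ) ≤ X := by linarith only [hM0, hCb0, hX, hK3, hK2, hK1, hm, hm1, hw']
  have hX0 : (0 : ℝ) < X := by linarith only [hM0, hCb0, hX, hK3, hK2, hK1, hm, hm1, hw']
  have hXη : (1 : ℝ) ≤ X ^ η := Real.one_le_rpow hX1 hη.le
  have hε1 : min ε3 (min (1 / 4) (η / 8)) ≤ ε3 := min_le_left _ _
  have hε2 : min ε3 (min (1 / 4) (η / 8)) ≤ 1 / 4 := (min_le_right _ _).trans (min_le_left _ _)
  have hεη : min ε3 (min (1 / 4) (η / 8)) ≤ η / 8 := (min_le_right _ _).trans (min_le_right _ _)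
  have hε0 : 0 < min ε3 (min (1 / 4) (η / 8)) := lt_min hε3 (lt_min (by norm_num) (by linarith only [hη]))
  have hT0 : 0 ≤ T := (Real.rpow_pos_of_pos hX0 _).le.trans hT1
  have hl0 : l1 ≠ 0 := by
    intro h0
    have := (hind 1 0 (by rw [h0]; simp)).1
    exact absurd this one_ne_zero
  -- the height
  obtain ⟨F, hFdef⟩ : ∃ F : ℕ, F = ⌊X⌋₊ := ⟨_, rfl⟩
  have hF1 : (F : ℝ) ≤ X := hFdef ▸ Nat.floor_le hX0.le
  have hF2 : X < F + 1 := hFdef ▸ Nat.lt_floor_add_one X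
  have hF16 : 16 ≤ F := by
    rw [hFdef]; exact Nat.le_floor (by exact_mod_cast hX16)
  have hF16' : (16 : ℝ) ≤ F := by exact_mod_cast hF16
  have hXF : X ≤ 2 * (F : ℝ) := by linarith only [hε2, hε0, hF2, hF16']
  have hHF : H ≤ F ^ 2 := pc816_sq hF16 hF2 hHX
  have hF3T : (F : ℝ) ^ 3 ≤ T ^ 16 := (pow_le_pow_left₀ (Nat.cast_nonneg _) hF1 3).trans hXT
  have hF4T : (F : ℝ) ≤ T ^ 4 * (F : ℝ) ^ (η / 2) :=
    size_F hw4 hε0 hε2 hεη (by linarith only [hF16']) hF1 hT1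
  have hpow : (H : ℤ) ^ C0 ≤ (F : ℤ) ^ (2 * C + 2 * C0) := by
    have h4 : H ^ C0 ≤ F ^ (2 * C + 2 * C0) := by
      calc H ^ C0 ≤ (F ^ 2) ^ C0 := Nat.pow_le_pow_left hHF _
        _ = F ^ (2 * C0) := by rw [← pow_mul]
        _ ≤ F ^ (2 * C + 2 * C0) := Nat.pow_le_pow_right (by omega) (by omega)
    exact_mod_cast h4
  have hTF : T ≤ F := hT2.trans ((pc816_num hX16 (by linarith only [hw', hε2])).trans (by linarith only [hF16', hF2, hε0, hε2]))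
  have hFη : (F : ℝ) ^ η ≤ X ^ η := Real.rpow_le_rpow (Nat.cast_nonneg _) hF1 hη.le
  have hfin : ∀ K' : ℝ, 0 ≤ K' → K' ≤ K1 + K2 + Cb + (M * Dg ^ m : ℕ) + K3 + 16 →
      K' * X ^ η ≤ (K1 + K2 + Cb + (M * Dg ^ m : ℕ) + K3 + 16) * X ^ η := fun K' _ h =>
    mul_le_mul_of_nonneg_right h (by (clear * - hX16; positivity))
  by_cases hg1 : g.natDegree ≤ 1
  · refine (h1 F F T l1 l2 d A B Z Λ e g S (by omega) (by linarith only [hF16', hε0, hε2]) hF3T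
      hF4T hTF le_rfl hind hKD (fun i k => (hAH i k).trans hpow)
      (fun i k => (hBH i k).trans hpow) (fun k => (hΛH k).trans hpow) hg hgd hg1
      (fun i j => (hgH i j).trans hpow) fun N hN => ?_).trans
      ((mul_le_mul_of_nonneg_left hFη hK1.le).trans (hfin K1 hK1.le (by linarith only [hε0, hε2, hM0, hCb0, hK3, hK2])))
    obtain ⟨p, c, z, s, t, kn, kd, k1, k2, k3, k4, k5, -⟩ := hS N hN
    exact ⟨p, c, z, s, t, kn, kd, pc816_pt k1 hT0 hXF (Nat.cast_nonneg _) (by omega), k2, k5⟩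
  by_cases hg2 : d 0 = 4 ∧ ∀ i, (g.coeff i).natDegree ≤ 1
  · refine (h2 F F T l1 l2 d A B Z Λ e g S (by omega) (by linarith only [hF16', hε0, hε2]) hF3T
      hF4T hTF le_rfl hind hKD hg2.1 (fun i k => (hAH i k).trans hpow)
      (fun i k => (hBH i k).trans hpow) (fun k => (hΛH k).trans hpow) hg ⟨hgd.1, hg2.2⟩
      (by omega) (fun i j => (hgH i j).trans hpow) fun N hN => ?_).trans
      ((mul_le_mul_of_nonneg_left hFη hK2.le).trans (hfin K2 hK2.le (by linarith only [hK1, hK3, hCb0, hM0, hε2, hε0])))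
    obtain ⟨p, c, z, s, t, kn, kd, k1, k2, k3, k4, k5, -⟩ := hS N hN
    exact ⟨p, c, z, s, t, kn, kd, pc816_pt k1 hT0 hXF (Nat.cast_nonneg _) (by omega), k2,
      k3.trans hpow, k4.trans hpow, k5⟩
  have hg4 : d 0 = 4 → ∃ i, 2 ≤ (g.coeff i).natDegree := by
    intro hd
    by_contra hcon
    push Not at hcon
    exact hg2 ⟨hd, fun i => by have := hcon i; omega⟩
  choose! p c z s t kn kd hpt using hS
  have hgn : 2 ≤ g.natDegree := by omega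
  -- the singular points
  have hSa : (S.filter fun N => dnum Dg g (kn N) (kd N) (s N) (t N) = 0).card ≤ Cb := by
    refine hCb A B Z g _ c s t kn kd z hg hgd hgn fun N hN => ?_
    obtain ⟨hN1, hN2⟩ := Finset.mem_filter.1 hN
    obtain ⟨k1, k2, k3, k4, k5, -⟩ := hpt N hN1
    exact ⟨k2, k5, by rw [← pc816_dnum hgd]; exact hN2⟩
  -- the other points
  obtain ⟨Sb, hSb⟩ : ∃ Sb, Sb = S.filter fun N => ¬ dnum Dg g (kn N) (kd N) (s N) (t N) = 0 :=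
    ⟨_, rfl⟩
  have hb : ∀ N ∈ Sb, N ∈ S ∧ ∀ ℓ ∈ I,
      ¬ (ℓ : ℤ) ∣ hom2 Dg (derivative g) (kn N) (kd N) (s N) (t N) := by
    intro N hN
    rw [hSb] at hN
    obtain ⟨hN1, hN2⟩ := Finset.mem_filter.1 hN
    refine ⟨hN1, fun ℓ hℓ => ?_⟩
    rw [← pc816_dnum hgd]
    exact (hpt N hN1).2.2.2.2.2.2.2.resolve_left hN2 ℓ hℓ
  have hR : ∀ ℓ ∈ I, ∃ R : Finset ℕ, R.card ≤ Dg ∧ ∀ N ∈ Sb, pc816_col (kn N) (kd N) ℓ ∈ R := by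
    intro ℓ hℓ
    refine pc816_roots hgd (hI ℓ hℓ) x0 Sb s t kn kd fun N hN => ?_
    obtain ⟨hN1, hN2⟩ := hb N hN
    obtain ⟨-, -, -, -, k5, k6, k7, -⟩ := hpt N hN1
    refine ⟨k5, ?_, (k7 ℓ hℓ).1, (k7 ℓ hℓ).2.1, hN2 ℓ hℓ⟩
    refine dvd_trans ?_ k6
    exact_mod_cast Finset.dvd_prod_of_mem (fun ℓ : ℕ => ℓ) hℓ
  choose! R hR1 hR2 using hR
  have hSbc : Sb.card ≤ M * (I.pi R).card := by
    refine Finset.card_le_mul_card_image_of_maps_to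
      (f := fun N => fun ℓ (_ : ℓ ∈ I) => pc816_col (kn N) (kd N) ℓ) (t := I.pi R) ?_ M ?_
    · intro N hN
      rw [Finset.mem_pi]
      exact fun ℓ hℓ => hR2 ℓ hℓ N hN
    · intro b _
      have h4 := h3 X T l1 l2 d A B Z Λ e g I x0
        (Sb.filter fun N => (fun ℓ (_ : ℓ ∈ I) => pc816_col (kn N) (kd N) ℓ) = b) hX3 hXT
        ((Real.rpow_le_rpow_of_exponent_le hX1 (by linarith only [hε1])).trans hT1)
        (hT2.trans (Real.rpow_le_rpow_of_exponent_le hX1 (by linarith only [hε1])))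
        ((Real.rpow_le_rpow_of_exponent_le hX1 (by linarith only [hε1])).trans hl1) hl12 hl0 hND hKD hg hgd
        hgn hg4 hI ((Real.rpow_le_rpow_of_exponent_le hX1 (by linarith only [hε1])).trans hq1)
        (hq2.trans (Real.rpow_le_rpow_of_exponent_le hX1 (by linarith only [hε1]))) p c z s t kn kd ?_ ?_
      · exact_mod_cast h4.trans hM'
      · intro N hN
        obtain ⟨hN1, hN2⟩ := hb N (Finset.mem_filter.1 hN).1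
        obtain ⟨k1, k2, k3, k4, k5, k6, k7, -⟩ := hpt N hN1
        exact ⟨k1, k2, k5, k6, k7, hN2⟩
      · intro N hN N' hN' ℓ hℓ
        have q1 := (Finset.mem_filter.1 hN).2
        have q2 := (Finset.mem_filter.1 hN').2
        have q3 := congrFun (congrFun (q1.trans q2.symm) ℓ) hℓ
        exact q3
  have hpi : (I.pi R).card ≤ Dg ^ m := by
    rw [Finset.card_pi, ← hIm]
    exact Finset.prod_le_pow_card _ _ _ fun ℓ hℓ => hR1 ℓ hℓ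
  have htot : S.card ≤ Cb + M * Dg ^ m := by
    have h4 := Finset.card_filter_add_card_filter_not (s := S)
      (fun N => dnum Dg g (kn N) (kd N) (s N) (t N) = 0)
    rw [← hSb] at h4
    have h5 : M * (I.pi R).card ≤ M * Dg ^ m := Nat.mul_le_mul_left _ hpi
    omega
  have htot' : (S.card : ℝ) ≤ Cb + ((M * Dg ^ m : ℕ) : ℝ) := by exact_mod_cast htot
  calc (S.card : ℝ) ≤ (Cb + ((M * Dg ^ m : ℕ) : ℝ)) * 1 := by rw [mul_one]; exact htot'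
    _ ≤ (Cb + ((M * Dg ^ m : ℕ) : ℝ)) * X ^ η :=
        mul_le_mul_of_nonneg_left hXη (by (clear * -; positivity))
    _ ≤ _ := hfin _ (by (clear * -; positivity)) (by linarith only [hK1, hK2, hK3, hε2, hε0])

def ClStmt (θ : Fin 4 → 𝓞 L) (C C0 : ℕ) (w m1 m2 β ε : ℝ) (Dg C1 : ℕ) (K : ℝ) : Prop :=
    ∀ (H : ℕ) (X T : ℝ) (l1 l2 : Fin 4 → ℤ)
      (d : Fin 2 → ℕ) (A B : Fin 2 → ℤ[X]) (Z : Fin 2 → Fin 4 → ℤ[X]) (Λ : ℤ[X]) (e : ℤ)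
      (q : ℕ) (σ0 : ℤ), K ≤ X → X ≤ H → X ^ 3 ≤ T ^ 16 → X ^ (w - ε) ≤ T → T ≤ X ^ (w + ε) →
      X ^ (2 * (m1 - ε)) ≤ dot l1 l1 → (dot l1 l1 : ℝ) ≤ X ^ (2 * (m1 + ε)) →
      X ^ (2 * (m2 - ε)) ≤ dot l2 l2 → (dot l2 l2 : ℝ) ≤ X ^ (2 * (m2 + ε)) →
      KData θ l1 l2 d A B Z Λ e →
      (∀ i k, |(A i).coeff k| ≤ (H : ℤ) ^ C0) → (∀ i k, |(B i).coeff k| ≤ (H : ℤ) ^ C0) →
      X ^ (β - ε) ≤ q → (q : ℝ) ≤ X ^ (β + ε) → (∀ p : ℕ, p.Prime → T ^ 4 ≤ p → ¬ p ∣ q) →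
      ∃ Cv : Finset (ℤ[X][X]), Cv.card ≤ C1 ∧
        (∀ g ∈ Cv, Irreducible (g.map (mapRingHom (Int.castRingHom ℚ))) ∧ BiDeg Dg Dg g ∧
          (∀ i j, |(g.coeff i).coeff j| ≤ (H : ℤ) ^ C1)) ∧
        ∀ (N : ℤ) (p : ℕ) (c : ℤ) (z : Fin 4 → ℤ) (s t kn kd : ℤ),
          Pt θ C X T l1 l2 N p c z s t → KP A B Z N c s t kn kd z →
          IsCoprime t (q : ℤ) → (q : ℤ) ∣ s - σ0 * t →
          ∃ g ∈ Cv, ev (g.map (mapRingHom (Int.castRingHom ℚ))) ((kn : ℚ) / kd) ((s : ℚ) / t) = 0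

def CcStmt (θ : Fin 4 → 𝓞 L) (C Dg m C0 : ℕ) (w m1 β η ε K : ℝ) : Prop :=
    ∀ (H : ℕ) (X T : ℝ) (l1 l2 : Fin 4 → ℤ) (d : Fin 2 → ℕ)
      (A B : Fin 2 → ℤ[X]) (Z : Fin 2 → Fin 4 → ℤ[X]) (Λ : ℤ[X]) (e : ℤ) (g : ℤ[X][X])
      (I : Finset ℕ) (x0 : ℤ) (S : Finset ℤ),
      K ≤ X → X ^ 3 ≤ T ^ 16 → X ^ (w - ε) ≤ T → T ≤ X ^ (w + ε) → X ≤ H → (H : ℝ) ≤ 2 * X →
      X ^ (2 * (m1 - ε)) ≤ dot l1 l1 → dot l1 l1 ≤ dot l2 l2 →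
      (∀ a b : ℤ, a • l1 + b • l2 = 0 → a = 0 ∧ b = 0) → NonDeg θ l1 l2 →
      KData θ l1 l2 d A B Z Λ e →
      (∀ i k, |(A i).coeff k| ≤ (H : ℤ) ^ C0) → (∀ i k, |(B i).coeff k| ≤ (H : ℤ) ^ C0) →
      (∀ k, |Λ.coeff k| ≤ (H : ℤ) ^ C0) →
      Irreducible (g.map (mapRingHom (Int.castRingHom ℚ))) → BiDeg Dg Dg g →
      (∀ i j, |(g.coeff i).coeff j| ≤ (H : ℤ) ^ C0) →
      (∀ ℓ ∈ I, ℓ.Prime) → I.card = m →
      X ^ (β - ε) ≤ ((∏ ℓ ∈ I, ℓ : ℕ) : ℝ) → ((∏ ℓ ∈ I, ℓ : ℕ) : ℝ) ≤ X ^ (β + ε) →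
      (∀ N ∈ S, ∃ (p : ℕ) (c : ℤ) (z : Fin 4 → ℤ) (s t kn kd : ℤ),
        Pt θ C X T l1 l2 N p c z s t ∧ KP A B Z N c s t kn kd z ∧
        |kn| ≤ (H : ℤ) ^ C0 ∧ |kd| ≤ (H : ℤ) ^ C0 ∧
        ev (g.map (mapRingHom (Int.castRingHom ℚ))) ((kn : ℚ) / kd) ((s : ℚ) / t) = 0 ∧
        (((∏ ℓ ∈ I, ℓ : ℕ) : ℤ)) ∣ s - x0 * t ∧
        (∀ ℓ ∈ I, ¬ (ℓ : ℤ) ∣ t ∧ ¬ (ℓ : ℤ) ∣ kd ∧
          ¬ (ℓ : ℤ) ∣ kd * hom 5 (A 0) s t + kn * hom 5 (A 1) s t) ∧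
        (dnum Dg g kn kd s t = 0 ∨ ∀ ℓ ∈ I, ¬ (ℓ : ℤ) ∣ dnum Dg g kn kd s t)) →
      (S.card : ℝ) ≤ K * X ^ η

theorem count_b {θ : Fin 4 → 𝓞 L} {C C0 C1 C2 Dg m r Bz : ℕ} {w m1 m2 β ε1 ε2 η K1 K2 : ℝ}
    (hcl : ClStmt θ C C0 w m1 m2 β ε1 Dg C1 K1) (hcc : CcStmt θ C Dg m C2 w m1 β η ε2 K2)
    (hC0 : C0 ≤ C2) (hC1 : C1 ≤ C2)
    (hbez : ∀ g Ψ : ℚ[X][X], Irreducible g → ¬ g ∣ Ψ → BiDeg Dg Dg g → BiDeg Dg Dg Ψ →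
      ∀ S : Finset (ℚ × ℚ), (∀ z ∈ S, ev g z.1 z.2 = 0 ∧ ev Ψ z.1 z.2 = 0) → S.card ≤ Bz)
    {H b : ℕ} {X T : ℝ} {l1 l2 : Fin 4 → ℤ} {d : Fin 2 → ℕ} {A B : Fin 2 → ℤ[X]}
    {Z : Fin 2 → Fin 4 → ℤ[X]} {Λ : ℤ[X]} {e : ℤ}
    (hK1 : K1 ≤ X) (hK2 : K2 ≤ X) (hXH : X ≤ H) (hHX : (H : ℝ) ≤ 2 * X) (hXT : X ^ 3 ≤ T ^ 16) (hX1 : 1 ≤ X)
    (hT0 : 0 ≤ T) (hTH : T ≤ H) (hH2 : 2 ≤ H) (hCH : C ≤ H) (hDH : Dg + 1 ≤ H)
    (hT1 : X ^ (w - ε1) ≤ T) (hT1' : T ≤ X ^ (w + ε1))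
    (hT2 : X ^ (w - ε2) ≤ T) (hT2' : T ≤ X ^ (w + ε2))
    (ha1 : X ^ (2 * (m1 - ε1)) ≤ dot l1 l1) (ha2 : (dot l1 l1 : ℝ) ≤ X ^ (2 * (m1 + ε1)))
    (ha3 : X ^ (2 * (m2 - ε1)) ≤ dot l2 l2) (ha4 : (dot l2 l2 : ℝ) ≤ X ^ (2 * (m2 + ε1)))
    (ha5 : X ^ (2 * (m1 - ε2)) ≤ dot l1 l1) (hR : Red l1 l2) (hND : NonDeg θ l1 l2)
    (hK : KData θ l1 l2 d A B Z Λ e)
    (hA : ∀ i k, |(A i).coeff k| ≤ (H : ℤ) ^ C0) (hB : ∀ i k, |(B i).coeff k| ≤ (H : ℤ) ^ C0)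
    (hΛ : ∀ k, |Λ.coeff k| ≤ (H : ℤ) ^ C0)
    (hb1 : 1 ≤ b) (hlo1 : X ^ (β - ε1) ≤ (b : ℝ) ^ m)
    (hhi1 : ((2 ^ (m + 1 + 2 * r) * b : ℕ) : ℝ) ^ m ≤ X ^ (β + ε1))
    (hlo2 : X ^ (β - ε2) ≤ (b : ℝ) ^ m)
    (hhi2 : ((2 ^ (m + 1 + 2 * r) * b : ℕ) : ℝ) ^ m ≤ X ^ (β + ε2))
    (hbX : ((2 ^ (m + 1 + 2 * r) * b : ℕ) : ℝ) < X ^ (1 / 2 : ℝ))
    (hbad1 : H ^ (3 * C2 + 16) < b ^ (r + 1))
    (hbad2 : H ^ (C2 + 2 * Dg + C2 * Dg + 3) < b ^ (r + 1))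
    (S : Finset ℤ) (hS : ∀ N ∈ S, ∃ (p : ℕ) (c : ℤ) (z : Fin 4 → ℤ) (s t kn kd : ℤ),
      Pt θ C X T l1 l2 N p c z s t ∧ KP A B Z N c s t kn kd z ∧
        |kn| ≤ (H : ℤ) ^ C2 ∧ |kd| ≤ (H : ℤ) ^ C2) :
    S.card ≤ 4 ^ (m + 1 + 2 * r) * ((2 ^ (m + 1 + 2 * r) * b) ^ (m + 1) * (C1 * C1 * Bz)) +
      2 ^ (m + 1 + 2 * r) * ((2 ^ (m + 1 + 2 * r) * b) ^ m * (C1 * ⌊K2 * X ^ η⌋₊)) := by
  classical
  obtain ⟨M, hM⟩ : ∃ M, M = m + 1 + 2 * r := ⟨_, rfl⟩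
  rw [← hM] at hhi1 hhi2 hbX ⊢
  obtain ⟨ℓ, hinj, hℓ⟩ := exists_primes_size M b hb1
  obtain ⟨nf, hnf⟩ := factor_normal
  have hH1 : (1 : ℤ) ≤ H := by exact_mod_cast (by omega : 1 ≤ H)
  have hℓp : ∀ i, (ℓ i).Prime := fun i => (hℓ i).1
  have hA2 : ∀ i k, |(A i).coeff k| ≤ (H : ℤ) ^ C2 := fun i k =>
    (hA i k).trans (pow_le_pow_right₀ hH1 hC0)
  have hB2 : ∀ i k, |(B i).coeff k| ≤ (H : ℤ) ^ C2 := fun i k =>
    (hB i k).trans (pow_le_pow_right₀ hH1 hC0)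
  have hΛ2 : ∀ k, |Λ.coeff k| ≤ (H : ℤ) ^ C2 := fun k =>
    (hΛ k).trans (pow_le_pow_right₀ hH1 hC0)
  have hdA : ∀ i, (A i).natDegree ≤ 5 := by
    have hd5 : ∀ i, d i ≤ 5 := by
      rw [Fin.forall_fin_two]
      rcases hK.dd with ⟨h2, h3⟩ | ⟨h2, h3⟩ <;> rw [h2, h3] <;> decide
    exact fun i => (hK.dA i).trans (hd5 i)
  have hl2 : l2 ≠ 0 := by
    rintro rfl
    have := hR.2.2.2 0 1 (by simp)
    omega
  have hdl2 : (1 : ℝ) ≤ dot l2 l2 := by exact_mod_cast pl_dot_pos hl2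
  have hdl1 : (1 : ℝ) ≤ dot l1 l1 := by exact_mod_cast pl_dot_pos hR.1
  -- sizes of `q_I`
  have hqlo : ∀ I : Finset (Fin M), I.card = m → (b : ℝ) ^ m ≤ ((∏ i ∈ I, ℓ i : ℕ) : ℝ) := by
    intro I hI
    have h1 : b ^ m ≤ ∏ i ∈ I, ℓ i := by
      rw [← hI, ← Finset.prod_const]
      exact Finset.prod_le_prod' fun i _ => (hℓ i).2.1.le
    exact_mod_cast h1
  have hqhi : ∀ I : Finset (Fin M), I.card = m →
      ((∏ i ∈ I, ℓ i : ℕ) : ℝ) ≤ ((2 ^ M * b : ℕ) : ℝ) ^ m := by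
    intro I hI
    have h1 : ∏ i ∈ I, ℓ i ≤ (2 ^ M * b) ^ m := by
      rw [← hI, ← Finset.prod_const]
      exact Finset.prod_le_prod' fun i _ => (hℓ i).2.2
    exact_mod_cast h1
  have hqp : ∀ (I : Finset (Fin M)) (p : ℕ), p.Prime → T ^ 4 ≤ p → ¬ p ∣ ∏ i ∈ I, ℓ i := by
    intro I p hp hTp hdvd
    obtain ⟨i, _, hi⟩ := (Nat.Prime.prime hp).exists_mem_finset_dvd hdvd
    have h1 : p = ℓ i := (Nat.prime_dvd_prime_iff_eq hp (hℓp i)).1 hi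
    have h2 : (p : ℝ) ≤ ((2 ^ M * b : ℕ) : ℝ) := by
      rw [h1]; exact_mod_cast (hℓ i).2.2
    have h3 : ((2 ^ M * b : ℕ) : ℝ) ^ 2 < X := by
      have h4 : ((2 ^ M * b : ℕ) : ℝ) ^ 2 < (X ^ (1 / 2 : ℝ)) ^ 2 :=
        pow_lt_pow_left₀ hbX (Nat.cast_nonneg _) (by norm_num)
      have h5 : (X ^ (1 / 2 : ℝ)) ^ 2 = X := by
        rw [← Real.rpow_natCast, ← Real.rpow_mul (by linarith only [hX1])]
        norm_num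
      rw [h5] at h4
      exact h4
    have h6 := small_lt hX1 hXT hTp (Nat.cast_nonneg _) h3
    linarith only [h2, h6]
  -- the curves
  have hCv : ∀ (I : Finset (Fin M)) (c0 : ℤ), ∃ Cv : Finset (ℤ[X][X]), Cv.card ≤ C1 ∧
      (I.card = m → (∀ g ∈ Cv, Irreducible (g.map (mapRingHom (Int.castRingHom ℚ))) ∧
          BiDeg Dg Dg g ∧ (∀ i j, |(g.coeff i).coeff j| ≤ (H : ℤ) ^ C1)) ∧
        ∀ (N : ℤ) (p : ℕ) (c : ℤ) (z : Fin 4 → ℤ) (s t kn kd : ℤ),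
          Pt θ C X T l1 l2 N p c z s t → KP A B Z N c s t kn kd z →
          IsCoprime t ((∏ i ∈ I, ℓ i : ℕ) : ℤ) → ((∏ i ∈ I, ℓ i : ℕ) : ℤ) ∣ s - c0 * t →
          ∃ g ∈ Cv, ev (g.map (mapRingHom (Int.castRingHom ℚ))) ((kn : ℚ) / kd) ((s : ℚ) / t)
            = 0) := by
    intro I c0
    by_cases hI : I.card = m
    · obtain ⟨Cv, h1, h2, h3⟩ := hcl H X T l1 l2 d A B Z Λ e (∏ i ∈ I, ℓ i) c0 hK1 hXH hXT hT1
        hT1' ha1 ha2 ha3 ha4 hK hA hB (hlo1.trans (hqlo I hI)) ((hqhi I hI).trans hhi1) (hqp I)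
      exact ⟨Cv, h1, fun _ => ⟨h2, h3⟩⟩
    · exact ⟨∅, by simp, fun h => absurd h hI⟩
  choose CvZ hCv1 hCv2 using hCv
  choose! p c z s t kn kd hPt hKP hkn hkd using hS
  have hs2 : ∀ N ∈ S, |s N| ≤ (H : ℤ) ^ 2 := fun N hN =>
    pl_abs_le hdl1 (hPt N hN).hs hT0 hTH hCH (by omega)
  have ht2 : ∀ N ∈ S, |t N| ≤ (H : ℤ) ^ 2 := fun N hN =>
    pl_abs_le hdl2 (hPt N hN).ht hT0 hTH hCH (by omega)
  obtain ⟨n1, hn1⟩ : ∃ n1 : ℤ → ℤ, ∀ N, n1 N = t N * kd N *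
    (kd N * hom 5 (A 0) (s N) (t N) + kn N * hom 5 (A 1) (s N) (t N)) := ⟨_, fun _ => rfl⟩
  have hn10 : ∀ N ∈ S, n1 N ≠ 0 := fun N hN => by
    rw [hn1]
    exact mul_ne_zero (mul_ne_zero (hKP N hN).t0 (hKP N hN).k0) (pl_den_ne hdA (hKP N hN))
  have hn1l : ∀ N ∈ S, |n1 N| ≤ (H : ℤ) ^ (3 * C2 + 16) := fun N hN => by
    rw [hn1]
    exact pl_bad_le hH2 hA2 (hs2 N hN) (ht2 N hN) (hkn N hN) (hkd N hN)
  obtain ⟨rep, hrep⟩ : ∃ rep : ℤ[X][X] → ℤ[X][X], ∀ γ g, IsCv H Dg C1 nf γ g →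
      IsCv H Dg C1 nf γ (rep γ) := by
    refine ⟨fun γ => if h : ∃ g, IsCv H Dg C1 nf γ g then h.choose else 0, fun γ g hg => ?_⟩
    have h : ∃ g, IsCv H Dg C1 nf γ g := ⟨g, hg⟩
    simp only [dif_pos h]
    exact h.choose_spec
  obtain ⟨inc, hinc⟩ : ∃ inc : ℤ → ℤ[X][X] → Prop, ∀ N γ, inc N γ ↔ ∃ g, IsCv H Dg C1 nf γ g ∧
    ev (g.map (mapRingHom (Int.castRingHom ℚ))) ((kn N : ℚ) / kd N) ((s N : ℚ) / t N) = 0 :=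
    ⟨_, fun _ _ => Iff.rfl⟩
  have hrepev : ∀ N γ, inc N γ → IsCv H Dg C1 nf γ (rep γ) ∧
      ev ((rep γ).map (mapRingHom (Int.castRingHom ℚ))) ((kn N : ℚ) / kd N) ((s N : ℚ) / t N)
        = 0 := by
    intro N γ h
    obtain ⟨g, hg, hev⟩ := (hinc N γ).1 h
    have hr := hrep γ g hg
    refine ⟨hr, ?_⟩
    have has := (hnf g (rep γ) hg.2.1 hr.2.1).2 (hg.1.trans hr.1.symm)
    exact ht_ev_of_dvd has.dvd hev
  obtain ⟨dn, hdn⟩ : ∃ dn : ℤ → ℤ[X][X] → ℤ, ∀ N γ, dn N γ =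
    dnum Dg (rep γ) (kn N) (kd N) (s N) (t N) := ⟨_, fun _ _ => rfl⟩
  obtain ⟨bad, hbad⟩ : ∃ bad : ℤ → ℤ[X][X] → Finset (Fin M), ∀ N γ, bad N γ =
    if dn N γ = 0 then ∅ else Finset.univ.filter fun i => (ℓ i : ℤ) ∣ dn N γ :=
    ⟨_, fun _ _ => rfl⟩
  obtain ⟨good, hgood⟩ : ∃ good : ℤ → Finset (Fin M), ∀ N, good N =
    Finset.univ.filter fun i => ¬ (ℓ i : ℤ) ∣ n1 N := ⟨_, fun _ => rfl⟩
  have hgt : ∀ N, ∀ I ⊆ good N, ∀ i ∈ I, ¬ (ℓ i : ℤ) ∣ t N := by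
    intro N I hI i hi hd
    have h1 := hI hi
    rw [hgood, Finset.mem_filter, hn1] at h1
    exact h1.2 ((hd.mul_right _).mul_right _)
  refine swap_count M m r C1 Bz ((2 ^ M * b) ^ (m + 1)) ((2 ^ M * b) ^ m) ⌊K2 * X ^ η⌋₊ S good
    (fun I N => cls ℓ I (s N) (t N)) inc (fun I c0 => (CvZ I c0).image nf) bad
    ?_ ?_ ?_ ?_ ?_ ?_ ?_ ?_ ?_
  · -- good primes
    intro N hN
    have h1 := few_bad_primes M (3 * C2 + 16) r H b (n1 N) ℓ hinj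
      (fun i => ⟨(hℓ i).1, (hℓ i).2.1⟩) hH2 (hn10 N hN) (hn1l N hN) hbad1
    have h2 : (good N).card + (Finset.univ.filter fun i => (ℓ i : ℤ) ∣ n1 N).card = M := by
      rw [hgood, add_comm, Finset.card_filter_add_card_filter_not]
      simp
    omega
  · intro N hN γ hγ
    obtain ⟨⟨-, -, -, h4⟩, -⟩ := hrepev N γ hγ
    rw [hbad]
    split_ifs with h0
    · simp
    · refine few_bad_primes M (C2 + 2 * Dg + C2 * Dg + 3) r H b (dn N γ) ℓ hinj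
        (fun i => ⟨(hℓ i).1, (hℓ i).2.1⟩) hH2 h0 ?_ hbad2
      rw [hdn]
      exact pl_dnum_le hH2 hDH (fun i j => (h4 i j).trans (pow_le_pow_right₀ hH1 hC1))
        (hs2 N hN) (ht2 N hN) (hkn N hN) (hkd N hN)
  · intro I J P P' hIJ h
    exact cls_mono ℓ hIJ h
  · intro J hJ
    have := card_image_cls hℓp (2 ^ M * b) (fun i => (hℓ i).2.2) J S s t
    rwa [hJ] at this
  · intro J hJ
    have := card_image_cls hℓp (2 ^ M * b) (fun i => (hℓ i).2.2) J S s t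
    rwa [hJ] at this
  · intro I c0
    exact Finset.card_image_le.trans (hCv1 I c0)
  · intro N hN I hI hIm
    obtain ⟨h1, h2⟩ := hCv2 I (cls ℓ I (s N) (t N)) hIm
    obtain ⟨g, hg, hev⟩ := h2 N (p N) (c N) (z N) (s N) (t N) (kn N) (kd N) (hPt N hN) (hKP N hN)
      (cls_coprime hℓp (hgt N I hI)) (cls_dvd hinj hℓp (hgt N I hI))
    obtain ⟨h3, h4, h5⟩ := h1 g hg
    exact ⟨nf g, Finset.mem_image_of_mem _ hg, (hinc _ _).2 ⟨g, ⟨rfl, h3, h4, h5⟩, hev⟩⟩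
  · intro γ γ' hne S' hS' hS''
    rcases S'.eq_empty_or_nonempty with rfl | ⟨N0, hN0⟩
    · simp
    obtain ⟨hr1, -⟩ := hrepev N0 γ (hS'' N0 hN0).1
    obtain ⟨hr2, -⟩ := hrepev N0 γ' (hS'' N0 hN0).2
    have hnd : ¬ (rep γ).map (mapRingHom (Int.castRingHom ℚ)) ∣
        (rep γ').map (mapRingHom (Int.castRingHom ℚ)) := by
      intro hd
      have h1 := hr1.2.1.associated_of_dvd hr2.2.1 hd
      have h2 := (hnf _ _ hr1.2.1 hr2.2.1).1 h1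
      rw [hr1.1, hr2.1] at h2
      exact hne h2
    have hbd : ∀ g : ℤ[X][X], BiDeg Dg Dg g →
        BiDeg Dg Dg (g.map (mapRingHom (Int.castRingHom ℚ))) := by
      intro g hg
      refine ⟨natDegree_map_le.trans hg.1, fun i => ?_⟩
      rw [coeff_map]
      exact natDegree_map_le.trans (hg.2 i)
    have h3 := hbez _ _ hr1.2.1 hnd (hbd _ hr1.2.2.1) (hbd _ hr2.2.2.1)
      (S'.image fun N => ((kn N : ℚ) / kd N, (s N : ℚ) / t N)) ?_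
    · rwa [Finset.card_image_of_injOn] at h3
      intro N hN N' hN' heq
      have h4 := Prod.ext_iff.1 heq
      exact kp_inj (hKP N (hS' hN)) (hKP N' (hS' hN')) h4.1 h4.2
    · intro y hy
      obtain ⟨N, hN, rfl⟩ := Finset.mem_image.1 hy
      exact ⟨(hrepev N γ (hS'' N hN).1).2, (hrepev N γ' (hS'' N hN).2).2⟩
  · intro I hI c0 γ S' hS' hS''
    rcases S'.eq_empty_or_nonempty with rfl | ⟨N0, hN0⟩
    · simp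
    obtain ⟨hr1, -⟩ := hrepev N0 γ (hS'' N0 hN0).1
    have hpr : ∏ x ∈ I.image ℓ, x = ∏ i ∈ I, ℓ i := Finset.prod_image fun x _ y _ h => hinj h
    refine Nat.le_floor ?_
    refine hcc H X T l1 l2 d A B Z Λ e (rep γ) (I.image ℓ) c0 S' hK2 hXT hT2 hT2' hXH hHX ha5
      hR.2.1 hR.2.2.2 hND hK hA2 hB2 hΛ2 hr1.2.1 hr1.2.2.1
      (fun i j => (hr1.2.2.2 i j).trans (pow_le_pow_right₀ hH1 hC1)) ?_ ?_ ?_ ?_ ?_
    · intro x hx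
      obtain ⟨i, _, rfl⟩ := Finset.mem_image.1 hx
      exact hℓp i
    · rw [Finset.card_image_of_injective _ hinj, hI]
    · rw [hpr]
      exact hlo2.trans (hqlo I hI)
    · rw [hpr]
      exact (hqhi I hI).trans hhi2
    · intro N hN
      obtain ⟨h1, h2, h3, h4⟩ := hS'' N hN
      have hNS := hS' hN
      refine ⟨p N, c N, z N, s N, t N, kn N, kd N, hPt N hNS, hKP N hNS, hkn N hNS, hkd N hNS,
        (hrepev N γ h1).2, ?_, ?_, ?_⟩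
      · rw [hpr, ← h4]
        exact cls_dvd hinj hℓp (hgt N I h2)
      · intro x hx
        obtain ⟨i, hi, rfl⟩ := Finset.mem_image.1 hx
        have h5 := h2 hi
        rw [hgood, Finset.mem_filter, hn1] at h5
        exact ⟨fun h => h5.2 ((h.mul_right _).mul_right _),
          fun h => h5.2 ((h.mul_left _).mul_right _), fun h => h5.2 (h.mul_left _)⟩
      · by_cases h0 : dn N γ = 0
        · left
          rw [← hdn]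
          exact h0
        · right
          intro x hx
          obtain ⟨i, hi, rfl⟩ := Finset.mem_image.1 hx
          rw [← hdn]
          intro h6
          have h7 : i ∈ bad N γ := by
            rw [hbad, if_neg h0, Finset.mem_filter]
            exact ⟨Finset.mem_univ _, h6⟩
          exact Finset.disjoint_left.1 h3 hi h7

structure PlNum (β η η0 ε w m1 Kg K1n K2 : ℝ) (m r C1 Bz Cb : ℕ) (X : ℝ) : Prop where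
  f1 : (2 : ℝ) ^ m * X ^ (β - ε) < X ^ β
  f2 : ((2 : ℝ) ^ (m + 1 + 2 * r)) ^ m * X ^ β < X ^ (β + ε)
  f3 : (2 : ℝ) ^ (m + 1 + 2 * r) * X ^ η0 < X ^ (1 / 2 : ℝ)
  f4 : (2 : ℝ) ^ Cb * 2 ^ (r + 1) * X ^ (Cb : ℝ) < X ^ (η0 * ((r + 1 : ℕ) : ℝ))
  f5 : 3 * Kg * X ^ (β / 2) < X ^ (β + η)
  f6 : (3 * 4 ^ (m + 1 + 2 * r) * (2 ^ (m + 1 + 2 * r)) ^ (m + 1) * C1 * C1 * Bz) * X ^ (β + η / 4)
    < X ^ (β + η)
  f7 : (3 * 2 ^ (m + 1 + 2 * r) * (2 ^ (m + 1 + 2 * r)) ^ m * C1 * K2) * X ^ (β + η / 4)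
    < X ^ (β + η)
  f8 : K1n * X ^ (4 * (m1 + ε)) < X ^ (4 * (w - ε))
  f9 : 4 * X ^ (w + ε) < X ^ (1 : ℝ)
  f10 : 2 * X ^ (0 : ℝ) < X ^ η0

theorem plNum_eventually {β η η0 ε w m1 Kg K1n K2 : ℝ} {m r C1 Bz Cb : ℕ} (hβ : 0 < β)
    (hη : 0 < η) (hη0 : 0 < η0) (hη1 : η0 < 1 / 2) (hε : 0 < ε)
    (hr : (Cb : ℝ) < η0 * ((r + 1 : ℕ) : ℝ)) (h8 : 4 * (m1 + ε) < 4 * (w - ε)) (h9 : w + ε < 1) :
    ∀ᶠ X : ℝ in Filter.atTop, PlNum β η η0 ε w m1 Kg K1n K2 m r C1 Bz Cb X := by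
  filter_upwards [pl_rpow (2 ^ m) (β - ε) β (by linarith),
    pl_rpow ((2 ^ (m + 1 + 2 * r)) ^ m) β (β + ε) (by linarith),
    pl_rpow (2 ^ (m + 1 + 2 * r)) η0 (1 / 2) hη1,
    pl_rpow (2 ^ Cb * 2 ^ (r + 1)) (Cb : ℝ) (η0 * ((r + 1 : ℕ) : ℝ)) hr,
    pl_rpow (3 * Kg) (β / 2) (β + η) (by linarith),
    pl_rpow (3 * 4 ^ (m + 1 + 2 * r) * (2 ^ (m + 1 + 2 * r)) ^ (m + 1) * C1 * C1 * Bz) (β + η / 4)
      (β + η) (by linarith only [hη]),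
    pl_rpow (3 * 2 ^ (m + 1 + 2 * r) * (2 ^ (m + 1 + 2 * r)) ^ m * C1 * K2) (β + η / 4)
      (β + η) (by linarith only [hη]),
    pl_rpow K1n (4 * (m1 + ε)) (4 * (w - ε)) h8,
    pl_rpow 4 (w + ε) 1 h9, pl_rpow 2 0 η0 hη0] with X h1 h2 h3 h4 h5 h6 h7 h8 h9 h10
  exact ⟨h1, h2, h3, h4, h5, h6, h7, h8, h9, h10⟩

theorem pl_size {β η η0 ε w m1 Kg K1n K2 : ℝ} {m r C1 Bz Cb : ℕ} {X : ℝ}
    (hf : PlNum β η η0 ε w m1 Kg K1n K2 m r C1 Bz Cb X) (hX1 : 1 ≤ X) (hη0m : η0 * m = β)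
    (hη04 : η0 ≤ η / 4) :
    ∃ b : ℕ, 1 ≤ b ∧ X ^ (β - ε) ≤ (b : ℝ) ^ m ∧
      ((2 ^ (m + 1 + 2 * r) * b : ℕ) : ℝ) ^ m ≤ X ^ (β + ε) ∧
      ((2 ^ (m + 1 + 2 * r) * b : ℕ) : ℝ) < X ^ (1 / 2 : ℝ) ∧
      (∀ H : ℕ, (H : ℝ) ≤ 2 * X → H ^ Cb < b ^ (r + 1)) ∧
      ((2 ^ (m + 1 + 2 * r) * b : ℕ) : ℝ) ^ (m + 1) ≤
        (2 ^ (m + 1 + 2 * r)) ^ (m + 1) * X ^ (β + η / 4) ∧
      ((2 ^ (m + 1 + 2 * r) * b : ℕ) : ℝ) ^ m ≤ (2 ^ (m + 1 + 2 * r)) ^ m * X ^ β := by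
  obtain ⟨f1, f2, f3, f4, -, -, -, -, -, f10⟩ := hf
  have hX0 : 0 < X := by linarith only [hX1]
  rw [Real.rpow_zero, mul_one] at f10
  obtain ⟨b, hbdef⟩ : ∃ b, b = ⌊X ^ η0⌋₊ := ⟨_, rfl⟩
  have hbX : (b : ℝ) ≤ X ^ η0 := by rw [hbdef]; exact Nat.floor_le (Real.rpow_nonneg hX0.le _)
  have hbX' : X ^ η0 < b + 1 := by rw [hbdef]; exact Nat.lt_floor_add_one _
  have hbh : X ^ η0 / 2 ≤ b := by linarith only [f10, hbX']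
  have hb1 : 1 ≤ b := by
    have h2 : (1 : ℝ) < b := by linarith only [hbX', f10]
    exact_mod_cast h2.le
  have hXη0 : 0 < X ^ η0 := Real.rpow_pos_of_pos hX0 _
  have hpm : (X ^ η0) ^ m = X ^ β := by
    rw [← Real.rpow_natCast, ← Real.rpow_mul hX0.le, hη0m]
  have hM2 : ((2 ^ (m + 1 + 2 * r) * b : ℕ) : ℝ) ≤ 2 ^ (m + 1 + 2 * r) * X ^ η0 := by
    push_cast
    exact mul_le_mul_of_nonneg_left hbX (by positivity)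
  have hhm : ((2 ^ (m + 1 + 2 * r) * b : ℕ) : ℝ) ^ m ≤ (2 ^ (m + 1 + 2 * r)) ^ m * X ^ β := by
    calc ((2 ^ (m + 1 + 2 * r) * b : ℕ) : ℝ) ^ m
        ≤ (2 ^ (m + 1 + 2 * r) * X ^ η0) ^ m := pow_le_pow_left₀ (by (clear * - hb1; positivity)) hM2 _
      _ = (2 ^ (m + 1 + 2 * r)) ^ m * X ^ β := by rw [mul_pow, hpm]
  refine ⟨b, hb1, ?_, hhm.trans f2.le, lt_of_le_of_lt hM2 f3, ?_, ?_, hhm⟩
  · have h1 : (X ^ η0 / 2) ^ m ≤ (b : ℝ) ^ m := pow_le_pow_left₀ (by positivity) hbh m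
    rw [div_pow, hpm] at h1
    refine le_trans ?_ h1
    rw [le_div_iff₀ (by positivity)]
    linarith only [f1]
  · intro H hHX
    have h1 : (H : ℝ) ^ Cb < (b : ℝ) ^ (r + 1) := by
      have h2 : (H : ℝ) ^ Cb ≤ 2 ^ Cb * X ^ (Cb : ℝ) := by
        rw [Real.rpow_natCast, ← mul_pow]
        exact pow_le_pow_left₀ (by (clear * -; positivity)) hHX _
      have h3 : X ^ (η0 * ((r + 1 : ℕ) : ℝ)) / 2 ^ (r + 1) ≤ (b : ℝ) ^ (r + 1) := by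
        have h4 : (X ^ η0 / 2) ^ (r + 1) ≤ (b : ℝ) ^ (r + 1) :=
          pow_le_pow_left₀ (by positivity) hbh _
        rwa [div_pow, ← Real.rpow_natCast (X ^ η0), ← Real.rpow_mul hX0.le] at h4
      refine lt_of_le_of_lt h2 (lt_of_lt_of_le ?_ h3)
      rw [lt_div_iff₀ (by positivity)]
      calc 2 ^ Cb * X ^ (Cb : ℝ) * 2 ^ (r + 1) = 2 ^ Cb * 2 ^ (r + 1) * X ^ (Cb : ℝ) := by ring
        _ < _ := f4
    exact_mod_cast h1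
  · calc ((2 ^ (m + 1 + 2 * r) * b : ℕ) : ℝ) ^ (m + 1)
        ≤ (2 ^ (m + 1 + 2 * r) * X ^ η0) ^ (m + 1) := pow_le_pow_left₀ (by positivity) hM2 _
      _ = (2 ^ (m + 1 + 2 * r)) ^ (m + 1) * (X ^ β * X ^ η0) := by
          rw [mul_pow, pow_succ (X ^ η0), hpm]
      _ = (2 ^ (m + 1 + 2 * r)) ^ (m + 1) * X ^ (β + η0) := by rw [← Real.rpow_add hX0]
      _ ≤ _ := mul_le_mul_of_nonneg_left
          (Real.rpow_le_rpow_of_exponent_le hX1 (by linarith only [hη04])) (by positivity)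

theorem pl_final {β η η0 ε w m1 Kg K1n K2 : ℝ} {m r C1 Bz Cb : ℕ} {X : ℝ}
    (hf : PlNum β η η0 ε w m1 Kg K1n K2 m r C1 Bz Cb X) (hX1 : 1 ≤ X) (hK2 : 0 < K2)
    {b sa sb : ℕ} (hsa : (sa : ℝ) ≤ Kg * X ^ (β / 2))
    (hq1 : ((2 ^ (m + 1 + 2 * r) * b : ℕ) : ℝ) ^ (m + 1) ≤
        (2 ^ (m + 1 + 2 * r)) ^ (m + 1) * X ^ (β + η / 4))
    (hq0 : ((2 ^ (m + 1 + 2 * r) * b : ℕ) : ℝ) ^ m ≤ (2 ^ (m + 1 + 2 * r)) ^ m * X ^ β)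
    (hsb : sb ≤ 4 ^ (m + 1 + 2 * r) * ((2 ^ (m + 1 + 2 * r) * b) ^ (m + 1) * (C1 * C1 * Bz)) +
      2 ^ (m + 1 + 2 * r) * ((2 ^ (m + 1 + 2 * r) * b) ^ m * (C1 * ⌊K2 * X ^ (η / 4)⌋₊))) :
    ((sa + sb : ℕ) : ℝ) ≤ X ^ (β + η) := by
  obtain ⟨-, -, -, -, f5, f6, f7, -, -, -⟩ := hf
  have hX0 : 0 < X := by linarith only [hX1]
  have hSb2 : (sb : ℝ) ≤ 4 ^ (m + 1 + 2 * r) *
      (((2 ^ (m + 1 + 2 * r) * b : ℕ) : ℝ) ^ (m + 1) * (C1 * C1 * Bz)) +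
      2 ^ (m + 1 + 2 * r) * (((2 ^ (m + 1 + 2 * r) * b : ℕ) : ℝ) ^ m *
        (C1 * (⌊K2 * X ^ (η / 4)⌋₊ : ℝ))) := by
    exact_mod_cast hsb
  have hfl : (⌊K2 * X ^ (η / 4)⌋₊ : ℝ) ≤ K2 * X ^ (η / 4) :=
    Nat.floor_le (mul_nonneg hK2.le (Real.rpow_nonneg hX0.le _))
  have hT1' : 4 ^ (m + 1 + 2 * r) *
      (((2 ^ (m + 1 + 2 * r) * b : ℕ) : ℝ) ^ (m + 1) * (C1 * C1 * Bz)) ≤ X ^ (β + η) / 3 := by
    have h1 : (4 : ℝ) ^ (m + 1 + 2 * r) *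
      (((2 ^ (m + 1 + 2 * r) * b : ℕ) : ℝ) ^ (m + 1) * (C1 * C1 * Bz)) ≤
        4 ^ (m + 1 + 2 * r) * (((2 ^ (m + 1 + 2 * r)) ^ (m + 1) * X ^ (β + η / 4)) *
          (C1 * C1 * Bz)) :=
      mul_le_mul_of_nonneg_left (mul_le_mul_of_nonneg_right hq1 (by positivity)) (by positivity)
    refine h1.trans ?_
    rw [le_div_iff₀ (by norm_num)]
    refine le_trans (le_of_eq ?_) f6.le
    ring
  have hT2' : 2 ^ (m + 1 + 2 * r) * (((2 ^ (m + 1 + 2 * r) * b : ℕ) : ℝ) ^ m *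
        (C1 * (⌊K2 * X ^ (η / 4)⌋₊ : ℝ))) ≤ X ^ (β + η) / 3 := by
    have h1 : (2 : ℝ) ^ (m + 1 + 2 * r) * (((2 ^ (m + 1 + 2 * r) * b : ℕ) : ℝ) ^ m *
        (C1 * (⌊K2 * X ^ (η / 4)⌋₊ : ℝ))) ≤
        2 ^ (m + 1 + 2 * r) * (((2 ^ (m + 1 + 2 * r)) ^ m * X ^ β) *
          (C1 * (K2 * X ^ (η / 4)))) := by
      refine mul_le_mul_of_nonneg_left (mul_le_mul hq0 ?_ (by positivity) (by positivity))
        (by positivity)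
      exact mul_le_mul_of_nonneg_left hfl (Nat.cast_nonneg _)
    refine h1.trans ?_
    rw [le_div_iff₀ (by norm_num)]
    refine le_trans (le_of_eq ?_) f7.le
    rw [Real.rpow_add hX0]
    ring
  have hfin : Kg * X ^ (β / 2) ≤ X ^ (β + η) / 3 := by
    rw [le_div_iff₀ (by norm_num)]
    linarith only [f5]
  push_cast
  linarith only [hT2', hT1', hSb2, f5, hsa]

theorem pl_nondeg {G : ℤ[X]} {θ : Fin 4 → 𝓞 L} (hF : Fld G θ) {C : ℕ} {K1n ε w m1 X T : ℝ}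
    {l1 l2 : Fin 4 → ℤ} (hK1n : 1 ≤ K1n)
    (hnorm : ∀ l : Fin 4 → ℤ, l ≠ 0 → ∃ N1 : ℤ, N1 ≠ 0 ∧ ∏ j, K.ell (θ j) l = (N1 : 𝓞 L) ∧
      |(N1 : ℝ)| ≤ K1n * (dot l l : ℝ) ^ 2) (hX1 : 1 ≤ X) (hXT : X ^ 3 ≤ T ^ 16)
    (hT1 : X ^ (w - ε) ≤ T) (hR : Red l1 l2) (ha2 : (dot l1 l1 : ℝ) ≤ X ^ (2 * (m1 + ε)))
    (f8 : K1n * X ^ (4 * (m1 + ε)) < X ^ (4 * (w - ε))) (hXC : ((C : ℝ) + 1) ^ 2 ≤ X)
    {N : ℤ} {p : ℕ} {c : ℤ} {z : Fin 4 → ℤ} {s t : ℤ} (hP : Pt θ C X T l1 l2 N p c z s t) :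
    NonDeg θ l1 l2 ∧ t ≠ 0 := by
  have hX0 : 0 < X := by linarith
  obtain ⟨c', hc', hc'C, hprod⟩ := hP.dat.nrm
  obtain ⟨N1, -, hN1, hN1b⟩ := hnorm l1 hR.1
  have hCp : (C : ℝ) < p := by
    refine small_lt hX1 hXT hP.dat.lo (Nat.cast_nonneg _) ?_
    have e1 : (0 : ℝ) ≤ C := Nat.cast_nonneg _
    have e2 : ((C : ℝ) + 1) ^ 2 = (C : ℝ) ^ 2 + 2 * C + 1 := by ring
    linarith only [e1, e2, hXC]
  refine nonDeg_of_dat G hF.monic hF.deg hF.irr θ hF.inj hF.split hR.2.2.2 hP.dat.prime hc' ?_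
    hN1 ?_ hprod
  · have h1 : (|c'| : ℝ) ≤ C := by exact_mod_cast hc'C
    have h2 : (|c'| : ℝ) < p := by linarith only [hCp, h1]
    exact_mod_cast h2
  · have h1 : (dot l1 l1 : ℝ) ^ 2 ≤ X ^ (4 * (m1 + ε)) := by
      have h2 : (0 : ℝ) ≤ dot l1 l1 := by exact_mod_cast pl_dot_nonneg l1
      calc (dot l1 l1 : ℝ) ^ 2 ≤ (X ^ (2 * (m1 + ε))) ^ 2 := pow_le_pow_left₀ h2 ha2 2
        _ = X ^ (4 * (m1 + ε)) := by
          rw [← Real.rpow_natCast, ← Real.rpow_mul hX0.le]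
          congr 1; push_cast; ring
    have h3 : X ^ (4 * (w - ε)) ≤ T ^ 4 := by
      calc X ^ (4 * (w - ε)) = (X ^ (w - ε)) ^ 4 := by
            rw [← Real.rpow_natCast, ← Real.rpow_mul hX0.le]
            congr 1; push_cast; ring
        _ ≤ T ^ 4 := pow_le_pow_left₀ (Real.rpow_nonneg hX0.le _) hT1 4
    have h4 : |(N1 : ℝ)| < p := by
      calc |(N1 : ℝ)| ≤ K1n * (dot l1 l1 : ℝ) ^ 2 := hN1b
        _ ≤ K1n * X ^ (4 * (m1 + ε)) := mul_le_mul_of_nonneg_left h1 (by linarith only [hK1n])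
        _ < X ^ (4 * (w - ε)) := f8
        _ ≤ T ^ 4 := h3
        _ ≤ p := hP.dat.lo
    exact_mod_cast h4

def GsStmt (θ : Fin 4 → 𝓞 L) (D C : ℕ) (ε K : ℝ) : Prop :=
    ∀ (H : ℕ) (X T : ℝ) (l1 l2 : Fin 4 → ℤ) (A B Λ : ℤ[X]) (S : Finset ℤ),
      2 ≤ H → 1 ≤ X → (H : ℝ) ^ 3 ≤ T ^ 16 → (H : ℝ) ≤ T ^ 4 * (H : ℝ) ^ (ε / 2) → T ≤ H → X ≤ H →
      (∀ a b : ℤ, a • l1 + b • l2 = 0 → a = 0 ∧ b = 0) →
      Λ.map (algebraMap ℤ (𝓞 L)) = ∏ j, piPoly θ l1 l2 j →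
      A.natDegree ≤ D → B.natDegree ≤ D →
      (∀ i, |A.coeff i| ≤ (H : ℤ) ^ C) → (∀ i, |B.coeff i| ≤ (H : ℤ) ^ C) →
      (∀ i, |Λ.coeff i| ≤ (H : ℤ) ^ C) →
      (∀ N ∈ S, ∃ (p : ℕ) (c : ℤ) (z : Fin 4 → ℤ) (s t : ℤ), Pt θ C X T l1 l2 N p c z s t ∧
        t ≠ 0 ∧ aeval ((s : ℚ) / t) A ≠ 0 ∧
        aeval ((s : ℚ) / t) A * (N : ℚ) = aeval ((s : ℚ) / t) B) →
      (S.card : ℝ) ≤ K * (H : ℝ) ^ ε

theorem pl_case_a {θ : Fin 4 → 𝓞 L} {C C0 : ℕ} {δ Kg X T : ℝ} (hδ : 0 ≤ δ) (hKg : 0 ≤ Kg)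
    (hgs : GsStmt θ 5 (2 * C + 2 * C0) δ Kg)
    {l1 l2 : Fin 4 → ℤ} {A B Λ : ℤ[X]} {S : Finset ℤ} (hX8 : 8 ≤ X) (hXT : X ^ 3 ≤ T ^ 16)
    (hFT : ∀ F : ℝ, 1 ≤ F → F ≤ X → F ≤ T ^ 4 * F ^ (δ / 2))
    (hT0 : 0 ≤ T) (hTX : T ≤ X / 4) (hR : Red l1 l2)
    (hΛ : Λ.map (algebraMap ℤ (𝓞 L)) = ∏ j, piPoly θ l1 l2 j)
    (hdA : A.natDegree ≤ 5) (hdB : B.natDegree ≤ 5)
    (hA : ∀ i, |A.coeff i| ≤ (⌈X⌉₊ : ℤ) ^ C0) (hB : ∀ i, |B.coeff i| ≤ (⌈X⌉₊ : ℤ) ^ C0)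
    (hΛ' : ∀ i, |Λ.coeff i| ≤ (⌈X⌉₊ : ℤ) ^ C0)
    (hS : ∀ N ∈ S, ∃ (p : ℕ) (c : ℤ) (z : Fin 4 → ℤ) (s t : ℤ), Pt θ C X T l1 l2 N p c z s t ∧
        t ≠ 0 ∧ aeval ((s : ℚ) / t) A ≠ 0 ∧
        aeval ((s : ℚ) / t) A * (N : ℚ) = aeval ((s : ℚ) / t) B) :
    (S.card : ℝ) ≤ Kg * X ^ δ := by
  have hX0 : 0 < X := by linarith only [hX8]
  obtain ⟨H', hH'def⟩ : ∃ H', H' = ⌊X⌋₊ := ⟨_, rfl⟩
  have hH'X : (H' : ℝ) ≤ X := by rw [hH'def]; exact Nat.floor_le hX0.le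
  have hXH' : X < H' + 1 := by rw [hH'def]; exact Nat.lt_floor_add_one X
  have hH'2 : 2 ≤ H' := by
    have : (1 : ℝ) < H' := by linarith only [hXH', hX8]
    exact_mod_cast this
  have hHH' : ⌈X⌉₊ ≤ H' ^ 2 := by
    have h1 : ⌈X⌉₊ ≤ H' + 1 := by
      rw [hH'def]; exact Nat.ceil_le_floor_add_one X
    nlinarith
  have hpow : (⌈X⌉₊ : ℤ) ^ C0 ≤ (H' : ℤ) ^ (2 * C + 2 * C0) := by
    have h1 : ⌈X⌉₊ ^ C0 ≤ H' ^ (2 * C + 2 * C0) := by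
      calc ⌈X⌉₊ ^ C0 ≤ (H' ^ 2) ^ C0 := Nat.pow_le_pow_left hHH' _
        _ = H' ^ (2 * C0) := by rw [← pow_mul]
        _ ≤ H' ^ (2 * C + 2 * C0) := Nat.pow_le_pow_right (by omega) (by omega)
    exact_mod_cast h1
  have h1 := hgs H' (X / 2) T l1 l2 A B Λ S hH'2 (by linarith only [hX8]) ((pow_le_pow_left₀ (Nat.cast_nonneg _) hH'X 3).trans hXT)
    (hFT H' (by linarith only [hXH', hX8]) hH'X) (by linarith only [hX8, hTX, hXH']) (by linarith only [hXH', hX8]) hR.2.2.2 hΛ hdA hdB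
    (fun i => (hA i).trans hpow) (fun i => (hB i).trans hpow)
    (fun i => (hΛ' i).trans hpow) ?_
  · refine h1.trans (mul_le_mul_of_nonneg_left ?_ hKg)
    exact Real.rpow_le_rpow (Nat.cast_nonneg _) hH'X hδ
  · intro N hN
    obtain ⟨p, c, z, s, t, hP, ht, h2, h3⟩ := hS N hN
    exact ⟨p, c, z, s, t, hP.half (by omega) hX0.le hT0, ht, h2, h3⟩

theorem pl_main {G : ℤ[X]} {θ : Fin 4 → 𝓞 L} (hF : Fld G θ)
    {C C0 Ckp C1 Dg m r Bz Cb : ℕ} {w m1 m2 β η η0 ε1 ε2 ε K1 K2 Kg K1n : ℝ}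
    (hC0 : ∀ (H : ℕ) (l1 l2 : Fin 4 → ℤ), 2 ≤ H → l1 ≠ 0 → (∀ j, |l1 j| ≤ H) →
      (∀ j, |l2 j| ≤ H) → NonDeg θ l1 l2 →
      ∃ (d : Fin 2 → ℕ) (A B : Fin 2 → ℤ[X]) (Z : Fin 2 → Fin 4 → ℤ[X]) (Λ : ℤ[X]) (c : ℤ),
        KData θ l1 l2 d A B Z Λ c ∧ |c| ≤ (H : ℤ) ^ C0 ∧
        (∀ i k, |(A i).coeff k| ≤ (H : ℤ) ^ C0) ∧ (∀ i k, |(B i).coeff k| ≤ (H : ℤ) ^ C0) ∧
        (∀ i m k, |(Z i m).coeff k| ≤ (H : ℤ) ^ C0) ∧ (∀ k, |Λ.coeff k| ≤ (H : ℤ) ^ C0))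
    (hkp : KpStmt θ C C0 Ckp) (hcl : ClStmt θ C C0 w m1 m2 β ε1 Dg C1 K1)
    (hcc : CcStmt θ C Dg m (C0 + Ckp + C1) w m1 β (η / 4) ε2 K2)
    (hbez : ∀ g Ψ : ℚ[X][X], Irreducible g → ¬ g ∣ Ψ → BiDeg Dg Dg g → BiDeg Dg Dg Ψ →
      ∀ S : Finset (ℚ × ℚ), (∀ z ∈ S, ev g z.1 z.2 = 0 ∧ ev Ψ z.1 z.2 = 0) → S.card ≤ Bz)
    (hgs : GsStmt θ 5 (2 * C + 2 * C0) (β / 2) Kg)
    (hK1n : 1 ≤ K1n)
    (hnorm : ∀ l : Fin 4 → ℤ, l ≠ 0 → ∃ N1 : ℤ, N1 ≠ 0 ∧ ∏ j, K.ell (θ j) l = (N1 : 𝓞 L) ∧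
      |(N1 : ℝ)| ≤ K1n * (dot l l : ℝ) ^ 2)
    (hβ : 0 < β) (hKg : 0 < Kg) (hK2 : 0 < K2) (hη0m : η0 * m = β) (hη04 : η0 ≤ η / 4)
    (hεε1 : ε ≤ ε1) (hεε2 : ε ≤ ε2) (hm1ε : m1 + ε ≤ 1) (hm2ε : m2 + ε ≤ 1)
    (hCb : Cb = (3 * (C0 + Ckp + C1) + 16) +
      ((C0 + Ckp + C1) + 2 * Dg + (C0 + Ckp + C1) * Dg + 3))
    {X T : ℝ} {l1 l2 : Fin 4 → ℤ}
    (hf : PlNum β η η0 ε w m1 Kg K1n K2 m r C1 Bz Cb X)
    (hX8 : 8 ≤ X) (hXK1 : K1 ≤ X) (hXK2 : K2 ≤ X) (hXC : (C : ℝ) + 1 ≤ X) (hXC2 : ((C : ℝ) + 1) ^ 2 ≤ X) (hXD : (Dg : ℝ) + 1 ≤ X)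
    (hXT : X ^ 3 ≤ T ^ 16)
    (hFT : ∀ F : ℝ, 1 ≤ F → F ≤ X → F ≤ T ^ 4 * F ^ ((β / 2) / 2)) (hT1 : X ^ (w - ε) ≤ T) (hT2 : T ≤ X ^ (w + ε)) (hR : Red l1 l2)
    (ha1 : X ^ (2 * (m1 - ε)) ≤ dot l1 l1) (ha2 : (dot l1 l1 : ℝ) ≤ X ^ (2 * (m1 + ε)))
    (ha3 : X ^ (2 * (m2 - ε)) ≤ dot l2 l2) (ha4 : (dot l2 l2 : ℝ) ≤ X ^ (2 * (m2 + ε)))
    (S : Finset ℤ) (hS : ∀ N ∈ S, ∃ (p : ℕ) (c : ℤ) (z : Fin 4 → ℤ) (s t : ℤ),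
        Pt θ C X T l1 l2 N p c z s t) : (S.card : ℝ) ≤ X ^ (β + η) := by
  classical
  have hX1 : 1 ≤ X := by linarith only [hX8]
  have hX0 : 0 < X := by linarith only [hX8]
  have mono : ∀ a b : ℝ, a ≤ b → X ^ a ≤ X ^ b := fun a b h =>
    Real.rpow_le_rpow_of_exponent_le hX1 h
  have hT0 : 0 < T := (Real.rpow_pos_of_pos hX0 _).trans_le hT1
  rcases S.eq_empty_or_nonempty with rfl | ⟨N0, hN0⟩
  · rw [Finset.card_empty, Nat.cast_zero]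
    exact Real.rpow_nonneg hX0.le _
  have hl2 : l2 ≠ 0 := by
    rintro rfl
    have := hR.2.2.2 0 1 (by simp)
    omega
  have hnd : ∀ (N : ℤ) (p : ℕ) (c : ℤ) (z : Fin 4 → ℤ) (s t : ℤ), Pt θ C X T l1 l2 N p c z s t →
      NonDeg θ l1 l2 ∧ t ≠ 0 := fun N p c z s t hP =>
    pl_nondeg hF hK1n hnorm hX1 hXT hT1 hR ha2 hf.f8 hXC2 hP
  have hND : NonDeg θ l1 l2 := by
    obtain ⟨p, c, z, s, t, hP⟩ := hS N0 hN0
    exact (hnd N0 p c z s t hP).1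
  have hXH : X ≤ (⌈X⌉₊ : ℝ) := Nat.le_ceil X
  have hH1 : (⌈X⌉₊ : ℝ) < X + 1 := Nat.ceil_lt_add_one hX0.le
  have hHX : (⌈X⌉₊ : ℝ) ≤ 2 * X := by linarith only [hX8, hH1]
  have hH2 : 2 ≤ ⌈X⌉₊ := by
    have : (2 : ℝ) ≤ (⌈X⌉₊ : ℝ) := by linarith only [hXH, hX8]
    exact_mod_cast this
  have hTX : T ≤ X / 4 := by
    have := hf.f9
    rw [Real.rpow_one] at this
    linarith only [hT2, this]
  have hTH : T ≤ (⌈X⌉₊ : ℝ) := by linarith only [hTX, hXH, hX8]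
  have hCH : C ≤ ⌈X⌉₊ := by
    have : (C : ℝ) ≤ (⌈X⌉₊ : ℝ) := by linarith only [hXH, hXC]
    exact_mod_cast this
  have hDH : Dg + 1 ≤ ⌈X⌉₊ := by
    have : (Dg : ℝ) + 1 ≤ (⌈X⌉₊ : ℝ) := by linarith only [hXH, hXD]
    exact_mod_cast this
  obtain ⟨d, A, B, Z, Λ, e, hKD, -, hA, hB, -, hΛ⟩ := hC0 ⌈X⌉₊ l1 l2 hH2 hR.1
    (pl_lH hX1 l1 (m1 + ε) hm1ε ha2) (pl_lH hX1 l2 (m2 + ε) hm2ε ha4) hND
  obtain ⟨b, hb1, hlo, hhi, hbX, hbad, hq1, hq0⟩ := pl_size hf hX1 hη0m hη04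
  have hbad' := hbad ⌈X⌉₊ hHX
  have hbad1 : ⌈X⌉₊ ^ (3 * (C0 + Ckp + C1) + 16) < b ^ (r + 1) :=
    lt_of_le_of_lt (Nat.pow_le_pow_right (by omega) (by omega)) hbad'
  have hbad2 : ⌈X⌉₊ ^ ((C0 + Ckp + C1) + 2 * Dg + (C0 + Ckp + C1) * Dg + 3) < b ^ (r + 1) :=
    lt_of_le_of_lt (Nat.pow_le_pow_right (by omega) (by omega)) hbad'
  have hHi1 : (1 : ℤ) ≤ (⌈X⌉₊ : ℤ) := by exact_mod_cast (by omega : 1 ≤ ⌈X⌉₊)
  have hd5 : ∀ i, d i ≤ 5 := by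
    rw [Fin.forall_fin_two]
    rcases hKD.dd with ⟨h2, h3⟩ | ⟨h2, h3⟩ <;> rw [h2, h3] <;> decide
  rw [← Finset.card_filter_add_card_filter_not (s := S) fun N => ∃ (p : ℕ) (c : ℤ)
    (z : Fin 4 → ℤ) (s t : ℤ), Pt θ C X T l1 l2 N p c z s t ∧ t ≠ 0 ∧
      aeval ((s : ℚ) / t) (A 1) ≠ 0 ∧
      aeval ((s : ℚ) / t) (A 1) * (N : ℚ) = aeval ((s : ℚ) / t) (B 1)]
  refine pl_final hf hX1 hK2 ?_ hq1 hq0 ?_
  · exact pl_case_a (by linarith only [hβ]) hKg.le hgs hX8 hXT hFT hT0.le hTX hR hKD.hΛ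
      ((hKD.dA 1).trans (hd5 1)) ((hKD.dB 1).trans (hd5 1)) (hA 1) (hB 1) hΛ
      (fun N hN => (Finset.mem_filter.1 hN).2)
  · refine count_b (η := η / 4) (C2 := C0 + Ckp + C1) (r := r) hcl hcc (by omega) (by omega) hbez
      hXK1 hXK2 hXH hHX hXT hX1 hT0.le hTH hH2 hCH hDH
      ((mono _ _ (by linarith only [hεε1])).trans hT1) (hT2.trans (mono _ _ (by linarith only [hεε1])))
      ((mono _ _ (by linarith only [hεε2])).trans hT1) (hT2.trans (mono _ _ (by linarith only [hεε2])))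
      ((mono _ _ (by linarith only [hεε1])).trans ha1) (ha2.trans (mono _ _ (by linarith only [hεε1])))
      ((mono _ _ (by linarith only [hεε1])).trans ha3) (ha4.trans (mono _ _ (by linarith only [hεε1])))
      ((mono _ _ (by linarith only [hεε2])).trans ha1) hR hND hKD hA hB hΛ hb1
      ((mono _ _ (by linarith only [hεε1])).trans hlo) (hhi.trans (mono _ _ (by linarith only [hεε1])))
      ((mono _ _ (by linarith only [hεε2])).trans hlo) (hhi.trans (mono _ _ (by linarith only [hεε2])))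
      hbX hbad1 hbad2 _ ?_
    intro N hN
    rw [Finset.mem_filter] at hN
    obtain ⟨p, c, z, s, t, hP⟩ := hS N hN.1
    have ht := (hnd N p c z s t hP).2
    rcases hkp ⌈X⌉₊ X T l1 l2 d A B Z Λ e N p c z s t hH2 hXH hTH ht hR.1 hl2 hKD hA hB hP with
      h1 | ⟨kn, kd, h1, h2, h3⟩
    · exact absurd ⟨p, c, z, s, t, hP, ht, h1.1, h1.2⟩ hN.2
    · exact ⟨p, c, z, s, t, kn, kd, hP, h1,
        h2.trans (pow_le_pow_right₀ hHi1 (by omega)), h3.trans (pow_le_pow_right₀ hHi1 (by omega))⟩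

theorem pair_local_of {G : ℤ[X]} {θ : Fin 4 → 𝓞 L} (hF : Fld G θ) (C : ℕ) (w m1 m2 β : ℝ)
    (hw : 1 / 4 ≤ w) (hw' : w ≤ 1 / 2) (hm1 : 0 ≤ m1) (hm12 : m1 ≤ m2) (hm : m2 < w)
    (hβ : 0 < β) (hcur : NumCurve w m1 β)
    (hkpS : ∀ C0 : ℕ, ∃ C1 : ℕ, KpStmt θ C C0 C1)
    (hclS : ∀ C0 : ℕ, ∃ ε : ℝ, 0 < ε ∧ ∃ (Dg C1 : ℕ) (K : ℝ), 0 < K ∧
      ClStmt θ C C0 w m1 m2 β ε Dg C1 K)
    (η : ℝ) (hη : 0 < η) :
    ∃ ε : ℝ, 0 < ε ∧ ∃ K : ℝ, 0 < K ∧ ∀ (X T : ℝ) (l1 l2 : Fin 4 → ℤ),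
      K ≤ X → X ^ 3 ≤ T ^ 16 → X ^ (w - ε) ≤ T → T ≤ X ^ (w + ε) → Red l1 l2 →
      X ^ (2 * (m1 - ε)) ≤ dot l1 l1 → (dot l1 l1 : ℝ) ≤ X ^ (2 * (m1 + ε)) →
      X ^ (2 * (m2 - ε)) ≤ dot l2 l2 → (dot l2 l2 : ℝ) ≤ X ^ (2 * (m2 + ε)) →
      ∀ S : Finset ℤ, (∀ N ∈ S, ∃ (p : ℕ) (c : ℤ) (z : Fin 4 → ℤ) (s t : ℤ),
        Pt θ C X T l1 l2 N p c z s t) → (S.card : ℝ) ≤ X ^ (β + η) := by
  have hw0 : 0 < w := by linarith only [hm, hm12, hm1]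
  have hm1w : m1 < w := lt_of_le_of_lt hm12 hm
  obtain ⟨C0, hC0⟩ := exists_kappa G hF.monic hF.deg hF.irr θ hF.inj hF.split
  obtain ⟨Ckp, hkp⟩ := hkpS C0
  obtain ⟨ε1, hε1, Dg, C1, K1, hK1, hcl⟩ := hclS C0
  obtain ⟨Bz, hBz⟩ := bezout2 Dg Dg
  obtain ⟨K1n, hK1n, hnorm⟩ := norm_int hF
  obtain ⟨m, hmm⟩ := exists_nat_gt (4 * β / η + 2 * β + 1)
  have hpos : 0 < 4 * β / η := by positivity
  have hm0 : (0 : ℝ) < m := by linarith only [hpos, hmm, hw0, hβ, hw']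
  have hmβ : 2 * β < m := by linarith only [hpos, hmm, hw0, hw']
  obtain ⟨η0, hη0⟩ : ∃ η0, η0 = β / m := ⟨_, rfl⟩
  have hη0p : 0 < η0 := by rw [hη0]; (clear * - hβ hm0; positivity)
  have hη01 : η0 < 1 / 2 := by rw [hη0, div_lt_iff₀ hm0]; linarith only [hmβ]
  have hη0m : η0 * m = β := by rw [hη0]; field_simp
  have hη04 : η0 ≤ η / 4 := by
    rw [hη0, div_le_iff₀ hm0]
    have h1 : 4 * β / η < m := by linarith only [hβ, hmm, hη0p, hη01]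
    rw [div_lt_iff₀ hη] at h1
    linarith only [h1]
  obtain ⟨ε2, hε2, K2, hK2, hcc⟩ := N.curve_count hF C Dg m (C0 + Ckp + C1) w m1 β hw0 hw hw' hm1 hm1w
    hβ hcur (η / 4) (by positivity)
  obtain ⟨Cb, hCb⟩ : ∃ Cb, Cb = (3 * (C0 + Ckp + C1) + 16) +
      ((C0 + Ckp + C1) + 2 * Dg + (C0 + Ckp + C1) * Dg + 3) := ⟨_, rfl⟩
  obtain ⟨r, hr⟩ := exists_nat_gt ((Cb : ℝ) / η0)
  have hr' : (Cb : ℝ) < η0 * ((r + 1 : ℕ) : ℝ) := by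
    rw [div_lt_iff₀ hη0p] at hr
    push_cast
    linarith only [hr, hη0p]
  obtain ⟨Kg, hKg, hgs⟩ := N.gap_sigma' hF 5 (2 * C + 2 * C0) (β / 2) (by positivity)
  obtain ⟨ε, hεdef⟩ : ∃ ε, ε = min (min ε1 ε2) (min ((w - m1) / 4) (min (1 / 8) (β / 16))) := ⟨_, rfl⟩
  have hε : 0 < ε := by
    rw [hεdef]
    exact lt_min (lt_min hε1 hε2) (lt_min (by linarith only [hm1w]) (lt_min (by norm_num) (by linarith only [hβ])))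
  have hεε1 : ε ≤ ε1 := by rw [hεdef]; exact (min_le_left _ _).trans (min_le_left _ _)
  have hεε2 : ε ≤ ε2 := by rw [hεdef]; exact (min_le_left _ _).trans (min_le_right _ _)
  have hεw : ε ≤ (w - m1) / 4 := by rw [hεdef]; exact (min_le_right _ _).trans (min_le_left _ _)
  have hε8 : ε ≤ 1 / 8 := by rw [hεdef]; exact (min_le_right _ _).trans ((min_le_right _ _).trans (min_le_left _ _))
  have hεβ : ε ≤ β / 16 := by rw [hεdef]; exact (min_le_right _ _).trans ((min_le_right _ _).trans (min_le_right _ _))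
  obtain ⟨Kn, hKn⟩ := Filter.eventually_atTop.1 (plNum_eventually (β := β) (η := η) (η0 := η0)
    (ε := ε) (w := w) (m1 := m1) (Kg := Kg) (K1n := K1n) (K2 := K2) (m := m) (r := r) (C1 := C1)
    (Bz := Bz) (Cb := Cb) hβ hη hη0p hη01 hε hr' (by linarith only [hεw, hε]) (by linarith only [hε8, hε, hw']))
  have hC0' : (0 : ℝ) ≤ C := Nat.cast_nonneg _
  have hDg0' : (0 : ℝ) ≤ Dg := Nat.cast_nonneg _
  have hKn0 := abs_nonneg Kn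
  have hKn1 := le_abs_self Kn
  refine ⟨ε, hε, |Kn| + K1 + K2 + C + Dg + 8 + ((C : ℝ) + 1) ^ 2, by (clear * - hK1 hK2; positivity),
    fun X T l1 l2 hKX hXT hT1 hT2 hR ha1 ha2 ha3 ha4 S hS => ?_⟩
  have hCC2 : (0 : ℝ) ≤ ((C : ℝ) + 1) ^ 2 := by positivity
  have hX8 : 8 ≤ X := by linarith only [hKX, hKn0, hK2, hK1, hC0', hDg0', hCC2]
  exact N.pl_main hF hC0 hkp hcl hcc hBz hgs hK1n hnorm hβ hKg hK2 hη0m hη04 hεε1 hεε2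
    (by linarith only [hw', hε, hεw, hε8]) (by linarith only [hw', hm, hε, hε8]) hCb
    (hKn X (by linarith only [hK1, hK2, hKn1, hKX, hC0', hDg0', hCC2])) hX8
    (by linarith only [hKX, hKn0, hK2, hC0', hDg0', hCC2])
    (by linarith only [hKX, hKn0, hK1, hC0', hDg0', hCC2])
    (by linarith only [hK1, hK2, hKn0, hKX, hC0', hDg0', hCC2])
    (by linarith only [hK1, hK2, hKn0, hKX, hC0', hDg0', hCC2])
    (by linarith only [hKX, hKn0, hK2, hK1, hC0', hDg0', hCC2]) hXT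
    (fun F hF1 hFX => size_F hw hε (by linarith only [hε8]) (by linarith only [hεβ]) hF1 hFX hT1)
    hT1 hT2 hR ha1 ha2 ha3 ha4 S hS

private theorem abs_le_aux {C : ℕ} {X T w m ε : ℝ} {s D : ℤ} (hX : 1 ≤ X) (hT0 : 0 ≤ T)
    (hT : T ≤ X ^ (w + ε)) (hD : X ^ (2 * (m - ε)) ≤ D) (h : (s : ℝ) ^ 2 * D ≤ C * T ^ 2) :
    |(s : ℝ)| ≤ Real.sqrt C * X ^ (w - m + 2 * ε) := by
  have hX0 : 0 < X := by linarith
  have hA : 0 ≤ Real.sqrt C * X ^ (w - m + 2 * ε) := by positivity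
  apply abs_le_of_sq_le_sq _ hA
  have hp : 0 < X ^ (2 * (m - ε)) := by positivity
  have h1 : (s : ℝ) ^ 2 * X ^ (2 * (m - ε)) ≤ C * (X ^ (w + ε)) ^ 2 := by
    calc (s : ℝ) ^ 2 * X ^ (2 * (m - ε)) ≤ (s : ℝ) ^ 2 * D := by
          exact mul_le_mul_of_nonneg_left hD (sq_nonneg _)
      _ ≤ C * T ^ 2 := h
      _ ≤ C * (X ^ (w + ε)) ^ 2 := by gcongr
  have h2 : (Real.sqrt C * X ^ (w - m + 2 * ε)) ^ 2 * X ^ (2 * (m - ε)) =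
      C * (X ^ (w + ε)) ^ 2 := by
    rw [mul_pow, Real.sq_sqrt (Nat.cast_nonneg C), mul_assoc]
    congr 1
    rw [← Real.rpow_natCast, ← Real.rpow_natCast, ← Real.rpow_mul hX0.le,
      ← Real.rpow_mul hX0.le, ← Real.rpow_add hX0]
    congr 1
    push_cast
    ring
  rw [← h2] at h1
  exact le_of_mul_le_mul_right h1 hp

theorem pair_trivial {G : ℤ[X]} {θ : Fin 4 → 𝓞 L} (hF : Fld G θ) (C : ℕ) (w m1 m2 : ℝ)
    (hw : 1 / 4 ≤ w) (hm1 : 0 ≤ m1) (hm12 : m1 ≤ m2) (hm : m2 < w) (η : ℝ) (hη : 0 < η) :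
    ∃ ε : ℝ, 0 < ε ∧ ∃ K : ℝ, 0 < K ∧ ∀ (X T : ℝ) (l1 l2 : Fin 4 → ℤ),
      K ≤ X → X ^ 3 ≤ T ^ 16 → X ^ (w - ε) ≤ T → T ≤ X ^ (w + ε) → Red l1 l2 →
      X ^ (2 * (m1 - ε)) ≤ dot l1 l1 → (dot l1 l1 : ℝ) ≤ X ^ (2 * (m1 + ε)) →
      X ^ (2 * (m2 - ε)) ≤ dot l2 l2 → (dot l2 l2 : ℝ) ≤ X ^ (2 * (m2 + ε)) →
      ∀ S : Finset ℤ, (∀ N ∈ S, ∃ (p : ℕ) (c : ℤ) (z : Fin 4 → ℤ) (s t : ℤ),
        Pt θ C X T l1 l2 N p c z s t) → (S.card : ℝ) ≤ X ^ (2 * w - m1 - m2 + η) := by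
  obtain ⟨K0, hK0⟩ := N.pt_unique' hF C
  set M : ℝ := 2 * Real.sqrt C + 1 with hM
  have hM1 : 1 ≤ M := by
    have := Real.sqrt_nonneg (C : ℝ)
    linarith only [this]
  refine ⟨η / 8, by positivity, max (max K0 1) ((M ^ 2) ^ (2 / η)), by positivity, ?_⟩
  intro X T l1 l2 hKX hXT hT1 hT2 _ hl1 _ hl2 _ S hS
  have hXK0 : K0 ≤ X := le_trans (le_trans (le_max_left _ _) (le_max_left _ _)) hKX
  have hX1 : 1 ≤ X := le_trans (le_trans (le_max_right _ _) (le_max_left _ _)) hKX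
  have hXM : (M ^ 2) ^ (2 / η) ≤ X := le_trans (le_max_right _ _) hKX
  have hX0 : 0 < X := by linarith only [hX1]
  have hT0 : 0 ≤ T := le_trans (by positivity) hT1
  have hMX : M ^ 2 ≤ X ^ (η / 2) := by
    have h1 : ((M ^ 2) ^ (2 / η)) ^ (η / 2) ≤ X ^ (η / 2) := by
      apply Real.rpow_le_rpow (by (clear * -; positivity)) hXM (by positivity)
    rwa [← Real.rpow_mul (by (clear * -; positivity)), show 2 / η * (η / 2) = 1 by field_simp,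
      Real.rpow_one] at h1
  choose! p c z s t hPt using hS
  have hbd : ∀ m : ℝ, m < w → 2 * (⌊Real.sqrt C * X ^ (w - m + 2 * (η / 8))⌋ : ℝ) + 1 ≤
      M * X ^ (w - m + η / 4) := by
    intro m hmw
    have h1 : (1 : ℝ) ≤ X ^ (w - m + η / 4) := Real.one_le_rpow hX1 (by linarith only [hη, hmw])
    have h2 := Int.floor_le (Real.sqrt C * X ^ (w - m + 2 * (η / 8)))
    rw [show w - m + 2 * (η / 8) = w - m + η / 4 by ring] at h2 ⊢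
    have h3 : M * X ^ (w - m + η / 4) =
        2 * (Real.sqrt C * X ^ (w - m + η / 4)) + X ^ (w - m + η / 4) := by
      rw [hM]; ring
    rw [h3]
    linarith only [h1, h2]
  set A : ℤ := ⌊Real.sqrt C * X ^ (w - m1 + 2 * (η / 8))⌋ with hA
  set B : ℤ := ⌊Real.sqrt C * X ^ (w - m2 + 2 * (η / 8))⌋ with hB
  have hA0 : 0 ≤ A := Int.floor_nonneg.2 (by (clear * - hX1; positivity))
  have hB0 : 0 ≤ B := Int.floor_nonneg.2 (by (clear * - hX1; positivity))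
  have hmem : ∀ N ∈ S, (s N, t N) ∈ (Finset.Icc (-A) A) ×ˢ (Finset.Icc (-B) B) := by
    intro N hN
    have h := hPt N hN
    have h1 := abs_le_aux hX1 hT0 hT2 hl1 h.hs
    have h2 := abs_le_aux hX1 hT0 hT2 hl2 h.ht
    have h3 : |s N| ≤ A := by
      rw [hA, Int.le_floor]; push_cast; exact h1
    have h4 : |t N| ≤ B := by
      rw [hB, Int.le_floor]; push_cast; exact h2
    rw [Finset.mem_product, Finset.mem_Icc, Finset.mem_Icc]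
    exact ⟨abs_le.1 h3, abs_le.1 h4⟩
  have hinj : Set.InjOn (fun N => (s N, t N)) S := by
    intro N hN N' hN' he
    have he1 : s N = s N' := congrArg Prod.fst he
    have he2 : t N = t N' := congrArg Prod.snd he
    exact hK0 X T l1 l2 N N' _ _ _ _ _ _ _ _ _ _ hXK0 hXT (hPt N hN) (hPt N' hN')
      (by rw [he1, he2])
  have hcard : S.card ≤ ((Finset.Icc (-A) A) ×ˢ (Finset.Icc (-B) B)).card :=
    Finset.card_le_card_of_injOn _ hmem hinj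
  rw [Finset.card_product, Int.card_Icc, Int.card_Icc] at hcard
  have hcA : (((A + 1 - -A).toNat : ℕ) : ℝ) = 2 * (A : ℝ) + 1 := by
    have : (((A + 1 - -A).toNat : ℕ) : ℤ) = 2 * A + 1 := by omega
    exact_mod_cast this
  have hcB : (((B + 1 - -B).toNat : ℕ) : ℝ) = 2 * (B : ℝ) + 1 := by
    have : (((B + 1 - -B).toNat : ℕ) : ℤ) = 2 * B + 1 := by omega
    exact_mod_cast this
  have hcard' : (S.card : ℝ) ≤ (2 * (A : ℝ) + 1) * (2 * (B : ℝ) + 1) := by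
    rw [← hcA, ← hcB]; exact_mod_cast hcard
  have hB0' : (0 : ℝ) ≤ 2 * (B : ℝ) + 1 := by
    have : (0 : ℝ) ≤ B := by exact_mod_cast hB0
    linarith only [this]
  calc (S.card : ℝ) ≤ (2 * (A : ℝ) + 1) * (2 * (B : ℝ) + 1) := hcard'
    _ ≤ (M * X ^ (w - m1 + η / 4)) * (M * X ^ (w - m2 + η / 4)) := by
        apply mul_le_mul (hbd m1 (by linarith only [hm, hm12])) (hbd m2 hm) hB0' (by (clear * - hX1; positivity))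
    _ = M ^ 2 * X ^ (2 * w - m1 - m2 + η / 2) := by
        have hh : X ^ (2 * w - m1 - m2 + η / 2) =
            X ^ (w - m1 + η / 4) * X ^ (w - m2 + η / 4) := by
          rw [← Real.rpow_add hX0]
          congr 1
          ring
        rw [hh]
        ring
    _ ≤ X ^ (η / 2) * X ^ (2 * w - m1 - m2 + η / 2) := by gcongr
    _ = X ^ (2 * w - m1 - m2 + η) := by
        rw [← Real.rpow_add hX0]
        congr 1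
        ring

end Vale.Agent.P018.Q.N
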